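import Vale.Agent.P042Y.Defs

/-! The component through a simple root. -/

namespace Vale.Agent.P042Y

open Polynomial Finset

variable {E : Type} [Field E]

theorem cf_ev_eval (a c : E) (q : E[X][X]) : (ev a q).eval c = q.evalEval a c := by
  have : (aeval a : E[X] →ₐ[E] E).toRingHom = evalRingHom a := by
    ext <;> simp
  rw [ev, this, map_evalRingHom_eval]

theorem cf_hq_monic {H : E[X]} (hm : H.Monic) (hk : 1 ≤ H.natDegree) (a : E[X]) :
    (hq H a).Monic ∧ (hq H a).natDegree = H.natDegree := by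
  have h1 : (H.map (C : E →+* E[X])).Monic := hm.map _
  have h2 : (H.map (C : E →+* E[X])).natDegree = H.natDegree := hm.natDegree_map _
  have h3 : (C a : E[X][X]).natDegree < (H.map (C : E →+* E[X])).natDegree := by
    rw [natDegree_C, h2]; omega
  refine ⟨?_, ?_⟩
  · rw [hq]
    exact h1.sub_of_left (degree_lt_degree h3)
  · rw [hq, natDegree_sub_eq_left_of_natDegree_lt h3, h2]

theorem cf_evalEval_hq (H : E[X]) (a c : E) :
    (hq H (-H)).evalEval a c = H.eval a + H.eval c := by
  rw [hq, evalEval_sub, evalEval_map_C, evalEval_C, eval_neg]; ring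

theorem cf_monic_assoc {F g : E[X][X]} (hF : F.Monic) (hg : g ∣ F) :
    ∃ u : E[X], IsUnit u ∧ (C u * g).Monic := by
  obtain ⟨q, rfl⟩ := hg
  have h : g.leadingCoeff * q.leadingCoeff = 1 := by
    rw [← leadingCoeff_mul]; exact hF
  refine ⟨q.leadingCoeff, IsUnit.of_mul_eq_one g.leadingCoeff (by rw [mul_comm]; exact h), ?_⟩
  rw [Monic, leadingCoeff_mul, leadingCoeff_C, mul_comm]; exact h

theorem cf_coeff_swap (q : E[X][X]) (i j : ℕ) :
    ((Bivariate.swap q).coeff i).coeff j = (q.coeff j).coeff i := by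
  induction q using Polynomial.induction_on' with
  | add p q hp hq => simp only [map_add, coeff_add, hp, hq]
  | monomial n a =>
    induction a using Polynomial.induction_on' with
    | add p q hp hq => simp only [map_add, coeff_add, hp, hq]
    | monomial m r =>
      rw [Bivariate.swap_monomial_monomial]
      simp only [coeff_monomial]
      by_cases h1 : m = i <;> by_cases h2 : n = j <;> simp [h1, h2, coeff_monomial]

theorem cf_evalEval_swap (q : E[X][X]) (a c : E) :
    (Bivariate.swap q).evalEval a c = q.evalEval c a := by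
  have := Bivariate.aevalAeval_swap (R := E) a c q
  rwa [coe_aevalAeval_eq_evalEval, coe_aevalAeval_eq_evalEval] at this

theorem cf_swap_hq (H : E[X]) : Bivariate.swap (hq H (-H)) = hq H (-H) := by
  rw [hq, map_sub, Bivariate.swap_map_C, Bivariate.swap_C, Polynomial.map_neg, C_neg]
  ring

theorem cf_unique {H : E[X]} {r : E} (h1 : H.derivative.eval r ≠ 0) {f g : E[X][X]}
    (hfm : f.Monic) (hfi : Irreducible f) (hfd : f ∣ hq H (-H)) (hf0 : f.evalEval r r = 0)
    (hgm : g.Monic) (hgi : Irreducible g) (hgd : g ∣ hq H (-H)) (hg0 : g.evalEval r r = 0) :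
    f = g := by
  by_contra hne
  have hna : ¬ f ∣ g := fun h =>
    hne (eq_of_monic_of_associated hfm hgm (hfi.associated_of_dvd hgi h))
  obtain ⟨q, hq'⟩ := hgd
  have hp : Prime f := hfi.prime
  rw [hq'] at hfd
  rcases hp.dvd_or_dvd hfd with h | ⟨s, hs⟩
  · exact hna h
  · have hd : derivative (hq H (-H)) = (derivative H).map C := by
      rw [hq, derivative_sub, derivative_map, derivative_C, sub_zero]
    have h2 : (derivative (hq H (-H))).evalEval r r = 0 := by
      rw [hq', hs]
      simp only [derivative_mul, evalEval_add, evalEval_mul, hf0, hg0]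
      ring
    rw [hd, evalEval_map_C] at h2
    exact h1 h2

theorem exists_fac [IsAlgClosed E] (p : ℕ) [Fact p.Prime] [CharP E p] (H : E[X]) (hm : H.Monic)
    (hH : ∀ l, H.coeff l ^ p = H.coeff l) (r : E) (hr : r ^ p = r) (h0 : H.eval r = 0)
    (h1 : H.derivative.eval r ≠ 0) : ∃ f : E[X][X], Fac p H f := by
  classical
  have hk : 1 ≤ H.natDegree := by
    by_contra hk
    have : H.natDegree = 0 := by omega
    rw [derivative_of_natDegree_zero this] at h1
    simp at h1
  obtain ⟨hFm, hFd⟩ := cf_hq_monic hm hk (-H)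
  set F := hq H (-H) with hF
  have hF0 : F.evalEval r r = 0 := by rw [hF, cf_evalEval_hq, h0]; ring
  -- normalisation of any irreducible factor vanishing at (r, r)
  have norm : ∀ g : E[X][X], Irreducible g → g ∣ F → g.evalEval r r = 0 →
      ∃ u : E[X], IsUnit u ∧ (C u * g).Monic ∧ Irreducible (C u * g) ∧ (C u * g) ∣ F ∧
        (C u * g).evalEval r r = 0 := by
    intro g hgi hgd hg0
    obtain ⟨u, hu, hm'⟩ := cf_monic_assoc hFm hgd
    have hCu : IsUnit (C u : E[X][X]) := hu.map C
    refine ⟨u, hu, hm', (irreducible_isUnit_mul hCu).2 hgi, hCu.mul_left_dvd.2 hgd, ?_⟩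
    rw [evalEval_mul, hg0, mul_zero]
  have hex : ∃ g : E[X][X], Irreducible g ∧ g ∣ F ∧ g.evalEval r r = 0 := by
    have hass := UniqueFactorizationMonoid.factors_prod hFm.ne_zero
    obtain ⟨u, hu⟩ := hass
    have h2 : (evalEvalRingHom r r) (UniqueFactorizationMonoid.factors F).prod = 0 := by
      have h3 : (evalEvalRingHom r r) ((UniqueFactorizationMonoid.factors F).prod * u) = 0 := by
        rw [hu]; exact hF0
      rw [map_mul] at h3
      rcases mul_eq_zero.1 h3 with h | h
      · exact h
      · exact absurd h (u.isUnit.map (evalEvalRingHom r r)).ne_zero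
    rw [map_multiset_prod, Multiset.prod_eq_zero_iff, Multiset.mem_map] at h2
    obtain ⟨g, hg, hg0⟩ := h2
    exact ⟨g, UniqueFactorizationMonoid.irreducible_of_factor g hg,
      UniqueFactorizationMonoid.dvd_of_mem_factors hg, hg0⟩
  obtain ⟨g, hgi, hgd, hg0⟩ := hex
  obtain ⟨u, -, hfm, hfi, hfd, hf0⟩ := norm g hgi hgd hg0
  generalize C u * g = f at hfm hfi hfd hf0
  -- swap
  have hsd : Bivariate.swap f ∣ F := by
    have := map_dvd (Bivariate.swap (R := E)) hfd
    rwa [hF, cf_swap_hq] at this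
  have hsi : Irreducible (Bivariate.swap f) :=
    (MulEquiv.irreducible_iff (Bivariate.swap (R := E))).2 hfi
  obtain ⟨v, hv, hm2, hi2, hd2, h02⟩ := norm _ hsi hsd (by rw [cf_evalEval_swap]; exact hf0)
  have hsw : f = C v * Bivariate.swap f := cf_unique h1 hfm hfi hfd hf0 hm2 hi2 hd2 h02
  -- Frobenius
  let φ : E ≃+* E := frobeniusEquiv E p
  let σ : E[X][X] ≃+* E[X][X] := mapEquiv (mapEquiv φ)
  have hσ : ∀ q : E[X][X], σ q = q.map (mapRingHom (frobenius E p)) := fun q => rfl
  have hHφ : H.map (frobenius E p) = H := by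
    ext l; rw [coeff_map, frobenius_def, hH]
  have hσF : σ F = F := by
    rw [hσ, hF, hq, Polynomial.map_sub, map_C, coe_mapRingHom, Polynomial.map_neg, hHφ,
      Polynomial.map_map]
    congr 1
    conv_rhs => rw [← hHφ, Polynomial.map_map]
    congr 1
    ext x
    simp
  have hσf : f = σ f := by
    refine cf_unique h1 hfm hfi hfd hf0 ?_ ?_ ?_ ?_
    · rw [hσ]; exact hfm.map _
    · exact (MulEquiv.irreducible_iff σ).2 hfi
    · have := map_dvd σ hfd
      rwa [hσF] at this
    · have h2 := map_mapRingHom_evalEval (frobenius E p) f r r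
      rw [frobenius_def, hr, hf0, map_zero] at h2
      rw [hσ]; exact h2
  refine ⟨f, hfm, hfi, hfd, ?_, ?_, ?_⟩
  · intro l
    have h2 : (f.coeff l).map (frobenius E p) = f.coeff l := by
      conv_rhs => rw [hσf, hσ, coeff_map, coe_mapRingHom]
    rw [← map_frobenius_expand p, map_expand, h2]
  · intro l
    have h2 : (Bivariate.swap f).natDegree ≤ H.natDegree := by
      rw [← hFd]; exact natDegree_le_of_dvd hsd hFm.ne_zero
    rw [natDegree_le_iff_coeff_eq_zero]
    intro N hN
    rw [← cf_coeff_swap, coeff_eq_zero_of_natDegree_lt (lt_of_le_of_lt h2 hN), coeff_zero]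
  · intro a c h
    rw [cf_ev_eval] at h ⊢
    rw [hsw, evalEval_mul, cf_evalEval_swap, h, mul_zero]

theorem Fac.natDegree_le {p : ℕ} {H : E[X]} {f : E[X][X]} (hf : Fac p H f) (hm : H.Monic)
    (hk : 1 ≤ H.natDegree) : 1 ≤ f.natDegree ∧ f.natDegree ≤ H.natDegree := by
  obtain ⟨hFm, hFd⟩ := cf_hq_monic hm hk (-H)
  refine ⟨?_, ?_⟩
  · by_contra h
    have h0 : f.natDegree = 0 := by omega
    have := hf.monic.natDegree_eq_zero.1 h0
    exact hf.irr.not_isUnit (this ▸ isUnit_one)
  · rw [← hFd]; exact natDegree_le_of_dvd hf.dvd hFm.ne_zero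

theorem Fac.eval {p : ℕ} {H : E[X]} {f : E[X][X]} (hf : Fac p H f) {a c : E}
    (h : (ev a f).eval c = 0) : H.eval a + H.eval c = 0 := by
  rw [cf_ev_eval] at h
  obtain ⟨q, hq'⟩ := hf.dvd
  rw [← cf_evalEval_hq, hq', evalEval_mul, h, zero_mul]

open Classical in
theorem card_bad_le [IsAlgClosed E] (H : E[X]) (hH : H.derivative ≠ 0) :
    ∃ Bad : Finset E, Bad.card ≤ 4 * H.natDegree ^ 2 ∧ ∀ t, t ∉ Bad → GoodT H t := by
  let Cr : Finset E := H.derivative.roots.toFinset.image (fun x => H.eval x)
  have hCr : Cr.card ≤ H.natDegree := by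
    refine card_image_le.trans ((Multiset.toFinset_card_le _).trans ((card_roots' _).trans ?_))
    exact (natDegree_derivative_le H).trans (Nat.sub_le _ _)
  have hreg : ∀ a, a ∉ Cr → Reg H a := by
    intro a ha
    rw [Reg, separable_def, isCoprime_iff_aeval_ne_zero_of_isAlgClosed E E]
    intro x
    by_contra hc
    push Not at hc
    obtain ⟨h1, h2⟩ := hc
    apply ha
    simp only [coe_aeval_eq_eval, eval_sub, eval_C, derivative_sub, derivative_C, sub_zero]
      at h1 h2
    refine mem_image.2 ⟨x, ?_, sub_eq_zero.1 h1⟩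
    rw [Multiset.mem_toFinset, mem_roots hH]
    exact h2
  let S : Finset E := Cr ∪ Cr.image (fun x => -x)
  have hS : S.card ≤ 2 * H.natDegree := by
    refine (card_union_le _ _).trans ?_
    have := (card_image_le (s := Cr) (f := fun x => -x))
    omega
  have hreg2 : ∀ a, a ∉ S → Reg H a ∧ Reg H (-a) := by
    intro a ha
    refine ⟨hreg a fun h => ha (mem_union_left _ h), hreg _ fun h => ha (mem_union_right _ ?_)⟩
    exact mem_image.2 ⟨-a, h, neg_neg a⟩
  refine ⟨(S ×ˢ S).image (fun z => z.1 - z.2), ?_, ?_⟩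
  · refine card_image_le.trans ?_
    rw [card_product]
    calc S.card * S.card ≤ (2 * H.natDegree) * (2 * H.natDegree) := Nat.mul_le_mul hS hS
      _ = 4 * H.natDegree ^ 2 := by ring
  · intro t ht y
    by_cases hy : y ∈ S
    · right
      refine hreg2 _ fun h => ht ?_
      exact mem_image.2 ⟨(y + t, y), mem_product.2 ⟨h, hy⟩, by simp⟩
    · left; exact hreg2 _ hy

end Vale.Agent.P042Y
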