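import Vale.Agent.P042Y.SDeg

/-! Adjoining a root to a cover. -/

namespace Vale.Agent.P042Y

open Polynomial Finset

theorem cov_base (E : Type) [Field E] (p : ℕ) :
    Cov p 0 (Module.Basis.singleton Unit E[X]) (Polynomial.derivative' : Derivation E E[X] E[X])
      (expand E p) := by
  refine ⟨fun i j k => ?_, fun k => ?_, fun k => ?_, fun i k => ?_, ?_, fun i => ?_⟩ <;> simp

theorem exists_der {E R : Type} [Field E] [CommRing R] [Algebra E R] (D : Derivation E R R)
    (P : R[X]) : ∃ D' : Derivation E (AdjoinRoot P) (AdjoinRoot P),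
      (∀ r, D' (AdjoinRoot.of P r) =
        AdjoinRoot.mk P (derivative P) * AdjoinRoot.of P (D r)) ∧
      D' (AdjoinRoot.root P) =
        -∑ l ∈ range (P.natDegree + 1), AdjoinRoot.of P (D (P.coeff l)) * AdjoinRoot.root P ^ l := by
  obtain ⟨d1, h1⟩ : ∃ d1 : Derivation E R[X] R[X], ∀ q i, (d1 q).coeff i = D (q.coeff i) :=
    ⟨PolynomialModule.equivPolynomialSelf.toLinearMap.compDer D.mapCoeffs, fun _ _ => rfl⟩
  obtain ⟨d, hd⟩ : ∃ d : Derivation E R[X] R[X],
      ∀ q, d q = derivative P * d1 q - d1 P * derivative q :=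
    ⟨derivative P • d1 - d1 P • (derivative' : Derivation R R[X] R[X]).restrictScalars E,
      fun _ => rfl⟩
  have hP : d P = 0 := by rw [hd]; ring
  have hs : Function.Surjective ((AdjoinRoot.mkₐ P).restrictScalars E) := AdjoinRoot.mk_surjective
  have hk : ∀ x, (AdjoinRoot.mkₐ P).restrictScalars E x = 0 →
      (AdjoinRoot.mkₐ P).restrictScalars E (d x) = 0 := by
    intro x hx
    obtain ⟨q, rfl⟩ := AdjoinRoot.mk_eq_zero.1 hx
    refine AdjoinRoot.mk_eq_zero.2 ?_
    rw [Derivation.leibniz, hP, smul_zero, add_zero, smul_eq_mul]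
    exact dvd_mul_right _ _
  have key : ∀ q, Derivation.liftOfSurjective hs hk (AdjoinRoot.mk P q) =
      AdjoinRoot.mk P (d q) := fun q => Derivation.liftOfSurjective_apply hs hk q
  refine ⟨Derivation.liftOfSurjective hs hk, fun r => ?_, ?_⟩
  · have e : d1 (C r) = C (D r) := by
      ext i
      rw [h1, coeff_C, coeff_C]
      split_ifs <;> simp
    rw [← AdjoinRoot.mk_C, key, hd, e, derivative_C, mul_zero, sub_zero, map_mul, AdjoinRoot.mk_C]
  · have e : d1 X = 0 := by
      ext i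
      rw [h1, coeff_X]
      split_ifs <;> simp
    have e2 : (d1 P).natDegree < P.natDegree + 1 := by
      refine Nat.lt_succ_of_le (natDegree_le_iff_coeff_eq_zero.2 fun i hi => ?_)
      rw [h1, coeff_eq_zero_of_natDegree_lt hi, map_zero]
    rw [← AdjoinRoot.mk_X, key, hd, e, derivative_X, mul_zero, mul_one, zero_sub, map_neg,
      ← AdjoinRoot.aeval_eq, aeval_eq_sum_range' e2, AdjoinRoot.mk_X]
    simp only [h1, Algebra.smul_def, AdjoinRoot.algebraMap_eq]

theorem exists_frob {E R : Type} [Field E] [CommRing R] [Algebra E R] (p : ℕ) [Fact p.Prime]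
    [CharP E p] (φ : R →ₐ[E] R) (P : R[X]) (hP : ∀ l, φ (P.coeff l) = P.coeff l ^ p) :
    ∃ φ' : AdjoinRoot P →ₐ[E] AdjoinRoot P,
      (∀ r, φ' (AdjoinRoot.of P r) = AdjoinRoot.of P (φ r)) ∧
      φ' (AdjoinRoot.root P) = AdjoinRoot.root P ^ p := by
  have h : P.eval₂ ((IsScalarTower.toAlgHom E R (AdjoinRoot P)).comp φ : R →ₐ[E] AdjoinRoot P)
      (AdjoinRoot.root P ^ p) = 0 := by
    rcases subsingleton_or_nontrivial (AdjoinRoot P) with h0 | h0
    · exact Subsingleton.elim _ _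
    have : CharP (AdjoinRoot P) p :=
      charP_of_injective_algebraMap (algebraMap E (AdjoinRoot P)).injective p
    have e := AdjoinRoot.eval₂_root P
    rw [eval₂_eq_sum_range] at e ⊢
    have e2 := sum_pow_char p (range (P.natDegree + 1))
      (fun i => AdjoinRoot.of P (P.coeff i) * AdjoinRoot.root P ^ i)
    rw [e, zero_pow (Fact.out : p.Prime).ne_zero] at e2
    rw [e2]
    refine sum_congr rfl fun i _ => ?_
    rw [mul_pow, ← map_pow, ← hP, ← pow_mul, ← pow_mul, mul_comm p i]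
    rfl
  exact ⟨AdjoinRoot.liftAlgHom P _ _ h, fun r => AdjoinRoot.liftAlgHom_of P _ _ h r,
    AdjoinRoot.liftAlgHom_root P _ _ h⟩

namespace Tower

variable {E R ι : Type} [Field E] [CommRing R] [Algebra E R] [Algebra E[X] R]
  [IsScalarTower E E[X] R] [Fintype ι] [DecidableEq ι] {b : Module.Basis ι E[X] R}

lemma dle_nsmul {m : ℕ} {r : R} (h : dle b m r) (k : ℕ) : dle b m (k • r) := by
  induction k with
  | zero => rw [zero_smul]; exact dle_zero b m
  | succ k ih => rw [succ_nsmul]; exact ih.add h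

/-- the product basis -/
noncomputable def tb (b : Module.Basis ι E[X] R) {P : R[X]} (hP : P.Monic) :
    Module.Basis (ι × Fin P.natDegree) E[X] (AdjoinRoot P) :=
  b.smulTower (AdjoinRoot.powerBasisAux' hP)

variable {P : R[X]} (hP : P.Monic) {C : ℕ}

lemma pb_eq (j : Fin P.natDegree) :
    AdjoinRoot.powerBasisAux' hP j = AdjoinRoot.root P ^ (j : ℕ) :=
  (AdjoinRoot.powerBasis' hP).basis_eq_pow j

lemma tb_apply (i : ι) (j : Fin P.natDegree) :
    tb b hP (i, j) = AdjoinRoot.of P (b i) * AdjoinRoot.root P ^ (j : ℕ) := by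
  rw [tb, Module.Basis.smulTower_apply, pb_eq, Algebra.smul_def, AdjoinRoot.algebraMap_eq]

lemma dle_tb {m : ℕ} {x : AdjoinRoot P} :
    dle (tb b hP) m x ↔ ∀ j, dle b m ((AdjoinRoot.powerBasisAux' hP).repr x j) :=
  ⟨fun h j i => by simpa [tb] using h (i, j), fun h ij => by simpa [tb] using h ij.2 ij.1⟩

lemma of_mul (hC : ∀ i j, dle b C (b i * b j)) {m m' : ℕ} {r : R} {x : AdjoinRoot P}
    (h : dle b m r) (h' : dle (tb b hP) m' x) :
    dle (tb b hP) (m + m' + C) (AdjoinRoot.of P r * x) := by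
  rw [dle_tb] at h' ⊢
  intro j
  rw [← AdjoinRoot.algebraMap_eq, ← Algebra.smul_def, map_smul, Finsupp.smul_apply, smul_eq_mul]
  exact h.mul hC (h' j)

lemma pow_lt (h1 : dle b C 1) {k : ℕ} (hk : k < P.natDegree) :
    dle (tb b hP) C (AdjoinRoot.root P ^ k) := by
  rw [dle_tb]
  intro j
  have := pb_eq hP ⟨k, hk⟩
  rw [← this, Module.Basis.repr_self, Finsupp.single_apply]
  split_ifs
  · exact h1
  · exact dle_zero b C

lemma pow_le (hC : ∀ i j, dle b C (b i * b j)) (h1 : dle b C 1) (hc : ∀ l, dle b C (P.coeff l))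
    {k : ℕ} (hk : k ≤ P.natDegree) : dle (tb b hP) (3 * C) (AdjoinRoot.root P ^ k) := by
  rcases hk.lt_or_eq with hk | rfl
  · exact (pow_lt hP h1 hk).mono (by omega)
  have e := AdjoinRoot.eval₂_root P
  rw [eval₂_eq_sum_range, sum_range_succ, hP.coeff_natDegree, map_one, one_mul, add_comm] at e
  rw [eq_neg_of_add_eq_zero_left e]
  exact (dle_sum _ _ fun l hl =>
    (of_mul hP hC (hc l) (pow_lt hP h1 (mem_range.1 hl))).mono (by omega)).neg

lemma root_mul (hC : ∀ i j, dle b C (b i * b j)) (h1 : dle b C 1) (hc : ∀ l, dle b C (P.coeff l))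
    {m : ℕ} {x : AdjoinRoot P} (h : dle (tb b hP) m x) :
    dle (tb b hP) (m + 4 * C) (x * AdjoinRoot.root P) := by
  rw [← (AdjoinRoot.powerBasisAux' hP).sum_repr x, sum_mul]
  refine dle_sum _ _ fun j _ => ?_
  rw [pb_eq, Algebra.smul_def, AdjoinRoot.algebraMap_eq, mul_assoc, ← pow_succ]
  exact (of_mul hP hC ((dle_tb hP).1 h j) (pow_le hP hC h1 hc j.2)).mono (by omega)

lemma pow_all (hC : ∀ i j, dle b C (b i * b j)) (h1 : dle b C 1) (hc : ∀ l, dle b C (P.coeff l))
    (k : ℕ) : dle (tb b hP) (4 * (C * k) + 3 * C) (AdjoinRoot.root P ^ k) := by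
  induction k with
  | zero => exact (pow_le hP hC h1 hc (Nat.zero_le _)).mono (by omega)
  | succ k ih =>
    rw [pow_succ]
    exact (root_mul hP hC h1 hc ih).mono (by rw [mul_add]; omega)

end Tower

open Tower in
theorem tower (C N : ℕ) : ∃ C' : ℕ, C ≤ C' ∧ ∀ (p : ℕ) [Fact p.Prime] (E R ι : Type) [Field E]
    [CharP E p] [CommRing R] [Algebra E R] [Algebra E[X] R] [IsScalarTower E E[X] R] [Fintype ι]
    [DecidableEq ι] (b : Module.Basis ι E[X] R) (D : Derivation E R R) (φ : R →ₐ[E] R),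
    Cov p C b D φ → ∀ P : R[X], P.Monic → P.natDegree ≤ N → (∀ l, dle b C (P.coeff l)) →
    (∀ l, φ (P.coeff l) = P.coeff l ^ p) →
    ∃ (b' : Module.Basis (ι × Fin P.natDegree) E[X] (AdjoinRoot P))
      (D' : Derivation E (AdjoinRoot P) (AdjoinRoot P)) (φ' : AdjoinRoot P →ₐ[E] AdjoinRoot P),
      Cov p C' b' D' φ' ∧
      (∀ i j, b' (i, j) = AdjoinRoot.of P (b i) * AdjoinRoot.root P ^ (j : ℕ)) ∧
      (∀ m r, dle b m r → dle b' (m + C') (AdjoinRoot.of P r)) ∧
      dle b' C' (AdjoinRoot.root P) ∧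
      (∀ r, D' (AdjoinRoot.of P r) =
        AdjoinRoot.mk P (derivative P) * AdjoinRoot.of P (D r)) ∧
      (∀ r, φ' (AdjoinRoot.of P r) = AdjoinRoot.of P (φ r)) ∧
      φ' (AdjoinRoot.root P) = AdjoinRoot.root P ^ p := by
  obtain ⟨K, hK⟩ : ∃ K, K = 8 * (C * N) + 7 * C := ⟨_, rfl⟩
  refine ⟨4 * K, by omega, ?_⟩
  intro p _ E R ι _ _ _ _ _ _ _ _ b D φ hc P hP hN hco hφ
  obtain ⟨D', hD1, hD2⟩ := exists_der D P
  obtain ⟨φ', hφ1, hφ2⟩ := exists_frob p φ P hφ
  have hpow := pow_all hP hc.mul hc.one hco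
  have hpow' : ∀ k, k ≤ 2 * N → dle (tb b hP) (8 * (C * N) + 3 * C) (AdjoinRoot.root P ^ k) := by
    intro k hk
    have := Nat.mul_le_mul_left C hk
    rw [mul_left_comm] at this
    exact (hpow k).mono (by omega)
  have hmul : ∀ x y, dle (tb b hP) K (tb b hP x * tb b hP y) := by
    rintro ⟨i, j⟩ ⟨i', j'⟩
    rw [tb_apply, tb_apply, mul_mul_mul_comm, ← map_mul, ← pow_add]
    have := j.2
    have := j'.2
    exact (of_mul hP hc.mul (hc.mul i i') (hpow' _ (by omega))).mono (by omega)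
  have hP' : dle (tb b hP) K (AdjoinRoot.mk P (derivative P)) := by
    have e : (derivative P).natDegree < N + 1 := by
      have := natDegree_derivative_le P
      omega
    rw [← AdjoinRoot.aeval_eq, aeval_eq_sum_range' e]
    refine dle_sum _ _ fun l hl => ?_
    have hl' := mem_range.1 hl
    rw [Algebra.smul_def, AdjoinRoot.algebraMap_eq]
    have e2 : dle b C ((derivative P).coeff l) := by
      rw [coeff_derivative, mul_comm, ← Nat.cast_succ, ← nsmul_eq_mul]
      exact dle_nsmul (hco _) _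
    exact (of_mul hP hc.mul e2 (hpow' l (by omega))).mono (by omega)
  have hDr : dle (tb b hP) K (D' (AdjoinRoot.root P)) := by
    rw [hD2]
    refine (dle_sum _ _ fun l hl => ?_).neg
    have hl' := mem_range.1 hl
    exact (of_mul hP hc.mul (hc.dle_D (hco l)) (hpow' l (by omega))).mono (by omega)
  have hX : algebraMap E[X] (AdjoinRoot P) X = AdjoinRoot.of P (algebraMap E[X] R X) := rfl
  refine ⟨tb b hP, D', φ', ⟨fun x y => (hmul x y).mono (by omega), ?_, ?_, ?_, ?_, ?_⟩,
    tb_apply hP, fun m r h => ?_, ?_, hD1, hφ1, hφ2⟩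
  · simpa using (hpow 0).mono (m' := 4 * K) (by omega)
  · rw [hX, hD1, mul_comm (AdjoinRoot.mk P _)]
    exact (of_mul hP hc.mul hc.dX hP').mono (by omega)
  · rintro ⟨i, j⟩
    have := j.2
    rw [tb_apply, Derivation.leibniz, Derivation.leibniz_pow, hD1, smul_eq_mul, smul_eq_mul,
      smul_eq_mul, ← mul_assoc, mul_comm _ (AdjoinRoot.of P (D (b i)))]
    refine dle.add ?_ ?_
    · exact (of_mul hP hc.mul (dle_basis b i)
        (dle_nsmul ((hpow' _ (by omega)).mul hmul hDr) _)).mono (by omega)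
    · exact (of_mul hP hc.mul (hc.db i) ((hpow' _ (by omega)).mul hmul hP')).mono (by omega)
  · rw [hX, hφ1, hc.fX, map_pow]
  · rintro ⟨i, j⟩
    rw [tb_apply, map_mul, map_pow, hφ1, hφ2, hc.fb, map_pow, mul_pow, ← pow_mul, ← pow_mul,
      mul_comm p]
  · simpa using (of_mul hP hc.mul h (hpow 0)).mono (m' := m + 4 * K) (by omega)
  · simpa using (hpow 1).mono (m' := 4 * K) (by omega)

theorem mk_derivative_ne_zero {E R : Type} [Field E] [CommRing R] [Nontrivial R] [Algebra E R]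
    (P : R[X]) (hP : P.Monic) (hn : (P.natDegree : E) ≠ 0) :
    AdjoinRoot.mk P (derivative P) ≠ 0 := by
  have h0 : P.natDegree ≠ 0 := fun h => hn (by rw [h, Nat.cast_zero])
  refine AdjoinRoot.mk_ne_zero_of_natDegree_lt hP (fun h => ?_) (natDegree_derivative_lt h0)
  obtain ⟨k, hk⟩ := Nat.exists_eq_succ_of_ne_zero h0
  have e := coeff_derivative P k
  rw [h, coeff_zero, ← Nat.cast_succ, ← Nat.succ_eq_add_one, ← hk, hP.coeff_natDegree,
    one_mul] at e
  exact hn ((algebraMap E R).injective (by rw [map_natCast, map_zero, ← e]))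

theorem isDomain_adjoinRoot {R : Type} [CommRing R] [IsDomain R] (P : R[X]) (hP : P.Monic)
    (hirr : Irreducible (P.map (algebraMap R (FractionRing R)))) : IsDomain (AdjoinRoot P) := by
  have hi := IsFractionRing.injective R (FractionRing R)
  refine AdjoinRoot.isDomain_of_prime ⟨hP.ne_zero, fun h => hirr.not_isUnit ?_, fun a c h => ?_⟩
  · exact h.map (mapRingHom (algebraMap R (FractionRing R)))
  · rw [← map_dvd_map _ hi hP, Polynomial.map_mul] at h
    rw [← map_dvd_map _ hi hP, ← map_dvd_map _ hi hP]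
    exact hirr.prime.dvd_or_dvd h

end Vale.Agent.P042Y
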