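import Vale.Agent.P042Y.Step
import Vale.Agent.P042Y.Tower
import Vale.Agent.P042Y.CFac

/-! The lower bound for the number of points. -/

namespace Vale.Agent.P042Y

open Polynomial Finset

namespace CLow

theorem cov_mono {E R ι : Type} [Field E] [CommRing R] [Algebra E R] [Algebra E[X] R]
    [IsScalarTower E E[X] R] [Fintype ι] [DecidableEq ι] {b : Module.Basis ι E[X] R} {p C C' : ℕ}
    {D : Derivation E R R} {φ : R →ₐ[E] R} (h : Cov p C b D φ) (hC : C ≤ C') : Cov p C' b D φ :=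
  ⟨fun i j => (h.mul i j).mono hC, h.one.mono hC, h.dX.mono hC, fun i => (h.db i).mono hC, h.fX,
    h.fb⟩

variable {E : Type} [Field E]

theorem ev_dvd {H : E[X]} {f : E[X][X]} (hf : f ∣ hq H (-H)) (a : E) :
    ev a f ∣ H + C (H.eval a) := by
  have h1 : ev a f ∣ ev a (hq H (-H)) := Polynomial.map_dvd _ hf
  have h2 : (aeval a : E[X] →ₐ[E] E).toRingHom.comp C = RingHom.id E := by
    ext x
    simp
  have h3 : ev a (hq H (-H)) = H + C (H.eval a) := by
    unfold ev hq
    rw [Polynomial.map_sub, Polynomial.map_map, map_C, h2, Polynomial.map_id]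
    simp [coe_aeval_eq_eval]
  rwa [h3] at h1

theorem bad_card [IsAlgClosed E] (p : ℕ) [Fact p.Prime] [Algebra (ZMod p) E] (H : E[X])
    (hm : H.Monic) (hk : 1 ≤ H.natDegree) (hd : H.derivative ≠ 0) :
    ∃ Bad : Finset (ZMod p), Bad.card ≤ H.natDegree ^ 2 ∧
      ∀ u, u ∉ Bad → (H + C (H.eval (algebraMap (ZMod p) E u))).Separable := by
  classical
  have hne : ∀ c : E, H + C c ≠ 0 := fun c h => by
    have := natDegree_add_C (p := H) (a := c)
    rw [h, natDegree_zero] at this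
    omega
  obtain ⟨B, hB⟩ : ∃ B : Finset E, B = H.derivative.roots.toFinset.biUnion
    fun v => (H + C (H.eval v)).roots.toFinset := ⟨_, rfl⟩
  have hBc : B.card ≤ H.natDegree ^ 2 := by
    rw [hB]
    refine (card_biUnion_le_card_mul _ _ H.natDegree fun v _ => ?_).trans ?_
    · refine (Multiset.toFinset_card_le _).trans ((card_roots' _).trans ?_)
      rw [natDegree_add_C]
    · rw [sq]
      refine Nat.mul_le_mul_right _ ((Multiset.toFinset_card_le _).trans ((card_roots' _).trans ?_))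
      exact (natDegree_derivative_le _).trans (Nat.sub_le _ _)
  refine ⟨univ.filter fun u => algebraMap (ZMod p) E u ∈ B, le_trans ?_ hBc, fun u hu => ?_⟩
  · exact card_le_card_of_injOn (algebraMap (ZMod p) E) (fun u hu => (mem_filter.1 hu).2)
      (algebraMap (ZMod p) E).injective.injOn
  · rw [separable_def, isCoprime_iff_aeval_ne_zero_of_isAlgClosed E E]
    intro v
    by_contra hc
    push Not at hc
    obtain ⟨h1, h2⟩ := hc
    rw [coe_aeval_eq_eval] at h1 h2
    rw [derivative_add, derivative_C, add_zero] at h2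
    rw [eval_add, eval_C] at h1
    refine hu (mem_filter.2 ⟨mem_univ _, ?_⟩)
    rw [hB]
    refine mem_biUnion.2 ⟨v, Multiset.mem_toFinset.2 ((mem_roots hd).2 h2),
      Multiset.mem_toFinset.2 ((mem_roots (hne _)).2 ?_)⟩
    rw [IsRoot, eval_add, eval_C, add_comm]
    exact h1

theorem count [IsAlgClosed E] (p : ℕ) [Fact p.Prime] [Algebra (ZMod p) E] [CharP E p] (H : E[X])
    (hm : H.Monic) (hk : 1 ≤ H.natDegree) (hd : H.derivative ≠ 0) (f : E[X][X]) (hf : Fac p H f) :
    ∃ W : Finset (ZMod p × E), (∀ z ∈ W, (ev (algebraMap (ZMod p) E z.1) f).eval z.2 = 0 ∧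
      z.2 ^ p ≠ z.2) ∧
      f.natDegree * p ≤ (Zf p f).card + W.card + f.natDegree * H.natDegree ^ 2 := by
  classical
  obtain ⟨Bad, hBc, hB⟩ := bad_card p H hm hk hd
  have hmon : ∀ a : E, (ev a f).Monic := fun a => hf.monic.map _
  have hdeg : ∀ a : E, (ev a f).natDegree = f.natDegree := fun a => hf.monic.natDegree_map _
  obtain ⟨A, hA⟩ : ∃ A : Finset E, A = univ.biUnion
    fun u : ZMod p => (ev (algebraMap (ZMod p) E u) f).roots.toFinset := ⟨_, rfl⟩
  obtain ⟨P, hP⟩ : ∃ P : Finset (ZMod p × E), P = (univ ×ˢ A).filter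
    fun z => (ev (algebraMap (ZMod p) E z.1) f).eval z.2 = 0 := ⟨_, rfl⟩
  have h1 : f.natDegree * p ≤ P.card + f.natDegree * H.natDegree ^ 2 := by
    have a1 : P.card = ∑ u : ZMod p,
        (A.filter fun v => (ev (algebraMap (ZMod p) E u) f).eval v = 0).card := by
      rw [hP, card_filter, sum_product]
      simp only [card_filter]
    have a2 : ∀ u ∈ univ \ Bad, f.natDegree ≤
        (A.filter fun v => (ev (algebraMap (ZMod p) E u) f).eval v = 0).card := by
      intro u hu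
      have hs : (ev (algebraMap (ZMod p) E u) f).Separable :=
        (hB u (mem_sdiff.1 hu).2).of_dvd (ev_dvd hf.dvd _)
      have b1 : (ev (algebraMap (ZMod p) E u) f).roots.toFinset.card = f.natDegree := by
        rw [Multiset.toFinset_card_of_nodup (nodup_roots hs), ← hdeg (algebraMap (ZMod p) E u)]
        exact (IsAlgClosed.splits _).natDegree_eq_card_roots.symm
      rw [← b1]
      refine card_le_card fun v hv => mem_filter.2 ⟨?_, ?_⟩
      · rw [hA]
        exact mem_biUnion.2 ⟨u, mem_univ _, hv⟩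
      · exact (mem_roots (hmon _).ne_zero).1 (Multiset.mem_toFinset.1 hv)
    have a3 := card_nsmul_le_sum _ _ _ a2
    have a4 : ∑ u ∈ univ \ Bad,
        (A.filter fun v => (ev (algebraMap (ZMod p) E u) f).eval v = 0).card ≤ P.card := by
      rw [a1]
      exact sum_le_sum_of_subset sdiff_subset
    have a5 : p ≤ (univ \ Bad).card + H.natDegree ^ 2 := by
      have := le_card_sdiff Bad univ
      rw [card_univ, ZMod.card] at this
      omega
    rw [smul_eq_mul] at a3
    calc f.natDegree * p ≤ f.natDegree * ((univ \ Bad).card + H.natDegree ^ 2) :=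
          Nat.mul_le_mul_left _ a5
      _ = (univ \ Bad).card * f.natDegree + f.natDegree * H.natDegree ^ 2 := by ring
      _ ≤ _ := Nat.add_le_add_right (a3.trans a4) _
  refine ⟨P.filter fun z => ¬ z.2 ^ p = z.2, fun z hz => ⟨?_, (mem_filter.1 hz).2⟩, ?_⟩
  · have := (mem_filter.1 hz).1
    rw [hP] at this
    exact (mem_filter.1 this).2
  · have a1 := card_filter_add_card_filter_not (s := P) fun z => z.2 ^ p = z.2
    have a2 : (P.filter fun z => z.2 ^ p = z.2).card ≤ (Zf p f).card := by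
      refine le_trans (card_le_card fun z hz => ?_)
        (card_image_le (f := fun z : ZMod p × ZMod p => (z.1, algebraMap (ZMod p) E z.2)))
      obtain ⟨b1, b2⟩ := mem_filter.1 hz
      rw [hP] at b1
      have b3 : z.2 ∈ (algebraMap (ZMod p) E).fieldRange :=
        (bot_le : (⊥ : Subfield E) ≤ _) ((Subfield.mem_bot_iff_pow_eq_self E p).2 b2)
      obtain ⟨c, hc⟩ := b3
      refine mem_image.2 ⟨(z.1, c), ?_, Prod.ext rfl hc⟩
      unfold Zf
      refine mem_filter.2 ⟨mem_univ _, ?_⟩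
      have b4 := (mem_filter.1 b1).2
      rw [← hc] at b4
      exact b4
    omega

theorem second {R ι : Type} [CommRing R] [Nontrivial R] [Algebra E R] [Algebra E[X] R]
    [IsScalarTower E E[X] R] [Fintype ι] [DecidableEq ι] (b : Module.Basis ι E[X] R) {C m : ℕ}
    (Q : R[X]) (hQ : Q.Monic) (hm : Q.natDegree = m) (r : R) (hr : dle b C r)
    (hc : ∀ j, dle b C (r * Q.coeff j)) (l : ℕ) (hl : l ≤ m) :
    ∃ e : ι × Fin m → E[X], (∀ x, (e x).natDegree ≤ C) ∧
      AdjoinRoot.of Q r * AdjoinRoot.root Q ^ l =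
        ∑ x, e x • (AdjoinRoot.of Q (b x.1) * AdjoinRoot.root Q ^ (x.2 : ℕ)) := by
  have key : ∀ s : Fin m → R, (∀ j, dle b C (s j)) → ∃ e : ι × Fin m → E[X],
      (∀ x, (e x).natDegree ≤ C) ∧ ∑ j : Fin m, AdjoinRoot.of Q (s j) * AdjoinRoot.root Q ^ (j : ℕ) =
        ∑ x, e x • (AdjoinRoot.of Q (b x.1) * AdjoinRoot.root Q ^ (x.2 : ℕ)) := by
    intro s hs
    refine ⟨fun x => b.repr (s x.2) x.1, fun x => hs x.2 x.1, ?_⟩
    rw [Fintype.sum_prod_type_right]
    refine sum_congr rfl fun j _ => ?_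
    conv_lhs => rw [← b.sum_repr (s j)]
    rw [map_sum, sum_mul]
    refine sum_congr rfl fun i _ => ?_
    rw [← AdjoinRoot.smul_of, smul_mul_assoc]
  rcases hl.lt_or_eq with h | h
  · obtain ⟨e, he, he'⟩ := key (fun j => if j = ⟨l, h⟩ then r else 0) fun j => by
      split_ifs
      · exact hr
      · exact dle_zero b C
    refine ⟨e, he, ?_⟩
    rw [← he', sum_eq_single ⟨l, h⟩ (fun j _ hj => by rw [if_neg hj, map_zero, zero_mul])
      (fun h' => absurd (mem_univ _) h'), if_pos rfl]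
  · obtain ⟨e, he, he'⟩ := key (fun j => -(r * Q.coeff j)) fun j => (hc j).neg
    refine ⟨e, he, ?_⟩
    rw [← he']
    have h0 := AdjoinRoot.eval₂_root Q
    rw [eval₂_eq_sum_range, sum_range_succ, hQ.coeff_natDegree, map_one, one_mul, hm] at h0
    rw [h, eq_neg_of_add_eq_zero_right h0, mul_neg, mul_sum, ← sum_neg_distrib, sum_range]
    refine sum_congr rfl fun j _ => ?_
    rw [map_neg, map_mul]
    ring

end CLow

open CLow in
theorem count_lower (k : ℕ) : ∃ C p₀ : ℕ, ∀ (p : ℕ) [Fact p.Prime], p₀ ≤ p →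
    ∀ (E : Type) [Field E] [IsAlgClosed E] [Algebra (ZMod p) E] (H : E[X]), H.Monic →
    1 ≤ H.natDegree → H.natDegree ≤ k → ∀ f : E[X][X], Fac p H f →
    (p : ℝ) - C * √(p : ℝ) ≤ (Zf p f).card := by
  classical
  obtain ⟨C₁, hC₁, htow⟩ := tower k k
  have hst := fun n : ℕ => stepanov (n + 1) ((n + 1) * n) (k + C₁) (Nat.le_add_left 1 n)
  choose C' p₀ hst using hst
  refine ⟨k * k ^ 2 + ∑ n ∈ range k, C' n, k + 1 + ∑ n ∈ range k, p₀ n, ?_⟩
  intro p _ hp E _ _ _ H hm hk1 hk f hf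
  haveI : CharP E p := charP_of_injective_algebraMap (algebraMap (ZMod p) E).injective p
  obtain ⟨n1, n2⟩ := hf.natDegree_le hm hk1
  have hcast : ∀ j : ℕ, 1 ≤ j → j ≤ k → (j : E) ≠ 0 := fun j h1 h2 h =>
    absurd (Nat.le_of_dvd h1 ((CharP.cast_eq_zero_iff E p j).1 h)) (by omega)
  have hd : H.derivative ≠ 0 := by
    intro h
    have h1 := coeff_derivative H (H.natDegree - 1)
    rw [h, coeff_zero, Nat.sub_add_cancel hk1, hm.coeff_natDegree, one_mul] at h1
    refine hcast _ hk1 hk ?_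
    rw [← Nat.sub_add_cancel hk1, Nat.cast_add, Nat.cast_one]
    exact h1.symm
  obtain ⟨W, hW, hcount⟩ := count p H hm hk1 hd f hf
  obtain ⟨m, hmn⟩ : ∃ m, f.natDegree = m + 1 := ⟨f.natDegree - 1, by omega⟩
  have hmk : m ∈ range k := mem_range.2 (by omega)
  obtain ⟨b, D, φ, hcov, hb, -, -, hD, hφ, hφr⟩ := htow p E E[X] Unit
    (Module.Basis.singleton Unit E[X]) _ _ (cov_mono (cov_base E p) (Nat.zero_le k)) f hf.monic
    (n2.trans hk) (fun l i => by simpa using (hf.deg l).trans hk) hf.rat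
  haveI : IsDomain (AdjoinRoot f) := AdjoinRoot.isDomain_of_prime hf.irr.prime
  have hb' : ∀ i : Unit × Fin f.natDegree, b i = AdjoinRoot.root f ^ (i.2 : ℕ) := fun i => by
    rw [hb i.1 i.2]
    simp
  obtain ⟨Q, hQ⟩ : ∃ Q : (AdjoinRoot f)[X],
    Q = f.map (AdjoinRoot.of f) /ₘ (X - C (AdjoinRoot.root f)) := ⟨_, rfl⟩
  have hfm : (f.map (AdjoinRoot.of f)).Monic := hf.monic.map _
  have hfd : (f.map (AdjoinRoot.of f)).natDegree = f.natDegree := hf.monic.natDegree_map _
  have hQmul : (X - C (AdjoinRoot.root f)) * Q = f.map (AdjoinRoot.of f) := by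
    rw [hQ]
    exact mul_divByMonic_eq_iff_isRoot.2 (AdjoinRoot.isRoot_root f)
  have hQm : Q.Monic := (monic_X_sub_C _).of_mul_monic_left (by rw [hQmul]; exact hfm)
  have hQd : Q.natDegree = m := by
    rw [hQ, natDegree_divByMonic _ (monic_X_sub_C _), hfd, natDegree_X_sub_C, hmn]
    rfl
  have hQc : ∀ j, dle b k (Q.coeff j) := by
    intro j
    rw [hQ, coeff_divByMonic_X_sub_C, hfd]
    refine dle_sum _ _ fun i hi => ?_
    have hi' := mem_Icc.1 hi
    have e : AdjoinRoot.root f ^ (i - (j + 1)) * (f.map (AdjoinRoot.of f)).coeff i =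
        f.coeff i • b ((), ⟨i - (j + 1), by omega⟩) := by
      rw [hb', coeff_map, Algebra.smul_def, AdjoinRoot.algebraMap_eq, mul_comm]
    rw [e]
    exact dle.smul ((hf.deg i).trans hk) (dle_basis b _)
  have hw : f.eval₂ (Algebra.ofId E[X] (AdjoinRoot Q) : E[X] →+* AdjoinRoot Q)
      (AdjoinRoot.root Q) = 0 := by
    have e : (Algebra.ofId E[X] (AdjoinRoot Q) : E[X] →+* AdjoinRoot Q) =
        (AdjoinRoot.of Q).comp (AdjoinRoot.of f) := rfl
    rw [e, ← eval₂_map, ← hQmul, eval₂_mul, AdjoinRoot.eval₂_root, mul_zero]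
  have hex : ∀ z : {z // z ∈ W}, ∃ P : AdjoinRoot f →ₐ[E] E,
      (∀ a, P (AdjoinRoot.of f a) = aeval (algebraMap (ZMod p) E z.1.1) a) ∧
        P (AdjoinRoot.root f) = z.1.2 := by
    intro z
    have h0 : f.eval₂ (aeval (algebraMap (ZMod p) E z.1.1) : E[X] →ₐ[E] E) z.1.2 = 0 := by
      rw [← eval_map]
      exact (hW z.1 z.2).1
    exact ⟨AdjoinRoot.liftAlgHom f _ _ h0, fun a => AdjoinRoot.liftAlgHom_of _ _ _ _ _,
      AdjoinRoot.liftAlgHom_root _ _ _ _⟩
  choose Ψ hΨ1 hΨ2 using hex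
  have hinj : Function.Injective Ψ := by
    intro z z' h
    have a1 := hΨ1 z X
    have a2 := hΨ2 z
    rw [h, hΨ1 z' X, aeval_X, aeval_X] at a1
    rw [h, hΨ2 z'] at a2
    exact Subtype.ext (Prod.ext ((algebraMap (ZMod p) E).injective a1).symm a2.symm)
  have hT := hst m p (le_trans (single_le_sum (fun _ _ => Nat.zero_le _) hmk) (by omega)) E
    (AdjoinRoot f) (Unit × Fin f.natDegree) b D φ (cov_mono hcov (Nat.le_add_left _ _))
    (by simp [hmn])
    (by
      rw [AdjoinRoot.algebraMap_eq, hD]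
      have e : (Polynomial.derivative' : Derivation E E[X] E[X]) X = 1 := by simp
      rw [e, map_one, mul_one]
      exact mk_derivative_ne_zero (E := E) f hf.monic (hcast _ n1 (n2.trans hk)))
    (AdjoinRoot Q) ((Unit × Fin f.natDegree) × Fin m)
    (fun x => AdjoinRoot.of Q (b x.1) * AdjoinRoot.root Q ^ (x.2 : ℕ))
    (AdjoinRoot.ofAlgHom E[X] Q) (AdjoinRoot.liftAlgHom f _ _ hw) (by simp [hmn])
    (fun i l => by
      rw [hb' l, map_pow, AdjoinRoot.liftAlgHom_root]
      refine second b Q hQm hQd (b i) ((dle_basis b i).mono (Nat.zero_le _)) (fun j => ?_) l.2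
        (by have := l.2.2; omega)
      have := dle.mul hcov.mul (dle_basis b i) (hQc j)
      rwa [zero_add] at this)
    (univ.image Ψ)
    (fun P hP => by
      obtain ⟨z, -, rfl⟩ := mem_image.1 hP
      have hu : algebraMap (ZMod p) E z.1.1 ^ p = algebraMap (ZMod p) E z.1.1 := by
        rw [← map_pow, ZMod.pow_card]
      have h1 : ∀ a, Ψ z (φ (AdjoinRoot.of f a)) = Ψ z (AdjoinRoot.of f a) := fun a => by
        rw [hφ, hΨ1, hΨ1, expand_aeval, hu]
      have h2 : Ψ z (φ (AdjoinRoot.root f)) = z.1.2 ^ p := by rw [hφr, map_pow, hΨ2]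
      have h3 : (f.map (AdjoinRoot.of f)).eval₂ (Ψ z : AdjoinRoot f →+* E) (z.1.2 ^ p) = 0 := by
        have a1 := congrArg ((Ψ z).comp φ : AdjoinRoot f →+* E) (AdjoinRoot.eval₂_root f)
        rw [hom_eval₂, map_zero] at a1
        have a2 : ((Ψ z).comp φ : AdjoinRoot f →+* E).comp (AdjoinRoot.of f) =
            (Ψ z : AdjoinRoot f →+* E).comp (AdjoinRoot.of f) := RingHom.ext h1
        have a3 : ((Ψ z).comp φ : AdjoinRoot f →+* E) (AdjoinRoot.root f) = z.1.2 ^ p := h2
        rw [a2, a3] at a1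
        rw [eval₂_map]
        exact a1
      have h4 : Q.eval₂ (Ψ z : AdjoinRoot f →+* E) (z.1.2 ^ p) = 0 := by
        rw [← hQmul, eval₂_mul, eval₂_sub, eval₂_X, eval₂_C] at h3
        refine (mul_eq_zero.1 h3).resolve_left ?_
        have a3 : (Ψ z : AdjoinRoot f →+* E) (AdjoinRoot.root f) = z.1.2 := hΨ2 z
        rw [a3]
        exact sub_ne_zero.2 (hW z.1 z.2).2
      refine ⟨AdjoinRoot.liftAlgHom Q (Ψ z) _ h4, fun r => AdjoinRoot.liftAlgHom_of _ _ _ _ _,
        fun r => ?_⟩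
      induction r using AdjoinRoot.induction_on with
      | ih g =>
        rw [← AdjoinRoot.aeval_eq, aeval_eq_sum_range]
        simp only [map_sum, Algebra.smul_def, map_mul, map_pow]
        refine sum_congr rfl fun i _ => ?_
        rw [AdjoinRoot.liftAlgHom_root, AdjoinRoot.liftAlgHom_root, h2, AlgHom.commutes,
          AdjoinRoot.algebraMap_eq, h1]
        congr 1
        exact AdjoinRoot.liftAlgHom_of _ _ _ _ _)
  rw [card_image_of_injective _ hinj, card_univ, Fintype.card_coe] at hT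
  rw [hmn] at hcount
  have c1 : ((m : ℝ) + 1) * p ≤ (Zf p f).card + W.card + (m + 1) * (H.natDegree : ℝ) ^ 2 := by
    exact_mod_cast hcount
  have c2 : (C' m : ℝ) ≤ ∑ n ∈ range k, (C' n : ℝ) :=
    single_le_sum (f := fun n => (C' n : ℝ)) (fun _ _ => Nat.cast_nonneg _) hmk
  have c3 : (1 : ℝ) ≤ √(p : ℝ) := Real.one_le_sqrt.2 (by exact_mod_cast (by omega : 1 ≤ p))
  have c4 : ((m : ℝ) + 1) * (H.natDegree : ℝ) ^ 2 ≤ k * k ^ 2 := by
    have : (m + 1) * H.natDegree ^ 2 ≤ k * k ^ 2 :=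
      Nat.mul_le_mul (by omega) (Nat.pow_le_pow_left hk 2)
    exact_mod_cast this
  have c5 : (0 : ℝ) ≤ C' m * √(p : ℝ) := by positivity
  have hm0 : (0 : ℝ) ≤ m := Nat.cast_nonneg m
  have c6 : (W.card : ℝ) ≤ m * p + C' m * √(p : ℝ) := by
    refine le_of_mul_le_mul_left ?_ (show (0 : ℝ) < m + 1 by linarith)
    push_cast at hT
    nlinarith
  have c7 : (k : ℝ) * k ^ 2 ≤ k * k ^ 2 * √(p : ℝ) := le_mul_of_one_le_right (by positivity) c3
  have c8 := mul_le_mul_of_nonneg_right c2 (Real.sqrt_nonneg (p : ℝ))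
  push_cast
  nlinarith

end Vale.Agent.P042Y
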