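import Vale.Agent.P042Y.TD
import Vale.Agent.P042Y.Tower

/-! The fibre product is integral. -/

namespace Vale.Agent.P042Y

open Polynomial Finset

variable {E : Type} [Field E]

namespace TEAux

lemma ev_hq {K : Type} [CommRing K] [Algebra E K] (w : K) (H a : E[X]) :
    ev w (hq H a) = H.map (algebraMap E K) - C (aeval w a) := by
  unfold ev hq
  rw [Polynomial.map_sub, Polynomial.map_map, map_C]
  congr 2
  ext c
  simp

lemma ev_hq_self (y : E) (H a : E[X]) : ev y (hq H a) = H - C (a.eval y) := by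
  rw [ev_hq, Algebra.algebraMap_self, Polynomial.map_id, coe_aeval_eq_eval]

lemma eval_ev_hq {K : Type} [CommRing K] [Algebra E K] (w x : K) (H a : E[X]) :
    (ev w (hq H a)).eval x = aeval x H - aeval w a := by
  rw [ev_hq, eval_sub, eval_C, eval_map_algebraMap]

lemma degree_C_lt {R : Type} [CommRing R] [Nontrivial R] {Q : R[X]} (hk : 1 ≤ Q.natDegree) (a : R) :
    (C a).degree < Q.degree :=
  lt_of_le_of_lt degree_C_le (natDegree_pos_iff_degree_pos.1 hk)

lemma monic_hq {H : E[X]} (hm : H.Monic) (hk : 1 ≤ H.natDegree) (a : E[X]) : (hq H a).Monic :=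
  (hm.map C).sub_of_left (degree_C_lt (by rwa [hm.natDegree_map]) a)

lemma natDegree_hq {H : E[X]} (hm : H.Monic) (a : E[X]) : (hq H a).natDegree = H.natDegree := by
  unfold hq
  rw [natDegree_sub_C, hm.natDegree_map]

lemma mem_of_adjoinRoot {R K : Type} [CommRing R] [Field K] (P : R[X]) (A : Subring K)
    (ψ : AdjoinRoot P →+* K) (h1 : ∀ r, ψ (AdjoinRoot.of P r) ∈ A)
    (h2 : ψ (AdjoinRoot.root P) ∈ A) (x : AdjoinRoot P) : ψ x ∈ A := by
  induction x using AdjoinRoot.induction_on with
  | ih q =>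
    induction q using Polynomial.induction_on' with
    | add a b ha hb => rw [map_add, map_add]; exact A.add_mem ha hb
    | monomial n a =>
      rw [← C_mul_X_pow_eq_monomial, map_mul, map_pow, AdjoinRoot.mk_C, AdjoinRoot.mk_X, map_mul,
        map_pow]
      exact A.mul_mem (h1 a) (A.pow_mem h2 n)

lemma aeval_mem {K : Type} [Field K] [Algebra E K] (F : IntermediateField E K) {u : K} (hu : u ∈ F)
    (q : E[X]) : aeval u q ∈ F :=
  (Algebra.adjoin_le (S := F.toSubalgebra) (Set.singleton_subset_iff.2 hu))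
    (aeval_mem_adjoin_singleton E u)

lemma eq_top_of_forall {R : Type} [CommRing R] [IsDomain R] [Algebra E R]
    (F : IntermediateField E (FractionRing R))
    (h : ∀ r, algebraMap R (FractionRing R) r ∈ F) : F = ⊤ := by
  rw [eq_top_iff]
  intro x _
  obtain ⟨a, b, -, rfl⟩ := IsFractionRing.div_surjective (A := R) x
  exact F.div_mem (h a) (h b)

lemma map_of_eq {K : Type} [CommRing K] [Algebra E K] (f : E[X][X]) (ψ : AdjoinRoot f →ₐ[E] K)
    (q : E[X]) : ψ (AdjoinRoot.of f q) = aeval (ψ (AdjoinRoot.of f X)) q := by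
  have h : (ψ.comp (IsScalarTower.toAlgHom E E[X] (AdjoinRoot f))) =
      aeval (ψ (AdjoinRoot.of f X)) := by
    ext
    simp [AdjoinRoot.algebraMap_eq]
  exact DFunLike.congr_fun h q

lemma eval_ev_root {K : Type} [CommRing K] [Algebra E K] (f : E[X][X]) (ψ : AdjoinRoot f →ₐ[E] K)
    {g : E[X][X]} (hg : f ∣ g) :
    (ev (ψ (AdjoinRoot.of f X)) g).eval (ψ (AdjoinRoot.root f)) = 0 := by
  have h1 : (aeval (ψ (AdjoinRoot.of f X)) : E[X] →ₐ[E] K).toRingHom =
      (ψ : AdjoinRoot f →+* K).comp (AdjoinRoot.of f) := by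
    refine RingHom.ext fun q => ?_
    exact (map_of_eq f ψ q).symm
  unfold ev
  rw [h1, eval_map]
  have h2 := hom_eval₂ g (AdjoinRoot.of f) (ψ : AdjoinRoot f →+* K) (AdjoinRoot.root f)
  have h3 : g.eval₂ (AdjoinRoot.of f) (AdjoinRoot.root f) = 0 := by
    rw [← AdjoinRoot.algebraMap_eq, ← aeval_def, AdjoinRoot.aeval_eq]
    exact AdjoinRoot.mk_eq_zero.2 hg
  rw [h3, map_zero] at h2
  exact h2.symm

lemma cast_ne_zero (p : ℕ) [CharP E p] {k : ℕ} (hk : 1 ≤ k) (hp : k < p) : (k : E) ≠ 0 := by
  intro h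
  have := Nat.le_of_dvd (by omega) ((CharP.cast_eq_zero_iff E p k).1 h)
  omega

lemma transc_of {K : Type} [CommRing K] [Algebra E K] {f : E[X][X]} (hm : f.Monic)
    (hi : Irreducible f) (ψ : AdjoinRoot f →ₐ[E] K) (hψ : Function.Injective ψ) :
    Transcendental E (ψ (AdjoinRoot.of f X)) := by
  rw [transcendental_iff_injective]
  have hd : f.degree ≠ 0 := fun h => hi.not_isUnit (by
    rw [hm.degree_le_zero_iff_eq_one.1 h.le]; exact isUnit_one)
  intro a b hab
  rw [← map_of_eq, ← map_of_eq] at hab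
  exact AdjoinRoot.of.injective_of_degree_ne_zero hd (hψ hab)

lemma monic_P2 {H : E[X]} (hm : H.Monic) (hk : 1 ≤ H.natDegree) (f : E[X][X])
    [IsDomain (AdjoinRoot f)] (t : E) : (P2 H f t).Monic :=
  (hm.map _).sub_of_left (degree_C_lt (by rwa [hm.natDegree_map]) _)

lemma natDegree_P2 {H : E[X]} (hm : H.Monic) (f : E[X][X])
    [IsDomain (AdjoinRoot f)] (t : E) : (P2 H f t).natDegree = H.natDegree := by
  unfold P2
  rw [natDegree_sub_C, hm.natDegree_map]

lemma order_Tinv : (HahnSeries.single (-1 : ℤ) (1 : E) : LaurentSeries E).order = -((1 : ℕ) : ℤ) := by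
  rw [HahnSeries.order_single one_ne_zero]; simp

end TEAux

open TEAux

theorem irreducible_hq_lin (H : E[X]) (hk : 1 ≤ H.natDegree) (t : E) :
    Irreducible (hq H (X + C t)) := by
  have h1 : Bivariate.swap (hq H (X + C t)) = -(X - C (H - C t)) := by
    unfold hq
    rw [map_sub, Bivariate.swap_map_C, C_add, map_add, Bivariate.swap_X, Bivariate.swap_C_C, C_sub]
    ring
  rw [← MulEquiv.irreducible_iff (Bivariate.swap (R := E)).toMulEquiv]
  change Irreducible (Bivariate.swap (hq H (X + C t)))
  rw [h1]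
  exact ((Associated.refl _).neg_right).irreducible (irreducible_X_sub_C _)

theorem isDomain_R2 [IsAlgClosed E] (p : ℕ) [Fact p.Prime] [CharP E p] (H : E[X]) (hm : H.Monic)
    (hk : 1 ≤ H.natDegree) (hp : H.natDegree * H.natDegree < p) (f : E[X][X]) (hf : Fac p H f)
    (t : E) (ht : GoodT H t) : IsDomain (AdjoinRoot (P2 H f t)) := by
  haveI : IsDomain (AdjoinRoot f) := AdjoinRoot.isDomain_of_prime hf.irr.prime
  have hkp : H.natDegree < p := lt_of_le_of_lt (Nat.le_mul_self _) hp
  have hk' : (H.natDegree : E) ≠ 0 := cast_ne_zero p hk hkp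
  refine isDomain_adjoinRoot _ (monic_P2 hm hk f t) ?_
  set ψ := IsScalarTower.toAlgHom E (AdjoinRoot f) (FractionRing (AdjoinRoot f)) with hψ
  have hinj : Function.Injective ψ := IsFractionRing.injective _ _
  set u := ψ (AdjoinRoot.of f X) with hu
  set v := ψ (AdjoinRoot.root f) with hv
  have htr : Transcendental E u := transc_of hf.monic hf.irr ψ hinj
  have huv : aeval v H - aeval u (-H) = 0 := by
    rw [← eval_ev_hq]; exact eval_ev_root f ψ hf.dvd
  have hH0 : H ≠ 0 := hm.ne_zero
  set w : LaurentSeries E := aeval (HahnSeries.single (-1 : ℤ) (1 : E) : LaurentSeries E) H with hw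
  have hwo : w.order = -(H.natDegree : ℤ) := by
    have := (order_aeval le_rfl order_Tinv H hH0).2
    rwa [one_mul] at this
  have hinf := splits_inf H hm hk hk' (aeval w (X + C t)) (by
    have := (order_aeval hk hwo (X + C t) (monic_X_add_C t).ne_zero).2
    rwa [natDegree_X_add_C, mul_one] at this)
  have key := irr_step p (aeval u H) u v
    (htr.aeval H (by omega) (by rw [hm.leadingCoeff]; exact one_mem _)) ?_
    (hq H X) (hq H (-X)) (hq H (X + C t)) (hq H (X + C t)) (monic_hq hm hk _) (monic_hq hm hk _)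
    (monic_hq hm hk _) (monic_hq hm hk _) (by rw [eval_ev_hq]; simp)
    (by rw [eval_ev_hq]; simpa using huv) (irreducible_hq_lin H hk t) dvd_rfl
    (by rwa [natDegree_hq hm, natDegree_hq hm]) (by rwa [natDegree_hq hm]) ?_ w H.natDegree hk hk'
    hwo (by rw [ev_hq]; exact hinf.1) (by rw [ev_hq]; exact hinf.2)
  · convert key using 1
    rw [ev_hq]
    unfold P2
    rw [Polynomial.map_sub, Polynomial.map_map, map_C, ← IsScalarTower.algebraMap_eq]
    congr 2
    have := map_of_eq f ψ (H + C t)
    rw [AdjoinRoot.algebraMap_eq]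
    refine this.trans ?_
    simp [hu]
  · refine eq_top_of_forall _ fun r => ?_
    refine mem_of_adjoinRoot f
      (IntermediateField.adjoin E {aeval u H, u, v}).toSubfield.toSubring
      (ψ : AdjoinRoot f →+* _) (fun q => ?_) ?_ r
    · change ψ (AdjoinRoot.of f q) ∈ IntermediateField.adjoin E {aeval u H, u, v}
      rw [map_of_eq]
      exact aeval_mem _ (IntermediateField.subset_adjoin _ _ (by simp [hu])) q
    · change v ∈ IntermediateField.adjoin E {aeval u H, u, v}
      exact IntermediateField.subset_adjoin _ _ (by simp)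
  · intro y
    rw [ev_hq_self, ev_hq_self, ev_hq_self]
    rcases ht y with h | h
    · left; simpa [Reg] using h
    · right; simpa [Reg] using h.1

theorem isDomain_R3 [IsAlgClosed E] (p : ℕ) [Fact p.Prime] [CharP E p] (H : E[X]) (hm : H.Monic)
    (hk : 1 ≤ H.natDegree) (hp : H.natDegree * H.natDegree < p) (f : E[X][X]) (hf : Fac p H f)
    (t : E) (ht : GoodT H t) : IsDomain (AdjoinRoot (P3 H f t)) := by
  haveI : IsDomain (AdjoinRoot f) := AdjoinRoot.isDomain_of_prime hf.irr.prime
  haveI : IsDomain (AdjoinRoot (P2 H f t)) := isDomain_R2 p H hm hk hp f hf t ht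
  have hkp : H.natDegree < p := lt_of_le_of_lt (Nat.le_mul_self _) hp
  have hk' : (H.natDegree : E) ≠ 0 := cast_ne_zero p hk hkp
  refine isDomain_adjoinRoot _ (hf.monic.map _) ?_
  set χ := IsScalarTower.toAlgHom E (AdjoinRoot (P2 H f t))
    (FractionRing (AdjoinRoot (P2 H f t))) with hχ
  have hχinj : Function.Injective χ := IsFractionRing.injective _ _
  set ψ := χ.comp (IsScalarTower.toAlgHom E (AdjoinRoot f) (AdjoinRoot (P2 H f t))) with hψ
  have hψa : ∀ r, ψ r = χ (AdjoinRoot.of (P2 H f t) r) := fun r => rfl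
  have hinj : Function.Injective ψ := by
    intro a b hab
    rw [hψa, hψa] at hab
    refine AdjoinRoot.of.injective_of_degree_ne_zero (f := P2 H f t) ?_ (hχinj hab)
    exact (natDegree_pos_iff_degree_pos.1 (by rw [natDegree_P2 hm]; omega)).ne'
  set u := ψ (AdjoinRoot.of f X) with hu
  set v := ψ (AdjoinRoot.root f) with hv
  set z := χ (AdjoinRoot.root (P2 H f t)) with hz
  have htr : Transcendental E u := transc_of hf.monic hf.irr ψ hinj
  have huv : aeval v H - aeval u (-H) = 0 := by
    rw [← eval_ev_hq]; exact eval_ev_root f ψ hf.dvd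
  have hzu : aeval z H = aeval u H + algebraMap E _ t := by
    have h1 : aeval (AdjoinRoot.root (P2 H f t)) (H.map (algebraMap E (AdjoinRoot f)) -
        C (algebraMap E[X] (AdjoinRoot f) (H + C t))) = 0 := by
      change aeval _ (P2 H f t) = 0
      rw [AdjoinRoot.aeval_eq, AdjoinRoot.mk_self]
    rw [map_sub, aeval_map_algebraMap, aeval_C, sub_eq_zero] at h1
    have h2 := congrArg χ h1
    rw [← aeval_algHom_apply, AdjoinRoot.algebraMap_eq, AdjoinRoot.algebraMap_eq, ← hψa,
      map_of_eq] at h2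
    rw [hz, h2]
    simp [hu]
  have hzt : aeval z (H - C t) = aeval u H := by
    rw [map_sub, aeval_C, hzu]; ring
  have htz : Transcendental E z := by
    intro hz'
    refine htr.aeval H (by omega) (by rw [hm.leadingCoeff]; exact one_mem _) ?_
    rw [← hzt]
    exact IsIntegral.isAlgebraic
      (adjoin_le_integralClosure hz'.isIntegral (aeval_mem_adjoin_singleton E z))
  have hH0 : H ≠ 0 := hm.ne_zero
  set w : LaurentSeries E := HahnSeries.single (-1 : ℤ) (1 : E) with hw
  have hinf := splits_inf H hm hk hk' (aeval w (-H)) (by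
    have := (order_aeval le_rfl order_Tinv (-H) (neg_ne_zero.2 hH0)).2
    rwa [one_mul, natDegree_neg] at this)
  have hfd : f.natDegree < p := by
    have := natDegree_le_of_dvd hf.dvd (monic_hq hm hk _).ne_zero
    rw [natDegree_hq hm] at this
    omega
  have key := irr_step p z u v htz ?_
    (hq H (H - C t)) (hq H (-(H - C t))) f (hq H (-H)) (monic_hq hm hk _) (monic_hq hm hk _)
    hf.monic (monic_hq hm hk _) (by rw [eval_ev_hq, hzt, sub_self])
    (by rw [eval_ev_hq, map_neg, hzt, ← huv, map_neg]) hf.irr hf.dvd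
    (by rwa [natDegree_hq hm, natDegree_hq hm]) hfd ?_ w 1 le_rfl (by simp)
    order_Tinv (by rw [ev_hq]; exact hinf.1) ?_
  · convert key using 1
    unfold P3 ev
    rw [Polynomial.map_map]
    congr 1
    refine RingHom.ext fun q => ?_
    exact (aeval_algHom_apply χ _ q).symm
  · refine eq_top_of_forall _ fun r => ?_
    refine mem_of_adjoinRoot (P2 H f t)
      (IntermediateField.adjoin E {z, u, v}).toSubfield.toSubring
      (χ : AdjoinRoot (P2 H f t) →+* _) (fun r => ?_) ?_ r
    · refine mem_of_adjoinRoot f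
        (IntermediateField.adjoin E {z, u, v}).toSubfield.toSubring
        (ψ : AdjoinRoot f →+* _) (fun q => ?_) ?_ r
      · change ψ (AdjoinRoot.of f q) ∈ IntermediateField.adjoin E {z, u, v}
        rw [map_of_eq]
        exact aeval_mem _ (IntermediateField.subset_adjoin _ _ (by simp [hu])) q
      · change v ∈ IntermediateField.adjoin E {z, u, v}
        exact IntermediateField.subset_adjoin _ _ (by simp)
    · change z ∈ IntermediateField.adjoin E {z, u, v}
      exact IntermediateField.subset_adjoin _ _ (by simp)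
  · intro y
    rw [ev_hq_self, ev_hq_self, ev_hq_self]
    rcases ht (H.eval y - t) with h | h
    · left; simpa [Reg] using h
    · right; simpa [Reg] using h.2
  · rw [ev_hq]; exact hinf.2

end Vale.Agent.P042Y
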