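import Vale.Agent.P042Y.Step
import Vale.Agent.P042Y.TE
import Vale.Agent.P042Y.CFac

/-! The upper bound for the fibre product. -/

namespace Vale.Agent.P042Y

open Polynomial Finset

namespace CUp

lemma cov_mono {E R ι : Type} [Field E] [CommRing R] [Algebra E R] [Algebra E[X] R]
    [IsScalarTower E E[X] R] [Fintype ι] [DecidableEq ι] {b : Module.Basis ι E[X] R}
    {p C C' : ℕ} {D : Derivation E R R} {φ : R →ₐ[E] R} (h : Cov p C b D φ) (hC : C ≤ C') :
    Cov p C' b D φ :=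
  ⟨fun i j => (h.mul i j).mono hC, h.one.mono hC, h.dX.mono hC, fun i => (h.db i).mono hC, h.fX,
    h.fb⟩

lemma expand_eq_pow {E : Type} [Field E] (p : ℕ) [Fact p.Prime] [CharP E p] (a : E[X])
    (ha : ∀ l, a.coeff l ^ p = a.coeff l) : expand E p a = a ^ p := by
  have h : a.map (frobenius E p) = a := by
    ext l; rw [coeff_map, frobenius_def, ha]
  rw [← map_frobenius_expand p a, map_expand, h]

lemma exists_point {E R : Type} [Field E] [CommRing R] [Algebra E R] {p : ℕ} (P : R[X])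
    (φ : R →ₐ[E] R) (φ' : AdjoinRoot P →ₐ[E] AdjoinRoot P)
    (h1 : ∀ r, φ' (AdjoinRoot.of P r) = AdjoinRoot.of P (φ r))
    (h2 : φ' (AdjoinRoot.root P) = AdjoinRoot.root P ^ p) (χ : R →ₐ[E] E)
    (hχ : ∀ r, χ (φ r) = χ r) (x : E) (hx : x ^ p = x) (h0 : P.eval₂ (χ : R →+* E) x = 0) :
    ∃ χ' : AdjoinRoot P →ₐ[E] E, (∀ r, χ' (AdjoinRoot.of P r) = χ r) ∧
      χ' (AdjoinRoot.root P) = x ∧ ∀ r, χ' (φ' r) = χ' r := by
  refine ⟨AdjoinRoot.liftAlgHom P χ x h0, fun r => by simp, by simp, fun r => ?_⟩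
  have : (AdjoinRoot.liftAlgHom P χ x h0).comp φ' = AdjoinRoot.liftAlgHom P χ x h0 := by
    refine AdjoinRoot.algHom_ext' (AlgHom.ext fun s => ?_) ?_
    · simp [h1, hχ]
    · simp [h2, hx]
  exact congr($this r)

lemma dle_aeval {E R ι : Type} [Field E] [CommRing R] [Algebra E R] [Algebra E[X] R]
    [IsScalarTower E E[X] R] [Fintype ι] [DecidableEq ι] {b : Module.Basis ι E[X] R}
    {c k : ℕ} (hC : ∀ i j, dle b c (b i * b j)) (h1 : dle b c 1) {w : R} (hw : dle b c w)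
    (a : E[X]) (ha : a.natDegree ≤ k) : dle b (k * (c + c) + c) (aeval w a) := by
  rw [aeval_eq_sum_range]
  refine dle_sum _ _ fun i hi => ?_
  have hi' : i ≤ k := (Nat.lt_succ_iff.1 (mem_range.1 hi)).trans ha
  have h2 := dle.smul (a := C (a.coeff i)) (m := 0) (by simp) (dle.pow hC h1 hw i)
  have h3 : (C (a.coeff i) : E[X]) • w ^ i = a.coeff i • w ^ i := by
    rw [← algebraMap_smul E[X] (a.coeff i)]; rfl
  rw [h3, zero_add] at h2
  exact h2.mono (Nat.add_le_add_right (Nat.mul_le_mul_right _ hi') _)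

lemma P2_eq {E : Type} [Field E] (H : E[X]) (f : E[X][X]) (t : E) :
    P2 H f t = (hq H (H + C t)).map (AdjoinRoot.of f) := by
  unfold P2 hq
  rw [Polynomial.map_sub, map_C, Polynomial.map_map]
  rfl

lemma hq_monic {E : Type} [Field E] {H : E[X]} (hm : H.Monic) (hk : 1 ≤ H.natDegree) (a : E[X]) :
    (hq H a).Monic ∧ (hq H a).natDegree = H.natDegree := by
  have h1 : (H.map (C : E →+* E[X])).natDegree = H.natDegree := hm.natDegree_map _
  refine ⟨(hm.map _).sub_of_left ?_, by unfold hq; rw [natDegree_sub_C, h1]⟩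
  refine lt_of_le_of_lt degree_C_le ?_
  rw [degree_eq_natDegree (hm.map _).ne_zero, h1]
  exact_mod_cast hk

lemma hq_coeff {E : Type} [Field E] (H a : E[X]) (l : ℕ) :
    (hq H a).coeff l = C (H.coeff l) - if l = 0 then a else 0 := by
  unfold hq
  rw [coeff_sub, coeff_map, coeff_C]

end CUp

open CUp in
open Classical in
theorem count_upper (k : ℕ) : ∃ C p₀ : ℕ, ∀ (p : ℕ) [Fact p.Prime], p₀ ≤ p →
    ∀ (E : Type) [Field E] [IsAlgClosed E] [Algebra (ZMod p) E] (H : E[X]), H.Monic →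
    1 ≤ H.natDegree → H.natDegree ≤ k → (∀ l, H.coeff l ^ p = H.coeff l) →
    ∀ f : E[X][X], Fac p H f → ∀ t : ZMod p, GoodT H (algebraMap (ZMod p) E t) →
    ((((Zf p f) ×ˢ (Zf p f)).filter (fun z => H.eval (algebraMap (ZMod p) E z.2.1) =
        H.eval (algebraMap (ZMod p) E z.1.1) + algebraMap (ZMod p) E t)).card : ℝ) ≤
      p + C * √(p : ℝ) := by
  obtain ⟨C1, -, T1⟩ := tower k k
  obtain ⟨C2, -, T2⟩ := tower (k + C1) k
  obtain ⟨C3, -, T3⟩ := tower (k * (C2 + C2) + C2) k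
  have hst := fun n : ℕ => stepanov (n + 1) (n + 1) C3 (Nat.le_add_left 1 n)
  choose C' p' hst using hst
  refine ⟨∑ n ∈ range (k ^ 3), C' n, ∑ n ∈ range (k ^ 3), p' n + k * k + k + 1, ?_⟩
  intro p _ hp E _ _ _ H hm hk1 hk hH f hf t ht
  haveI : CharP E p := charP_of_injective_algebraMap (algebraMap (ZMod p) E).injective p
  have hfix : ∀ x : ZMod p, algebraMap (ZMod p) E x ^ p = algebraMap (ZMod p) E x := fun x => by
    rw [← map_pow, ZMod.pow_card]
  have hcast : ∀ j : ℕ, 1 ≤ j → j ≤ k → (j : E) ≠ 0 := fun j h1 h2 h => by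
    have := Nat.le_of_dvd h1 ((CharP.cast_eq_zero_iff E p j).1 h)
    omega
  obtain ⟨τ, hτ⟩ : ∃ τ, τ = algebraMap (ZMod p) E t := ⟨_, rfl⟩
  have hτp : τ ^ p = τ := by rw [hτ]; exact hfix t
  rw [← hτ] at ht ⊢
  obtain ⟨hf1, hf2⟩ := hf.natDegree_le hm hk1
  have hpp : H.natDegree * H.natDegree < p :=
    lt_of_le_of_lt (Nat.mul_le_mul hk hk) (by omega)
  haveI : IsDomain (AdjoinRoot f) := AdjoinRoot.isDomain_of_prime hf.irr.prime
  haveI := isDomain_R2 p H hm hk1 hpp f hf τ ht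
  haveI := isDomain_R3 p H hm hk1 hpp f hf τ ht
  -- first tower
  obtain ⟨b1, D1, φ1, c1, -, -, -, hD1, hφ1, hr1⟩ := T1 p E E[X] Unit _ _ _
    (cov_mono (cov_base E p) (Nat.zero_le k)) f hf.monic (hf2.trans hk)
    (fun l i => by rw [Module.Basis.singleton_repr]; exact (hf.deg l).trans hk) hf.rat
  -- second tower
  obtain ⟨hq1, hq2⟩ := hq_monic hm hk1 (H + C τ)
  have hm2 : (P2 H f τ).Monic := by rw [P2_eq]; exact hq1.map _
  have hd2 : (P2 H f τ).natDegree = H.natDegree := by rw [P2_eq, hq1.natDegree_map, hq2]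
  have hc2 : ∀ l, (P2 H f τ).coeff l = AdjoinRoot.of f ((hq H (H + C τ)).coeff l) := fun l => by
    rw [P2_eq, coeff_map]
  have hqd : ∀ l, ((hq H (H + C τ)).coeff l).natDegree ≤ k := fun l => by
    rw [hq_coeff]
    refine (natDegree_sub_le _ _).trans (max_le (by simp) ?_)
    split_ifs
    · rw [natDegree_add_C]; exact hk
    · simp
  have hqf : ∀ l, expand E p ((hq H (H + C τ)).coeff l) = (hq H (H + C τ)).coeff l ^ p :=
    fun l => by
      rw [hq_coeff, map_sub, sub_pow_char, expand_C, ← C_pow, hH]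
      split_ifs
      · rw [map_add, add_pow_char, expand_C, ← C_pow, hτp, expand_eq_pow p H hH]
      · rw [map_zero, zero_pow (Fact.out : p.Prime).ne_zero]
  obtain ⟨b2, D2, φ2, c2, -, -, hw2, hD2, hφ2, hr2⟩ := T2 p E (AdjoinRoot f) _ b1 D1 φ1
    (cov_mono c1 (Nat.le_add_left _ _)) (P2 H f τ) hm2 (hd2.trans_le hk)
    (fun l => by
      rw [hc2, ← AdjoinRoot.algebraMap_eq, Algebra.algebraMap_eq_smul_one]
      exact dle.smul (hqd l) c1.one)
    (fun l => by rw [hc2, hφ1, hqf, map_pow])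
  -- third tower
  have hm3 : (P3 H f τ).Monic := hf.monic.map _
  have hd3 : (P3 H f τ).natDegree = f.natDegree := hf.monic.natDegree_map _
  have hc3 : ∀ l, (P3 H f τ).coeff l = aeval (AdjoinRoot.root (P2 H f τ)) (f.coeff l) :=
    fun l => by unfold P3 ev; rw [coeff_map]; rfl
  obtain ⟨b3, D3, φ3, c3, -, -, -, hD3, hφ3, hr3⟩ := T3 p E (AdjoinRoot (P2 H f τ)) _ b2 D2 φ2
    (cov_mono c2 (Nat.le_add_left _ _)) (P3 H f τ) hm3 (hd3.trans_le (hf2.trans hk))
    (fun l => by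
      rw [hc3]
      exact dle_aeval c2.mul c2.one hw2 _ ((hf.deg l).trans hk))
    (fun l => by rw [hc3, ← aeval_algHom_apply, hr2, ← expand_aeval, hf.rat, map_pow])
  -- the derivative of the coordinate
  have hy : algebraMap E[X] (AdjoinRoot (P3 H f τ)) X =
      AdjoinRoot.of _ (AdjoinRoot.of _ (AdjoinRoot.of f X)) := rfl
  have hdeg : ∀ {R : Type} [CommRing R] (P : R[X]), 1 ≤ P.natDegree → P.degree ≠ 0 :=
    fun P h1 h => by rw [natDegree_eq_of_degree_eq_some (n := 0) h] at h1; omega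
  have hDy : D3 (algebraMap E[X] (AdjoinRoot (P3 H f τ)) X) ≠ 0 := by
    rw [hy, hD3, hD2, hD1]
    refine mul_ne_zero (mk_derivative_ne_zero (E := E) _ hm3
      (hcast _ (by omega) (by omega))) ?_
    rw [map_ne_zero_iff _ (AdjoinRoot.of.injective_of_degree_ne_zero (hdeg _ (by omega)))]
    refine mul_ne_zero (mk_derivative_ne_zero (E := E) _ hm2
      (hcast _ (by omega) (by omega))) ?_
    rw [map_ne_zero_iff _ (AdjoinRoot.of.injective_of_degree_ne_zero (hdeg _ (by omega)))]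
    refine mul_ne_zero (mk_derivative_ne_zero (E := E) _ hf.monic
      (hcast _ (by omega) (by omega))) ?_
    simp
  obtain ⟨n, hn⟩ : ∃ n, Fintype.card (((Unit × Fin f.natDegree) × Fin (P2 H f τ).natDegree) ×
      Fin (P3 H f τ).natDegree) = n + 1 ∧ n < k ^ 3 := by
    simp only [Fintype.card_prod, Fintype.card_fin, Fintype.card_unique, one_mul, hd2, hd3]
    have h1 : 1 ≤ f.natDegree * H.natDegree * f.natDegree :=
      Nat.mul_pos (Nat.mul_pos hf1 hk1) hf1
    have h2 : f.natDegree * H.natDegree * f.natDegree ≤ k * k * k :=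
      Nat.mul_le_mul (Nat.mul_le_mul (hf2.trans hk) hk) (hf2.trans hk)
    have h3 : k * k * k = k ^ 3 := by ring
    exact ⟨f.natDegree * H.natDegree * f.natDegree - 1, by omega, by omega⟩
  have hn1 : p' n ≤ p :=
    le_trans (single_le_sum (f := p') (fun _ _ => Nat.zero_le _) (mem_range.2 hn.2)) (by omega)
  have hn2 : C' n ≤ ∑ n ∈ range (k ^ 3), C' n :=
    single_le_sum (f := C') (fun _ _ => Nat.zero_le _) (mem_range.2 hn.2)
  set F := ((Zf p f) ×ˢ (Zf p f)).filter (fun z => H.eval (algebraMap (ZMod p) E z.2.1) =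
        H.eval (algebraMap (ZMod p) E z.1.1) + τ) with hF
  have hpt : ∀ z ∈ F, ∃ χ : AdjoinRoot (P3 H f τ) →ₐ[E] E, (∀ r, χ (φ3 r) = χ r) ∧
      χ (AdjoinRoot.of _ (AdjoinRoot.of _ (AdjoinRoot.of f X))) = algebraMap (ZMod p) E z.1.1 ∧
      χ (AdjoinRoot.of _ (AdjoinRoot.of _ (AdjoinRoot.root f))) = algebraMap (ZMod p) E z.1.2 ∧
      χ (AdjoinRoot.of _ (AdjoinRoot.root (P2 H f τ))) = algebraMap (ZMod p) E z.2.1 ∧
      χ (AdjoinRoot.root (P3 H f τ)) = algebraMap (ZMod p) E z.2.2 := by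
    intro z hz
    obtain ⟨hz1, hz2⟩ := mem_filter.1 hz
    obtain ⟨hz3, hz4⟩ := mem_product.1 hz1
    have hz3' := (mem_filter.1 hz3).2
    have hz4' := (mem_filter.1 hz4).2
    obtain ⟨χ1, e1, e2, e3⟩ := exists_point f (expand E p) φ1 hφ1 hr1
      (aeval (algebraMap (ZMod p) E z.1.1)) (fun r => by rw [expand_aeval, hfix])
      (algebraMap (ZMod p) E z.1.2) (hfix _) (by rw [eval₂_eq_eval_map]; exact hz3')
    obtain ⟨χ2, e4, e5, e6⟩ := exists_point (P2 H f τ) φ1 φ2 hφ2 hr2 χ1 e3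
      (algebraMap (ZMod p) E z.2.1) (hfix _) (by
        unfold P2
        rw [eval₂_sub, eval₂_C, eval₂_map, AlgHom.comp_algebraMap, AdjoinRoot.algebraMap_eq,
          AlgHom.coe_toRingHom, e1]
        simp [hz2])
    obtain ⟨χ3, e7, e8, e9⟩ := exists_point (P3 H f τ) φ2 φ3 hφ3 hr3 χ2 e6
      (algebraMap (ZMod p) E z.2.2) (hfix _) (by
        rw [← hz4']
        unfold P3 ev
        rw [eval₂_map, eval_map]
        congr 1
        ext c
        · simp
        · simp [e5])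
    exact ⟨χ3, e9, by rw [e7, e4, e1, aeval_X], by rw [e7, e4, e2], by rw [e7, e5], e8⟩
  choose g hg using hpt
  have hinj : Function.Injective fun z : {z // z ∈ F} => g z.1 z.2 := by
    intro z w hzw
    have hzw' : g z.1 z.2 = g w.1 w.2 := hzw
    obtain ⟨-, a1, a2, a3, a4⟩ := hg z.1 z.2
    obtain ⟨-, a5, a6, a7, a8⟩ := hg w.1 w.2
    rw [hzw'] at a1 a2 a3 a4
    have hi := (algebraMap (ZMod p) E).injective
    exact Subtype.ext (Prod.ext (Prod.ext (hi (a1.symm.trans a5)) (hi (a2.symm.trans a6)))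
      (Prod.ext (hi (a3.symm.trans a7)) (hi (a4.symm.trans a8))))
  have hcard : (F.attach.image fun z : {z // z ∈ F} => g z.1 z.2).card = F.card := by
    rw [card_image_of_injective _ hinj, card_attach]
  have key := hst n p hn1 E (AdjoinRoot (P3 H f τ)) _ b3 D3 φ3 c3 hn.1 hDy
    (AdjoinRoot (P3 H f τ)) _ b3 (AlgHom.id _ _) (AlgHom.id _ _) hn.1
    (fun i l => ⟨fun x => b3.repr (b3 i * b3 l) x, c3.mul i l, (b3.sum_repr _).symm⟩)
    (F.attach.image fun z : {z // z ∈ F} => g z.1 z.2) (fun P hP => by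
      obtain ⟨z, -, rfl⟩ := mem_image.1 hP
      exact ⟨_, fun r => rfl, fun r => ((hg z.1 z.2).1 r).symm⟩)
  rw [hcard] at key
  have h1 : (C' n : ℝ) ≤ (∑ n ∈ range (k ^ 3), C' n : ℕ) := by exact_mod_cast hn2
  have h2 : (0 : ℝ) ≤ √(p : ℝ) := Real.sqrt_nonneg _
  have h3 : (0 : ℝ) ≤ n := Nat.cast_nonneg _
  have h4 : (0 : ℝ) ≤ C' n := Nat.cast_nonneg _
  have h5 := mul_le_mul_of_nonneg_right h1 h2
  have h6 : (0 : ℝ) ≤ n * (C' n * √(p : ℝ)) := by positivity
  push_cast at key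
  have h7 : (F.card : ℝ) ≤ p + C' n * √(p : ℝ) := by
    refine le_of_mul_le_mul_left (a := (n : ℝ) + 1) ?_ (by linarith)
    nlinarith
  linarith

end Vale.Agent.P042Y
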