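import Mathlib

/-! Definitions for point counts on covers of the affine line. -/

namespace Vale.Agent.P042Y

open Polynomial Finset

/-- all coordinates of `r` have degree at most `m` -/
def dle {E R ι : Type} [Field E] [CommRing R] [Algebra E[X] R] (b : Module.Basis ι E[X] R)
    (m : ℕ) (r : R) : Prop := ∀ i, (b.repr r i).natDegree ≤ m

/-- a finite free cover of the line with bounded structure constants, a derivation and a relative
Frobenius map -/
structure Cov {E R ι : Type} [Field E] [CommRing R] [Algebra E R] [Algebra E[X] R]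
    (p C : ℕ) (b : Module.Basis ι E[X] R) (D : Derivation E R R) (φ : R →ₐ[E] R) : Prop where
  mul : ∀ i j, dle b C (b i * b j)
  one : dle b C 1
  dX : dle b C (D (algebraMap E[X] R X))
  db : ∀ i, dle b C (D (b i))
  fX : φ (algebraMap E[X] R X) = algebraMap E[X] R X ^ p
  fb : ∀ i, φ (b i) = b i ^ p

/-- substitute `w` for the inner variable -/
noncomputable def ev {E K : Type} [Field E] [CommRing K] [Algebra E K] (w : K) (q : E[X][X]) :
    K[X] := q.map (aeval w : E[X] →ₐ[E] K).toRingHom

/-- the polynomial `H(outer) - a(inner)` -/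
noncomputable def hq {E : Type} [Field E] (H a : E[X]) : E[X][X] := H.map C - C a

/-- order at least `B` -/
def Lb {E : Type} [Field E] (B : ℤ) (x : LaurentSeries E) : Prop := ∀ n, n < B → x.coeff n = 0

/-- a rational symmetric absolutely irreducible component of `H(u) + H(v) = 0` -/
structure Fac {E : Type} [Field E] (p : ℕ) (H : E[X]) (f : E[X][X]) : Prop where
  monic : f.Monic
  irr : Irreducible f
  dvd : f ∣ hq H (-H)
  rat : ∀ l, expand E p (f.coeff l) = f.coeff l ^ p
  deg : ∀ l, (f.coeff l).natDegree ≤ H.natDegree
  symm : ∀ a c : E, (ev a f).eval c = 0 → (ev c f).eval a = 0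

/-- second equation of the fibre product -/
noncomputable def P2 {E : Type} [Field E] (H : E[X]) (f : E[X][X]) (t : E) : (AdjoinRoot f)[X] :=
  H.map (algebraMap E (AdjoinRoot f)) - C (algebraMap E[X] (AdjoinRoot f) (H + C t))

/-- third equation of the fibre product -/
noncomputable def P3 {E : Type} [Field E] (H : E[X]) (f : E[X][X]) (t : E) :
    (AdjoinRoot (P2 H f t))[X] := ev (AdjoinRoot.root (P2 H f t)) f

/-- `a` is not a critical value of `H` -/
def Reg {E : Type} [Field E] (H : E[X]) (a : E) : Prop := (H - C a).Separable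

/-- the shift `t` separates the branch points -/
def GoodT {E : Type} [Field E] (H : E[X]) (t : E) : Prop :=
  ∀ y : E, (Reg H y ∧ Reg H (-y)) ∨ (Reg H (y + t) ∧ Reg H (-(y + t)))

open Classical in
/-- the rational points of `f = 0` -/
noncomputable def Zf (p : ℕ) [Fact p.Prime] {E : Type} [Field E] [Algebra (ZMod p) E]
    (f : E[X][X]) : Finset (ZMod p × ZMod p) :=
  univ.filter (fun z => (ev (algebraMap (ZMod p) E z.1) f).eval (algebraMap (ZMod p) E z.2) = 0)

end Vale.Agent.P042Y
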