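import Vale.Agent.P042Y.Geom

/-! Exponential sums along the curve by differencing. -/

namespace Vale.Agent.P042Y

open Polynomial Finset

namespace FSum

variable {p : ℕ} [Fact p.Prime]

theorem fib_card (H : (ZMod p)[X]) (hk : 1 ≤ H.natDegree) (c : ZMod p) :
    (univ.filter fun y => H.eval y = c).card ≤ H.natDegree := by
  have hne : H - C c ≠ 0 := fun h => by
    have := natDegree_sub_C (p := H) (a := c)
    rw [h, natDegree_zero] at this
    omega
  calc (univ.filter fun y => H.eval y = c).card ≤ (H - C c).roots.toFinset.card := by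
        refine card_le_card fun y hy => ?_
        rw [Multiset.mem_toFinset, mem_roots hne, IsRoot, eval_sub, eval_C, (mem_filter.1 hy).2,
          sub_self]
    _ ≤ (H - C c).natDegree := (Multiset.toFinset_card_le _).trans (card_roots' _)
    _ = H.natDegree := natDegree_sub_C

theorem card_le_fst (H : (ZMod p)[X]) (hk : 1 ≤ H.natDegree) (Z : Finset (ZMod p × ZMod p))
    (hZ : ∀ z ∈ Z, H.eval z.1 + H.eval z.2 = 0) (A : Finset (ZMod p)) (hA : ∀ z ∈ Z, z.1 ∈ A) :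
    Z.card ≤ H.natDegree * A.card := by
  refine card_le_mul_card_image_of_maps_to (f := fun z => z.1) hA _ fun b _ => ?_
  refine le_trans ?_ (fib_card H hk (-H.eval b))
  refine card_le_card_of_injOn (fun z => z.2) (fun z hz => ?_) (fun z hz w hw h => ?_)
  · obtain ⟨h1, h2⟩ := mem_filter.1 hz
    have h3 := hZ z h1
    simp only [coe_filter, mem_univ, true_and, Set.mem_ofPred_eq]
    rw [← h2]
    linear_combination h3
  · have h1 := (mem_filter.1 hz).2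
    have h2 := (mem_filter.1 hw).2
    exact Prod.ext (h1.trans h2.symm) h

theorem rep_le (H : (ZMod p)[X]) (hk : 1 ≤ H.natDegree) (Z : Finset (ZMod p × ZMod p))
    (hZ : ∀ z ∈ Z, H.eval z.1 + H.eval z.2 = 0) (t : ZMod p) :
    ((Z ×ˢ Z).filter (fun z => H.eval z.2.1 = H.eval z.1.1 + t)).card ≤ H.natDegree ^ 3 * p := by
  have h1 : Z.card ≤ H.natDegree * p := by
    have := card_le_fst H hk Z hZ univ (fun _ _ => mem_univ _)
    rwa [card_univ, ZMod.card] at this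
  have h2 : ((Z ×ˢ Z).filter (fun z => H.eval z.2.1 = H.eval z.1.1 + t)).card ≤
      (H.natDegree * H.natDegree) * Z.card := by
    refine card_le_mul_card_image_of_maps_to (f := fun z => z.1)
      (fun z hz => (mem_product.1 (mem_filter.1 hz).1).1) _ fun b _ => ?_
    have h3 := card_le_fst H hk (Z.filter fun w => H.eval w.1 = H.eval b.1 + t)
      (fun z hz => hZ z (mem_filter.1 hz).1) (univ.filter fun y => H.eval y = H.eval b.1 + t)
      (fun z hz => mem_filter.2 ⟨mem_univ _, (mem_filter.1 hz).2⟩)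
    refine le_trans ?_ (h3.trans (Nat.mul_le_mul_left _ (fib_card H hk _)))
    refine card_le_card_of_injOn (fun z => z.2) (fun z hz => ?_) (fun z hz w hw h => ?_)
    · obtain ⟨h4, h5⟩ := mem_filter.1 hz
      obtain ⟨h6, h7⟩ := mem_filter.1 h4
      refine mem_coe.2 (mem_filter.2 ⟨(mem_product.1 h6).2, ?_⟩)
      rw [← h5]
      exact h7
    · have h4 := (mem_filter.1 hz).2
      have h5 := (mem_filter.1 hw).2
      exact Prod.ext (h4.trans h5.symm) h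
  calc _ ≤ (H.natDegree * H.natDegree) * Z.card := h2
    _ ≤ (H.natDegree * H.natDegree) * (H.natDegree * p) := Nat.mul_le_mul_left _ h1
    _ = H.natDegree ^ 3 * p := by ring

theorem sq_norm {α : Type} (Z : Finset α) (g : α → ZMod p) (ξ : ZMod p) (hξ : ξ ≠ 0) (ρ : ℝ) :
    ‖∑ z ∈ Z, ZMod.stdAddChar (ξ * g z)‖ ^ 2 ≤
      ∑ t : ZMod p, |(((Z ×ˢ Z).filter (fun z => g z.2 = g z.1 + t)).card : ℝ) - ρ| := by
  have h0 : ∑ t : ZMod p, ZMod.stdAddChar (ξ * t) = 0 := by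
    have h := AddChar.sum_mulShift ξ (ZMod.isPrimitive_stdAddChar p)
    rw [if_neg hξ, Nat.cast_zero] at h
    rw [← h]
    exact sum_congr rfl fun t _ => by rw [mul_comm]
  have h1 : ((‖∑ z ∈ Z, ZMod.stdAddChar (ξ * g z)‖ ^ 2 : ℝ) : ℂ) =
      ∑ z ∈ Z ×ˢ Z, ZMod.stdAddChar (ξ * (g z.2 - g z.1)) := by
    rw [← Complex.normSq_eq_norm_sq, Complex.normSq_eq_conj_mul_self, map_sum, sum_mul_sum,
      sum_product]
    refine sum_congr rfl fun a _ => sum_congr rfl fun b _ => ?_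
    rw [← AddChar.map_neg_eq_conj, ← AddChar.map_add_eq_mul]
    congr 1
    ring
  have h2 : ∑ z ∈ Z ×ˢ Z, ZMod.stdAddChar (ξ * (g z.2 - g z.1)) =
      ∑ t : ZMod p, (((((Z ×ˢ Z).filter (fun z => g z.2 = g z.1 + t)).card : ℝ) - ρ : ℝ) : ℂ) *
        ZMod.stdAddChar (ξ * t) := by
    rw [← sum_fiberwise (Z ×ˢ Z) (fun z => g z.2 - g z.1)]
    have h3 : ∑ t : ZMod p, (ρ : ℂ) * ZMod.stdAddChar (ξ * t) = 0 := by
      rw [← mul_sum, h0, mul_zero]
    rw [← sub_zero (∑ j : ZMod p, _), ← h3, ← sum_sub_distrib]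
    refine sum_congr rfl fun t _ => ?_
    rw [sum_congr rfl (g := fun _ => ZMod.stdAddChar (ξ * t))
      fun z hz => by rw [(mem_filter.1 hz).2], sum_const, nsmul_eq_mul]
    have h4 : ((Z ×ˢ Z).filter fun z => g z.2 - g z.1 = t) =
        (Z ×ˢ Z).filter (fun z => g z.2 = g z.1 + t) :=
      filter_congr fun z _ => sub_eq_iff_eq_add'
    rw [h4]
    push_cast
    ring
  have h5 : ‖∑ z ∈ Z, ZMod.stdAddChar (ξ * g z)‖ ^ 2 =
      ‖((‖∑ z ∈ Z, ZMod.stdAddChar (ξ * g z)‖ ^ 2 : ℝ) : ℂ)‖ := by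
    rw [Complex.norm_real, Real.norm_of_nonneg (by positivity)]
  rw [h5, h1, h2]
  refine (norm_sum_le _ _).trans (le_of_eq (sum_congr rfl fun t _ => ?_))
  rw [norm_mul, Complex.norm_real, Real.norm_eq_abs, ZMod.stdAddChar_apply, Circle.norm_coe,
    mul_one]

theorem sum_rep {α : Type} (Z : Finset α) (g : α → ZMod p) :
    ∑ t : ZMod p, (((Z ×ˢ Z).filter (fun z => g z.2 = g z.1 + t)).card : ℝ) = (Z.card : ℝ) ^ 2 := by
  have h1 := card_eq_sum_card_fiberwise (s := Z ×ˢ Z) (t := univ) (f := fun z => g z.2 - g z.1)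
    (fun _ _ => mem_coe.2 (mem_univ _))
  rw [card_product] at h1
  rw [sq, ← Nat.cast_mul, h1, Nat.cast_sum]
  refine sum_congr rfl fun t _ => ?_
  congr 2
  exact filter_congr fun z _ => sub_eq_iff_eq_add'.symm

theorem abs_sum_le (R : ZMod p → ℝ) (ρ M : ℝ) (hρ : 0 ≤ ρ) (hM : 0 ≤ M) (Bad : Finset (ZMod p))
    (hR : ∀ t, t ∉ Bad → R t ≤ ρ) (hR' : ∀ t, R t ≤ M) :
    ∑ t, |R t - ρ| ≤ p * ρ - ∑ t, R t + 2 * (Bad.card * M) := by
  have h1 : ∀ t, |R t - ρ| ≤ (ρ - R t) + 2 * (if t ∈ Bad then M else 0) := by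
    intro t
    have := hR' t
    split_ifs with ht
    · rw [abs_le]
      constructor <;> linarith
    · have := hR t ht
      rw [abs_le]
      constructor <;> linarith
  refine (sum_le_sum fun t _ => h1 t).trans (le_of_eq ?_)
  rw [sum_add_distrib, sum_sub_distrib, ← mul_sum, sum_ite_mem, univ_inter, sum_const, sum_const,
    card_univ, ZMod.card, nsmul_eq_mul, nsmul_eq_mul]

theorem num1 (s c K z b S : ℝ) (hs : 1 ≤ s) (hc : 0 ≤ c) (hK : 0 ≤ K) (hcs : c ≤ s)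
    (hz : s ^ 2 - c * s ≤ z) (hb : b ≤ c)
    (hS : S ≤ s ^ 2 * (s ^ 2 + c * s) - z ^ 2 + 2 * (b * (K * s ^ 2))) :
    S ≤ (3 * c + 2 * c * K) * s ^ 3 := by
  have h0 : 0 ≤ s ^ 2 - c * s := by nlinarith
  have h1 : (s ^ 2 - c * s) ^ 2 ≤ z ^ 2 := pow_le_pow_left₀ h0 hz 2
  have h2 : b * (K * s ^ 2) ≤ c * (K * s ^ 2) := mul_le_mul_of_nonneg_right hb (by positivity)
  have h3 : s ^ 2 ≤ s ^ 3 := pow_le_pow_right₀ hs (by norm_num)
  have h4 : c * K * s ^ 2 ≤ c * K * s ^ 3 := mul_le_mul_of_nonneg_left h3 (by positivity)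
  have h5 : 0 ≤ (c * s) ^ 2 := sq_nonneg _
  nlinarith

theorem num2 (x : ℝ) (M : ℕ) (N : ℝ) (hx : 0 ≤ x) (h : N ^ 2 ≤ M * √x ^ 3) :
    N ≤ M * x ^ (3 / 4 : ℝ) := by
  have h1 : √x ^ 3 = (x ^ (3 / 4 : ℝ)) ^ 2 := by
    rw [Real.sqrt_eq_rpow, ← Real.rpow_natCast, ← Real.rpow_natCast, ← Real.rpow_mul hx,
      ← Real.rpow_mul hx]
    norm_num
  have h2 : (M : ℝ) ≤ (M : ℝ) ^ 2 := by exact_mod_cast Nat.le_self_pow (by norm_num) M
  refine le_of_sq_le_sq ?_ (by positivity)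
  rw [mul_pow, ← h1]
  exact h.trans (mul_le_mul_of_nonneg_right h2 (by positivity))

end FSum

open FSum in
theorem curve_sum (k : ℕ) : ∃ C p₀ : ℕ, ∀ (p : ℕ) [Fact p.Prime], p₀ ≤ p → ∀ H : (ZMod p)[X],
    1 ≤ H.natDegree → H.natDegree ≤ k → ∀ r : ZMod p, H.eval r = 0 → H.derivative.eval r ≠ 0 →
    ∃ Z : Finset (ZMod p × ZMod p), (∀ z ∈ Z, H.eval z.1 + H.eval z.2 = 0) ∧
      (∀ z ∈ Z, z.swap ∈ Z) ∧ (∀ z ∈ Z, H.derivative.eval z.1 ≠ 0) ∧ (p : ℝ) ≤ 2 * Z.card ∧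
      ∀ ξ : ZMod p, ξ ≠ 0 →
        ‖∑ z ∈ Z, ZMod.stdAddChar (ξ * H.eval z.1)‖ ≤ C * (p : ℝ) ^ (3 / 4 : ℝ) := by
  obtain ⟨c, p₀, hc⟩ := geom k
  refine ⟨3 * c + 2 * c * k ^ 3 + 2 * k ^ 2, p₀ + (4 * c) ^ 2 + 8 * k ^ 2, ?_⟩
  intro p hp hp₀ H hk1 hk r hr hr'
  obtain ⟨Z, z1, z2, z3, Bad, z4, z5⟩ := hc p (by omega) H hk1 hk r hr hr'
  have hd0 : H.derivative ≠ 0 := fun h => hr' (by rw [h, eval_zero])
  have hp1 : (1 : ℝ) ≤ p := by exact_mod_cast hp.out.one_le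
  have hs1 : (1 : ℝ) ≤ √(p : ℝ) := Real.one_le_sqrt.2 hp1
  have hs2 : √(p : ℝ) ^ 2 = p := Real.sq_sqrt (by positivity)
  have hs3 : 4 * (c : ℝ) ≤ √(p : ℝ) := by
    apply Real.le_sqrt_of_sq_le
    exact_mod_cast (by omega : (4 * c) ^ 2 ≤ p)
  have hc0 : (0 : ℝ) ≤ c := Nat.cast_nonneg _
  have hA : (Z.filter fun z => H.derivative.eval z.1 = 0).card ≤ k ^ 2 := by
    have h1 := card_le_fst H hk1 (Z.filter fun z => H.derivative.eval z.1 = 0)
      (fun z hz => z1 z (mem_filter.1 hz).1) H.derivative.roots.toFinset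
      (fun z hz => Multiset.mem_toFinset.2 ((mem_roots hd0).2 (mem_filter.1 hz).2))
    have h2 : H.derivative.roots.toFinset.card ≤ k :=
      (Multiset.toFinset_card_le _).trans ((card_roots' _).trans
        ((natDegree_derivative_le _).trans ((Nat.sub_le _ _).trans hk)))
    rw [sq]
    exact h1.trans (Nat.mul_le_mul hk h2)
  have hB : (Z.filter fun z => H.derivative.eval z.2 = 0).card ≤ k ^ 2 := by
    refine le_trans ?_ hA
    refine card_le_card_of_injOn (fun z => z.swap) (fun z hz => ?_)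
      (fun z _ w _ h => Prod.swap_injective h)
    obtain ⟨h1, h2⟩ := mem_filter.1 hz
    exact mem_coe.2 (mem_filter.2 ⟨z2 z h1, h2⟩)
  have hW : (Z.filter fun z => ¬ (H.derivative.eval z.1 ≠ 0 ∧ H.derivative.eval z.2 ≠ 0)).card ≤
      2 * k ^ 2 := by
    refine le_trans (card_le_card (t := (Z.filter fun z => H.derivative.eval z.1 = 0) ∪
      (Z.filter fun z => H.derivative.eval z.2 = 0)) fun z hz => ?_)
      ((card_union_le _ _).trans (by omega))
    obtain ⟨h1, h2⟩ := mem_filter.1 hz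
    rw [mem_union, mem_filter, mem_filter]
    tauto
  have hW' : ((Z.filter fun z =>
      ¬ (H.derivative.eval z.1 ≠ 0 ∧ H.derivative.eval z.2 ≠ 0)).card : ℝ) ≤ 2 * (k : ℝ) ^ 2 := by
    exact_mod_cast hW
  refine ⟨Z.filter fun z => H.derivative.eval z.1 ≠ 0 ∧ H.derivative.eval z.2 ≠ 0,
    fun z hz => z1 z (mem_filter.1 hz).1, fun z hz => ?_, fun z hz => (mem_filter.1 hz).2.1,
    ?_, fun ξ hξ => ?_⟩
  · obtain ⟨h1, h2, h3⟩ := mem_filter.1 hz
    exact mem_filter.2 ⟨z2 z h1, h3, h2⟩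
  · have h1 := card_filter_add_card_filter_not (s := Z)
      fun z => H.derivative.eval z.1 ≠ 0 ∧ H.derivative.eval z.2 ≠ 0
    have h2 : ((Z.filter fun z => H.derivative.eval z.1 ≠ 0 ∧ H.derivative.eval z.2 ≠ 0).card : ℝ) +
        ((Z.filter fun z => ¬ (H.derivative.eval z.1 ≠ 0 ∧ H.derivative.eval z.2 ≠ 0)).card : ℝ) =
        Z.card := by exact_mod_cast h1
    have h3 : 8 * (k : ℝ) ^ 2 ≤ p := by exact_mod_cast (by omega : 8 * k ^ 2 ≤ p)
    have h4 : 4 * (c : ℝ) * √(p : ℝ) ≤ p := by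
      calc 4 * (c : ℝ) * √(p : ℝ) ≤ √(p : ℝ) * √(p : ℝ) :=
            mul_le_mul_of_nonneg_right hs3 (by positivity)
        _ = p := Real.mul_self_sqrt (by positivity)
    linarith
  · have h1 := sq_norm Z (fun z => H.eval z.1) ξ hξ (p + c * √(p : ℝ))
    have h2 := abs_sum_le
      (fun t => (((Z ×ˢ Z).filter (fun z => H.eval z.2.1 = H.eval z.1.1 + t)).card : ℝ))
      (p + c * √(p : ℝ)) ((k : ℝ) ^ 3 * p) (by positivity) (by positivity) Bad z5 (fun t => by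
        have h3 := (rep_le H hk1 Z z1 t).trans
          (Nat.mul_le_mul_right p (Nat.pow_le_pow_left hk 3))
        exact_mod_cast h3)
    rw [sum_rep Z (fun z => H.eval z.1)] at h2
    have h3 := num1 √(p : ℝ) c ((k : ℝ) ^ 3) Z.card Bad.card
      (‖∑ z ∈ Z, ZMod.stdAddChar (ξ * H.eval z.1)‖ ^ 2) hs1 hc0 (by positivity)
      (by linarith) (by rw [hs2]; exact z3) (by exact_mod_cast z4)
      (by rw [hs2]; exact h1.trans h2)
    have h4 := num2 p (3 * c + 2 * c * k ^ 3) ‖∑ z ∈ Z, ZMod.stdAddChar (ξ * H.eval z.1)‖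
      (by positivity) (by push_cast; exact h3)
    have h5 := sum_filter_add_sum_filter_not Z
      (fun z => H.derivative.eval z.1 ≠ 0 ∧ H.derivative.eval z.2 ≠ 0)
      (fun z => ZMod.stdAddChar (ξ * H.eval z.1))
    rw [eq_sub_of_add_eq h5]
    have h6 : ‖∑ z ∈ Z.filter fun z =>
        ¬ (H.derivative.eval z.1 ≠ 0 ∧ H.derivative.eval z.2 ≠ 0),
        ZMod.stdAddChar (ξ * H.eval z.1)‖ ≤ 2 * (k : ℝ) ^ 2 := by
      refine (norm_sum_le _ _).trans (le_trans (le_of_eq ?_) hW')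
      rw [sum_congr rfl (g := fun _ => (1 : ℝ)) fun z _ => by
        rw [ZMod.stdAddChar_apply, Circle.norm_coe], sum_const, nsmul_eq_mul, mul_one]
    have h7 : (1 : ℝ) ≤ (p : ℝ) ^ (3 / 4 : ℝ) := Real.one_le_rpow hp1 (by norm_num)
    have h8 : 2 * (k : ℝ) ^ 2 ≤ 2 * (k : ℝ) ^ 2 * (p : ℝ) ^ (3 / 4 : ℝ) :=
      le_mul_of_one_le_right (by positivity) h7
    refine (norm_sub_le _ _).trans ?_
    push_cast at h4 ⊢
    linarith

end Vale.Agent.P042Y
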