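import Vale.Agent.P042Y.CLow
import Vale.Agent.P042Y.CUp

/-! The geometric input over the prime field. -/

namespace Vale.Agent.P042Y

open Polynomial Finset

theorem geom (k : ℕ) : ∃ C p₀ : ℕ, ∀ (p : ℕ) [Fact p.Prime], p₀ ≤ p → ∀ H : (ZMod p)[X],
    1 ≤ H.natDegree → H.natDegree ≤ k → ∀ r : ZMod p, H.eval r = 0 → H.derivative.eval r ≠ 0 →
    ∃ Z : Finset (ZMod p × ZMod p), (∀ z ∈ Z, H.eval z.1 + H.eval z.2 = 0) ∧
      (∀ z ∈ Z, z.swap ∈ Z) ∧ (p : ℝ) - C * √(p : ℝ) ≤ Z.card ∧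
      ∃ Bad : Finset (ZMod p), Bad.card ≤ C ∧ ∀ t, t ∉ Bad →
        (((Z ×ˢ Z).filter (fun z => H.eval z.2.1 = H.eval z.1.1 + t)).card : ℝ) ≤
          p + C * √(p : ℝ) := by
  classical
  obtain ⟨C₁, p₁, h₁⟩ := count_lower k
  obtain ⟨C₂, p₂, h₂⟩ := count_upper k
  refine ⟨C₁ + C₂ + 4 * k ^ 2, p₁ + p₂, ?_⟩
  intro p _ hp H hk1 hk r hr hr'
  have hH0 : H ≠ 0 := by
    rintro rfl
    simp at hk1
  have hlc : H.leadingCoeff ≠ 0 := leadingCoeff_ne_zero.2 hH0
  have hlc' : H.leadingCoeff⁻¹ ≠ 0 := inv_ne_zero hlc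
  let E : Type := AlgebraicClosure (ZMod p)
  haveI : CharP E p := charP_of_injective_algebraMap (algebraMap (ZMod p) E).injective p
  have hfix : ∀ x : ZMod p, algebraMap (ZMod p) E x ^ p = algebraMap (ZMod p) E x := fun x => by
    rw [← map_pow, ZMod.pow_card]
  have hinj := (algebraMap (ZMod p) E).injective
  obtain ⟨G, hG⟩ : ∃ G : E[X], G = (C H.leadingCoeff⁻¹ * H).map (algebraMap (ZMod p) E) := ⟨_, rfl⟩
  have hm0 : (C H.leadingCoeff⁻¹ * H).Monic :=
    monic_C_mul_of_mul_leadingCoeff_eq_one (inv_mul_cancel₀ hlc)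
  have hGm : G.Monic := hG ▸ hm0.map _
  have hGd : G.natDegree = H.natDegree := by
    rw [hG, hm0.natDegree_map, natDegree_C_mul hlc']
  have hGc : ∀ l, G.coeff l ^ p = G.coeff l := fun l => by
    rw [hG, coeff_map, hfix]
  have hGe : ∀ x : ZMod p, G.eval (algebraMap (ZMod p) E x) =
      algebraMap (ZMod p) E (H.leadingCoeff⁻¹ * H.eval x) := fun x => by
    rw [hG, eval_map, eval₂_at_apply, eval_mul, eval_C]
  have hGe' : ∀ x : ZMod p, G.derivative.eval (algebraMap (ZMod p) E x) =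
      algebraMap (ZMod p) E (H.leadingCoeff⁻¹ * H.derivative.eval x) := fun x => by
    rw [hG, derivative_map, eval_map, eval₂_at_apply, derivative_C_mul, eval_mul, eval_C]
  have hd1 : G.derivative.eval (algebraMap (ZMod p) E r) ≠ 0 := by
    rw [hGe', map_ne_zero_iff _ hinj]
    exact mul_ne_zero hlc' hr'
  obtain ⟨f, hf⟩ := exists_fac p G hGm hGc (algebraMap (ZMod p) E r) (hfix r)
    (by rw [hGe, hr, mul_zero, map_zero]) hd1
  have hmem : ∀ z : ZMod p × ZMod p, z ∈ Zf p f ↔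
      (ev (algebraMap (ZMod p) E z.1) f).eval (algebraMap (ZMod p) E z.2) = 0 := fun z => by
    unfold Zf
    simp only [mem_filter, mem_univ, true_and]
  have hs : (0 : ℝ) ≤ √(p : ℝ) := Real.sqrt_nonneg _
  have hC1 : (0 : ℝ) ≤ C₁ := Nat.cast_nonneg _
  have hC2 : (0 : ℝ) ≤ C₂ := Nat.cast_nonneg _
  have hC3 : (0 : ℝ) ≤ 4 * (k : ℝ) ^ 2 := by positivity
  refine ⟨Zf p f, fun z hz => ?_, fun z hz => ?_, ?_, ?_⟩
  · have h3 := hf.eval ((hmem z).1 hz)
    rw [hGe, hGe, ← map_add, map_eq_zero_iff _ hinj, ← mul_add] at h3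
    exact (mul_eq_zero.1 h3).resolve_left hlc'
  · exact (hmem _).2 (hf.symm _ _ ((hmem z).1 hz))
  · have h3 := h₁ p (by omega) E G hGm (by omega) (by omega) f hf
    push_cast
    nlinarith
  · obtain ⟨B, hB, hB'⟩ := card_bad_le G (fun h => hd1 (by rw [h, eval_zero]))
    refine ⟨univ.filter fun t => algebraMap (ZMod p) E (H.leadingCoeff⁻¹ * t) ∈ B, ?_, ?_⟩
    · have h3 : (univ.filter fun t => algebraMap (ZMod p) E (H.leadingCoeff⁻¹ * t) ∈ B).card ≤
          B.card :=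
        card_le_card_of_injOn (fun t => algebraMap (ZMod p) E (H.leadingCoeff⁻¹ * t))
          (fun t ht => (mem_filter.1 ht).2)
          (fun a _ b _ hab => mul_left_cancel₀ hlc' (hinj hab))
      have h4 : G.natDegree ^ 2 ≤ k ^ 2 := Nat.pow_le_pow_left (by omega) 2
      omega
    · intro t ht
      have h3 : algebraMap (ZMod p) E (H.leadingCoeff⁻¹ * t) ∉ B := fun h =>
        ht (mem_filter.2 ⟨mem_univ _, h⟩)
      have h4 := h₂ p (by omega) E G hGm (by omega) (by omega) hGc f hf _ (hB' _ h3)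
      refine le_trans (le_trans ?_ h4) ?_
      · rw [Nat.cast_le]
        refine card_le_card fun z hz => ?_
        simp only [mem_filter] at hz ⊢
        refine ⟨hz.1, ?_⟩
        rw [hGe, hGe, hz.2, mul_add, map_add]
      · push_cast
        nlinarith

end Vale.Agent.P042Y
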