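import Vale.Agent.P042Y.Defs

/-! Degree bounds. -/

namespace Vale.Agent.P042Y

open Polynomial Finset

variable {E R ι : Type} [Field E] [CommRing R] [Algebra E R] [Algebra E[X] R]
  [IsScalarTower E E[X] R] [Fintype ι] [DecidableEq ι] {b : Module.Basis ι E[X] R}

set_option linter.unusedSectionVars false

theorem dle.mono {m m' : ℕ} {r : R} (h : dle b m r) (hm : m ≤ m') : dle b m' r :=
  fun i => (h i).trans hm

theorem dle_zero (b : Module.Basis ι E[X] R) (m : ℕ) : dle b m 0 := by
  intro i
  simp

theorem dle.add {m : ℕ} {r s : R} (h : dle b m r) (h' : dle b m s) : dle b m (r + s) := by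
  intro i
  rw [map_add, Finsupp.add_apply]
  exact natDegree_add_le_of_degree_le (h i) (h' i)

theorem dle.neg {m : ℕ} {r : R} (h : dle b m r) : dle b m (-r) := by
  intro i
  rw [map_neg, Finsupp.neg_apply, natDegree_neg]
  exact h i

theorem dle_sum {κ : Type} (s : Finset κ) (F : κ → R) {m : ℕ} (h : ∀ x ∈ s, dle b m (F x)) :
    dle b m (∑ x ∈ s, F x) :=
  sum_induction F (dle b m) (fun _ _ => dle.add) (dle_zero b m) h

theorem dle.smul {m m' : ℕ} {r : R} {a : E[X]} (ha : a.natDegree ≤ m) (h : dle b m' r) :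
    dle b (m + m') (a • r) := by
  intro i
  rw [map_smul, Finsupp.smul_apply, smul_eq_mul]
  exact natDegree_mul_le.trans (add_le_add ha (h i))

theorem dle_basis (b : Module.Basis ι E[X] R) (i : ι) : dle b 0 (b i) := by
  intro j
  rw [b.repr_self, Finsupp.single_apply]
  split_ifs <;> simp

theorem dle.mul {C m m' : ℕ} (hC : ∀ i j, dle b C (b i * b j)) {r s : R} (h : dle b m r)
    (h' : dle b m' s) : dle b (m + m' + C) (r * s) := by
  rw [← b.sum_repr r, ← b.sum_repr s, sum_mul_sum]
  refine dle_sum _ _ fun i _ => dle_sum _ _ fun j _ => ?_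
  rw [smul_mul_smul_comm]
  exact dle.smul (natDegree_mul_le.trans (add_le_add (h i) (h' j))) (hC i j)

theorem dle.pow {C m : ℕ} (hC : ∀ i j, dle b C (b i * b j)) (h1 : dle b C 1) {r : R}
    (h : dle b m r) (j : ℕ) : dle b (j * (m + C) + C) (r ^ j) := by
  induction j with
  | zero => simpa using h1
  | succ j ih =>
    rw [pow_succ]
    exact (dle.mul hC ih h).mono (le_of_eq (by ring))

theorem dle.norm {C m : ℕ} (hC : ∀ i j, dle b C (b i * b j)) {r : R} (h : dle b m r) :
    (Algebra.norm E[X] r).natDegree ≤ Fintype.card ι * (m + C) := by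
  rw [Algebra.norm_eq_matrix_det b, Matrix.det_apply']
  refine natDegree_sum_le_of_forall_le _ _ fun σ _ => ?_
  refine natDegree_mul_le.trans ?_
  rw [natDegree_intCast, zero_add]
  refine (natDegree_prod_le _ _).trans ?_
  rw [← card_univ, ← smul_eq_mul]
  refine sum_le_card_nsmul _ _ _ fun i _ => ?_
  rw [Algebra.leftMulMatrix_eq_repr_mul]
  simpa using dle.mul hC h (dle_basis b i) (σ i)

theorem sdeg_der (D : Derivation E R R) (a : E[X]) :
    D (algebraMap E[X] R a) = derivative a • D (algebraMap E[X] R X) := by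
  have h : ∀ q : E[X], algebraMap E[X] R q = aeval (algebraMap E[X] R X) q := fun q => by
    rw [aeval_algebraMap_apply, aeval_X_left_apply]
  rw [h a, Derivation.map_aeval, ← h, Algebra.smul_def (derivative a), smul_eq_mul]

theorem Cov.dle_D {p C m : ℕ} {D : Derivation E R R} {φ : R →ₐ[E] R} (hc : Cov p C b D φ) {r : R}
    (h : dle b m r) : dle b (m + 2 * C) (D r) := by
  rw [← b.sum_repr r, map_sum]
  refine dle_sum _ _ fun i _ => ?_
  rw [Algebra.smul_def, Derivation.leibniz, sdeg_der, smul_eq_mul, smul_eq_mul,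
    ← Algebra.smul_def, mul_smul_comm]
  refine dle.add ((dle.smul (h i) (hc.db i)).mono (by omega)) ?_
  have h1 : (derivative (b.repr r i)).natDegree ≤ m :=
    (natDegree_derivative_le _).trans ((Nat.sub_le _ _).trans (h i))
  exact (dle.smul h1 (dle.mul hc.mul (dle_basis b i) hc.dX)).mono (by omega)

theorem Cov.dle_iter {p C m : ℕ} {D : Derivation E R R} {φ : R →ₐ[E] R} (hc : Cov p C b D φ)
    {r : R} (h : dle b m r) (j : ℕ) : dle b (m + 2 * C * j) (D^[j] r) := by
  induction j with
  | zero => simpa using h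
  | succ j ih =>
    rw [Function.iterate_succ_apply']
    exact (hc.dle_D ih).mono (le_of_eq (by ring))

/-- independence of powers of `X ^ p` over elements of degree below `p` -/
theorem eq_zero_of_dle {p : ℕ} (hp : 1 ≤ p) (s : Finset ℕ) (r : ℕ → R)
    (hr : ∀ j ∈ s, dle b (p - 1) (r j)) (h : ∑ j ∈ s, (X ^ (p * j) : E[X]) • r j = 0) :
    ∀ j ∈ s, r j = 0 := by
  intro j hj
  refine b.repr.injective ?_
  rw [map_zero]
  ext i n
  rw [Finsupp.zero_apply, coeff_zero]
  by_cases hn : p ≤ n
  · exact coeff_eq_zero_of_natDegree_lt (by have := hr j hj i; omega)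
  have h1 := congrArg (fun x => (b.repr x i).coeff (p * j + n)) h
  simp only [map_sum, map_smul, Finsupp.finsetSum_apply, Finsupp.smul_apply, smul_eq_mul,
    finsetSum_coeff, map_zero, Finsupp.zero_apply, coeff_zero, coeff_X_pow_mul'] at h1
  rw [sum_eq_single j] at h1
  · simpa using h1
  · intro k hk hkj
    split_ifs with hle
    · refine coeff_eq_zero_of_natDegree_lt ?_
      have h2 := hr k hk i
      rcases lt_or_gt_of_ne hkj with h3 | h3
      · have h4 : p * (k + 1) ≤ p * j := Nat.mul_le_mul_left p h3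
        rw [mul_add, mul_one] at h4
        omega
      · have h4 : p * (j + 1) ≤ p * k := Nat.mul_le_mul_left p h3
        rw [mul_add, mul_one] at h4
        omega
    · rfl
  · intro hj'
    exact absurd hj hj'

end Vale.Agent.P042Y
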