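import Vale.Agent.P042Y.SDeg

/-! Existence of the auxiliary function. -/

namespace Vale.Agent.P042Y

open Polynomial Finset

variable {E R ι : Type} [Field E] [CommRing R] [Algebra E R] [Algebra E[X] R]
  [IsScalarTower E E[X] R] [Fintype ι] [DecidableEq ι] {b : Module.Basis ι E[X] R}

theorem slin_iter (D : Derivation E R R) (m : ℕ) (r : R) :
    D^[m] r = ((D : R →ₗ[E] R) ^ m) r := by
  rw [Module.End.pow_apply]
  rfl

theorem Cov.exists_aux {p C A K M : ℕ} {D : Derivation E R R} {φ : R →ₐ[E] R}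
    (hc : Cov p C b D φ) {S κ : Type} [CommRing S] [Algebra E S] [Algebra E[X] S]
    [IsScalarTower E E[X] S] [Fintype κ] (c : κ → S) (i₁ i₂ : R →ₐ[E[X]] S)
    (hS : ∀ i l, ∃ e : κ → E[X], (∀ x, (e x).natDegree ≤ C) ∧ i₁ (b i) * i₂ (b l) = ∑ x, e x • c x)
    (hdim : M * (Fintype.card κ * (A + 2 * C * M + K + C + 1)) <
      (K + 1) * (Fintype.card ι * Fintype.card ι) * (A + 1)) :
    ∃ a : Fin (K + 1) → ι → ι → E[X], a ≠ 0 ∧ (∀ j i l, (a j i l).natDegree ≤ A) ∧
      ∀ m, m < M → ∑ j : Fin (K + 1), ∑ l,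
        (X ^ (j : ℕ) : E[X]) • (i₁ (D^[m] (∑ i, a j i l • b i)) * i₂ (b l)) = 0 := by
  classical
  obtain ⟨N, hN⟩ : ∃ N, N = A + 2 * C * M + K + C + 1 := ⟨_, rfl⟩
  let Θ : (κ → Fin N → E) →ₗ[E] S :=
    { toFun := fun e => ∑ x, ofFn N (e x) • c x
      map_add' := fun e e' => by simp [add_smul, sum_add_distrib]
      map_smul' := fun t e => by simp [smul_sum, smul_assoc] }
  have hW : ∀ (q : E[X]) (x : κ), q.natDegree < N → q • c x ∈ LinearMap.range Θ := by
    intro q x hq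
    refine ⟨Pi.single x (toFn N q), ?_⟩
    show ∑ y, ofFn N ((Pi.single x (toFn N q) : κ → Fin N → E) y) • c y = _
    rw [sum_eq_single x]
    · rw [Pi.single_eq_same, ofFn_comp_toFn_eq_id_of_natDegree_lt hq]
    · intro y _ hy
      rw [Pi.single_eq_of_ne hy, map_zero, zero_smul]
    · intro h
      exact absurd (mem_univ x) h
  have hW2 : ∀ (j : Fin (K + 1)) (l : ι) (r : R), dle b (A + 2 * C * M) r →
      (X ^ (j : ℕ) : E[X]) • (i₁ r * i₂ (b l)) ∈ LinearMap.range Θ := by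
    intro j l r hr
    rw [← b.sum_repr r, map_sum, sum_mul, smul_sum]
    refine Submodule.sum_mem _ fun i _ => ?_
    obtain ⟨e, he, h⟩ := hS i l
    rw [map_smul, smul_mul_assoc, h, smul_sum, smul_sum]
    refine Submodule.sum_mem _ fun x _ => ?_
    rw [smul_smul, smul_smul]
    refine hW _ x ?_
    have h1 := natDegree_mul_le (p := (X ^ (j : ℕ) : E[X]) * b.repr r i) (q := e x)
    have h2 := natDegree_mul_le (p := (X ^ (j : ℕ) : E[X])) (q := b.repr r i)
    have h3 := natDegree_X_pow_le (R := E) (j : ℕ)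
    have h4 := hr i
    have h5 := he x
    have h6 := j.2
    omega
  let j₁ : R →ₗ[E] S := (i₁.restrictScalars E).toLinearMap
  let L0 : Fin M → (Fin (K + 1) → ι → ι → Fin (A + 1) → E) →ₗ[E] S := fun m =>
    { toFun := fun a => ∑ j : Fin (K + 1), ∑ l, (X ^ (j : ℕ) : E[X]) •
        (j₁ (((D : R →ₗ[E] R) ^ (m : ℕ)) (∑ i, ofFn (A + 1) (a j i l) • b i)) * i₂ (b l))
      map_add' := fun a a' => by
        simp only [Pi.add_apply, map_add, add_smul, sum_add_distrib, add_mul, smul_add]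
      map_smul' := fun t a => by
        simp only [Pi.smul_apply, map_smul, smul_assoc, ← smul_sum, RingHom.id_apply,
          smul_mul_assoc, smul_comm (_ : E[X]) t] }
  have hdeg : ∀ v : Fin (A + 1) → E, (ofFn (A + 1) v).natDegree ≤ A := fun v =>
    Nat.lt_succ_iff.1 (ofFn_natDegree_lt (by omega) v)
  have hL0 : ∀ m a, L0 m a ∈ LinearMap.range Θ := by
    intro m a
    show ∑ j : Fin (K + 1), ∑ l, (X ^ (j : ℕ) : E[X]) •
        (i₁ (((D : R →ₗ[E] R) ^ (m : ℕ)) (∑ i, ofFn (A + 1) (a j i l) • b i)) * i₂ (b l)) ∈ _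
    refine Submodule.sum_mem _ fun j _ => Submodule.sum_mem _ fun l _ => hW2 j l _ ?_
    rw [← slin_iter]
    refine (hc.dle_iter (m := A) ?_ m).mono ?_
    · exact dle_sum _ _ fun i _ => dle.smul (m' := 0) (hdeg _) (dle_basis b i)
    · exact Nat.add_le_add_left (Nat.mul_le_mul_left _ m.2.le) _
  let L : (Fin (K + 1) → ι → ι → Fin (A + 1) → E) →ₗ[E] (Fin M → LinearMap.range Θ) :=
    LinearMap.pi fun m => (L0 m).codRestrict _ (hL0 m)
  have hk : LinearMap.ker L ≠ ⊥ := by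
    refine L.ker_ne_bot_of_finrank_lt ?_
    have h1 : Module.finrank E (LinearMap.range Θ) ≤ Fintype.card κ * N := by
      refine Θ.finrank_range_le.trans (le_of_eq ?_)
      simp [Module.finrank_pi_fintype]
    have h2 : Module.finrank E (Fin M → LinearMap.range Θ) =
        M * Module.finrank E (LinearMap.range Θ) := by
      simp [Module.finrank_pi_fintype]
    have h3 : Module.finrank E (Fin (K + 1) → ι → ι → Fin (A + 1) → E) =
        (K + 1) * (Fintype.card ι * Fintype.card ι) * (A + 1) := by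
      simp [Module.finrank_pi_fintype]
      ring
    rw [h2, h3]
    exact (Nat.mul_le_mul_left M h1).trans_lt (hN ▸ hdim)
  obtain ⟨a, ha, ha0⟩ := Submodule.exists_mem_ne_zero_of_ne_bot hk
  refine ⟨fun j i l => ofFn (A + 1) (a j i l), fun h => ha0 ?_, fun j i l => hdeg _,
    fun m hm => ?_⟩
  · funext j i l
    exact injective_ofFn (A + 1) ((congrFun (congrFun (congrFun h j) i) l).trans
      (map_zero _).symm)
  · have h1 : L0 ⟨m, hm⟩ a = 0 :=
      congrArg Subtype.val (congrFun (LinearMap.mem_ker.1 ha) ⟨m, hm⟩)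
    simp only [slin_iter]
    exact h1

/-- the numerical choice of the parameters -/
theorem step_params (n s C : ℕ) (hn : 1 ≤ n) : ∃ C' p₀ : ℕ, ∀ p : ℕ, p₀ ≤ p → ∃ A K M : ℕ,
    1 ≤ M ∧ M ≤ p ∧ n * (A + 2 * C) + C < p ∧
    M * (s * (A + 2 * C * M + K + C + 1)) < (K + 1) * (n * n) * (A + 1) ∧
    ∀ N : ℕ, M * N ≤ n * (A + p * K + p * C + 4 * C) →
      (n * N : ℝ) ≤ s * p + C' * √(p : ℝ) := by
  obtain ⟨c, hc⟩ : ∃ c, c = s * (2 * C + s) + 1 := ⟨_, rfl⟩
  obtain ⟨T, hT⟩ : ∃ T, T = s * (c + C) + c * (n * (3 * C + 1)) + 1 := ⟨_, rfl⟩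
  refine ⟨2 * (n * n * (1 + c + 5 * C)), T * T, fun p hp => ?_⟩
  obtain ⟨M, hM⟩ : ∃ M, M = Nat.sqrt p := ⟨_, rfl⟩
  have hTM : T ≤ M := hM ▸ Nat.le_sqrt.2 hp
  have hMM : M * M ≤ p := hM ▸ Nat.sqrt_le p
  have hpM : p < (M + 1) * (M + 1) := hM ▸ Nat.lt_succ_sqrt p
  have hc1 : 1 ≤ c := by omega
  have hM1 : 1 ≤ M := by omega
  have hMp : M ≤ p := (Nat.le_mul_self M).trans hMM
  have hnC : n * (3 * C + 1) ≤ c * (n * (3 * C + 1)) := Nat.le_mul_of_pos_left _ hc1
  have hq : 3 * C + 1 ≤ p / n := (Nat.le_div_iff_mul_le hn).2 (by rw [mul_comm]; omega)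
  obtain ⟨A, hA⟩ : ∃ A, p / n = A + (3 * C + 1) := ⟨p / n - (3 * C + 1), by omega⟩
  have hd1 : n * (A + (3 * C + 1)) ≤ p := hA ▸ Nat.mul_div_le p n
  have hd2 : p < n * (A + (3 * C + 1) + 1) := hA ▸ Nat.lt_mul_div_succ p hn
  have hnn : 0 < n * n := Nat.mul_pos hn hn
  obtain ⟨k, hk⟩ : ∃ k, k = M * s / (n * n) := ⟨_, rfl⟩
  have hk1 : n * n * k ≤ M * s := hk ▸ Nat.mul_div_le _ _
  have hk2 : M * s < n * n * (k + 1) := hk ▸ Nat.lt_mul_div_succ _ hnn
  have hk3 : k ≤ M * s := hk ▸ Nat.div_le_self _ _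
  refine ⟨A, k + c, M, hM1, hMp, ?_, ?_, fun N hN => ?_⟩
  · have : C ≤ n * C := Nat.le_mul_of_pos_left _ hn
    linarith
  · have e1 : p ≤ n * n * (A + 1) + n * (3 * C + 1) := by
      have : n * (A + 1) ≤ n * n * (A + 1) :=
        Nat.mul_le_mul_right _ (Nat.le_mul_self n)
      linarith
    have e2 : M * T ≤ p := (Nat.mul_le_mul_left M hTM).trans hMM
    have e3 : M * (s * (c + C)) + c * (n * (3 * C + 1)) < p := by
      have : c * (n * (3 * C + 1)) + 1 ≤ M * (c * (n * (3 * C + 1)) + 1) :=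
        Nat.le_mul_of_pos_left _ hM1
      rw [hT] at e2
      linarith
    have e4 : M * s * (2 * C * M + (k + c) + C) ≤ s * (2 * C + s) * p + M * (s * (c + C)) := by
      have h1 : M * s * k ≤ M * s * (M * s) := Nat.mul_le_mul_left _ hk3
      have h2 : s * (2 * C + s) * (M * M) ≤ s * (2 * C + s) * p := Nat.mul_le_mul_left _ hMM
      linarith
    have e5 : c * p ≤ c * (n * n * (A + 1) + n * (3 * C + 1)) := Nat.mul_le_mul_left _ e1
    have e6 : M * s * (A + 1) ≤ n * n * (k + 1) * (A + 1) := Nat.mul_le_mul_right _ hk2.le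
    have e7 : c * p = s * (2 * C + s) * p + p := by rw [hc]; ring
    linarith
  · have hp1 : 1 ≤ p := hM1.trans hMp
    have hAp : A ≤ p := by
      have : A ≤ n * A := Nat.le_mul_of_pos_left _ hn
      have h2 : n * A ≤ n * (A + (3 * C + 1)) := Nat.mul_le_mul_left _ (Nat.le_add_right _ _)
      omega
    have e1 : M * (n * N) ≤ M * (s * p) + n * n * (1 + c + 5 * C) * p := by
      have h1 : n * (M * N) ≤ n * (n * (A + p * (k + c) + p * C + 4 * C)) :=
        Nat.mul_le_mul_left _ hN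
      have h2 : n * n * A ≤ n * n * p := Nat.mul_le_mul_left _ hAp
      have h3 : p * (n * n * k) ≤ p * (M * s) := Nat.mul_le_mul_left _ hk1
      have h4 : n * n * C * 1 ≤ n * n * C * p := Nat.mul_le_mul_left _ hp1
      linarith
    have e2 : (M : ℝ) * (n * N) ≤ M * (s * p) + n * n * (1 + c + 5 * C) * p := by
      exact_mod_cast e1
    have hMr : (1 : ℝ) ≤ M := by exact_mod_cast hM1
    have e3 : √(p : ℝ) ≤ 2 * M := by
      rw [Real.sqrt_le_left (by positivity)]
      have : (p : ℝ) < (M + 1) * (M + 1) := by exact_mod_cast hpM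
      have h2 := mul_le_mul hMr hMr zero_le_one (by linarith)
      have h3 := mul_le_mul_of_nonneg_left hMr (by linarith : (0 : ℝ) ≤ M)
      linarith
    have e4 : (p : ℝ) ≤ M * (2 * √(p : ℝ)) := by
      have h1 : √(p : ℝ) * √(p : ℝ) = p := Real.mul_self_sqrt (by positivity)
      have h2 := mul_le_mul_of_nonneg_right e3 (Real.sqrt_nonneg (p : ℝ))
      linarith
    have e5 : (n : ℝ) * n * (1 + c + 5 * C) * p ≤
        n * n * (1 + c + 5 * C) * (M * (2 * √(p : ℝ))) :=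
      mul_le_mul_of_nonneg_left e4 (by positivity)
    refine le_of_mul_le_mul_left ?_ (by linarith : (0 : ℝ) < M)
    push_cast
    linarith

end Vale.Agent.P042Y
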