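import Vale.Agent.P042Y.Defs

/-! Tensor products of domains over an algebraically closed field. -/

namespace Vale.Agent.P042Y

open Polynomial Finset

theorem STen.point {E A : Type} [Field E] [IsAlgClosed E] [CommRing A] [Algebra E A]
    [IsDomain A] [Algebra.FiniteType E A] {a : A} (ha : a ≠ 0) : ∃ χ : A →ₐ[E] E, χ a ≠ 0 := by
  have hJ : IsJacobsonRing A := isJacobsonRing_of_finiteType (A := E)
  have h1 : (⊥ : Ideal A).jacobson = ⊥ := isJacobsonRing_iff_prime_eq.1 hJ ⊥ inferInstance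
  have h2 : a ∉ (⊥ : Ideal A).jacobson := by
    rw [h1]
    exact ha
  rw [Ideal.jacobson, Ideal.mem_sInf] at h2
  push Not at h2
  obtain ⟨m, ⟨-, hm⟩, ham⟩ := h2
  let := Ideal.Quotient.field m
  have := finite_of_finite_type_of_isJacobsonRing E (A ⧸ m)
  have hb := IsAlgClosed.algebraMap_bijective_of_isIntegral (k := E) (K := A ⧸ m)
  let ψ : E ≃ₐ[E] (A ⧸ m) := AlgEquiv.ofBijective (Algebra.ofId E (A ⧸ m)) hb
  refine ⟨(ψ.symm : (A ⧸ m) →ₐ[E] E).comp (Ideal.Quotient.mkₐ E m), fun h0 => ham ?_⟩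
  have h3 : ψ.symm (Ideal.Quotient.mk m a) = 0 := h0
  rw [map_eq_zero_iff _ ψ.symm.injective] at h3
  exact Ideal.Quotient.eq_zero_iff_mem.1 h3

open TensorProduct in
theorem STen.spec {E A B ι : Type} [Field E] [CommRing A] [CommRing B] [Algebra E A]
    [Algebra E B] (e : Module.Basis ι E B) (χ : A →ₐ[E] E) :
    ∃ Φ : A ⊗[E] B →ₐ[E] B, ∀ x i,
      e.repr (Φ x) i = χ ((Algebra.TensorProduct.basis A e).repr x i) := by
  refine ⟨Algebra.TensorProduct.lift ((Algebra.ofId E B).comp χ) (AlgHom.id E B)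
    fun _ _ => Commute.all _ _, fun x i => ?_⟩
  induction x using TensorProduct.induction_on with
  | zero => simp
  | tmul a b =>
    rw [Algebra.TensorProduct.lift_tmul, Algebra.TensorProduct.basis_repr_tmul]
    simp [Algebra.ofId_apply, ← Algebra.smul_def]
  | add x y hx hy => simp only [map_add, Finsupp.add_apply, hx, hy]

open TensorProduct in
theorem isDomain_tensor {E A B : Type} [Field E] [IsAlgClosed E] [CommRing A] [CommRing B]
    [Algebra E A] [Algebra E B] [IsDomain A] [IsDomain B] [Algebra.FiniteType E A] :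
    IsDomain (A ⊗[E] B) := by
  let e := Module.Basis.ofVectorSpace E B
  have hN : Nontrivial (A ⊗[E] B) := by
    obtain ⟨χ, -⟩ := STen.point (E := E) (one_ne_zero (α := A))
    obtain ⟨Φ, -⟩ := STen.spec e χ
    exact Φ.toRingHom.domain_nontrivial
  have hZ : NoZeroDivisors (A ⊗[E] B) := by
    refine ⟨fun {x y} hxy => ?_⟩
    by_contra hc
    push Not at hc
    have h1 : ∀ z : A ⊗[E] B, z ≠ 0 → ∃ i, (Algebra.TensorProduct.basis A e).repr z i ≠ 0 := by
      intro z hz
      by_contra h0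
      push Not at h0
      exact hz ((Algebra.TensorProduct.basis A e).repr.map_eq_zero_iff.1 (Finsupp.ext h0))
    obtain ⟨i, hi⟩ := h1 x hc.1
    obtain ⟨j, hj⟩ := h1 y hc.2
    obtain ⟨χ, hχ⟩ := STen.point (E := E) (mul_ne_zero hi hj)
    obtain ⟨Φ, hΦ⟩ := STen.spec e χ
    rw [map_mul, ← hΦ, ← hΦ] at hχ
    have h2 : Φ x * Φ y = 0 := by rw [← map_mul, hxy, map_zero]
    rcases mul_eq_zero.1 h2 with h3 | h3 <;> simp [h3] at hχ
  exact NoZeroDivisors.to_isDomain _

end Vale.Agent.P042Y
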