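import Vale.Agent.P042Y.SDeg
import Vale.Agent.P042Y.STen

/-! The auxiliary function does not vanish. -/

namespace Vale.Agent.P042Y

open Polynomial Finset

variable {E R ι : Type} [Field E] [CommRing R] [Algebra E R] [Algebra E[X] R]
  [IsScalarTower E E[X] R] [Fintype ι] [DecidableEq ι] {b : Module.Basis ι E[X] R}

lemma SNon.key {S : Type} [CommRing S] [Algebra E S] (i1 i2 : R →ₐ[E] S) (c : E[X]) :
    eval₂RingHom (i1 : R →+* S) (i2 (algebraMap E[X] R X)) (c.map (algebraMap E R)) =
      i2 (algebraMap E[X] R c) := by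
  rw [coe_eval₂RingHom, eval₂_map, AlgHom.comp_algebraMap, ← aeval_def, aeval_algHom_apply,
    aeval_algebraMap_apply, aeval_X_left_apply]

/-- the matrix of multiplication by the auxiliary function -/
noncomputable def SNon.mx (b : Module.Basis ι E[X] R) (N : ι → R[X]) : Matrix ι ι R[X] :=
  Matrix.of fun l' l'' => ∑ l, N l * (b.repr (b l * b l') l'').map (algebraMap E R)

omit [DecidableEq ι] in
lemma SNon.mul_eq {S : Type} [CommRing S] [Algebra E S] (i1 i2 : R →ₐ[E] S) (N : ι → R[X])
    (l' : ι) :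
    (∑ l, eval₂RingHom (i1 : R →+* S) (i2 (algebraMap E[X] R X)) (N l) * i2 (b l)) * i2 (b l') =
      ∑ l'', eval₂RingHom (i1 : R →+* S) (i2 (algebraMap E[X] R X)) (SNon.mx b N l' l'') *
        i2 (b l'') := by
  have h : ∀ l, i2 (b l) * i2 (b l') =
      ∑ l'', i2 (algebraMap E[X] R (b.repr (b l * b l') l'')) * i2 (b l'') := by
    intro l
    rw [← map_mul]
    conv_lhs => rw [← b.sum_repr (b l * b l')]
    rw [map_sum]
    exact sum_congr rfl fun l'' _ => by rw [Algebra.smul_def, map_mul]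
  simp only [SNon.mx, Matrix.of_apply, map_sum, map_mul, SNon.key, sum_mul, mul_assoc, h, mul_sum]
  exact sum_comm

open TensorProduct in
lemma SNon.indep (x : ι → R[X])
    (h : ∑ l, eval₂RingHom ((Algebra.TensorProduct.includeLeft : R →ₐ[E] R ⊗[E] R) :
        R →+* R ⊗[E] R)
      ((Algebra.TensorProduct.includeRight : R →ₐ[E] R ⊗[E] R) (algebraMap E[X] R X)) (x l) *
      (Algebra.TensorProduct.includeRight : R →ₐ[E] R ⊗[E] R) (b l) = 0) : x = 0 := by
  funext l0
  obtain ⟨lam, hlam⟩ : ∃ lam : R ⊗[E] R →ₗ[E] R[X], ∀ r s : R,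
      lam (r ⊗ₜ s) = C r * (b.repr s l0).map (algebraMap E R) :=
    ⟨(LinearMap.mul' E R[X]) ∘ₗ TensorProduct.map (CAlgHom (R := E) (A := R)).toLinearMap
      ((mapAlgHom (Algebra.ofId E R)).toLinearMap ∘ₗ (b.coord l0).restrictScalars E),
      fun r s => by simp [Algebra.ofId]⟩
  have h1 : ∀ (q : R[X]) (l : ι), lam (eval₂RingHom
      ((Algebra.TensorProduct.includeLeft : R →ₐ[E] R ⊗[E] R) : R →+* R ⊗[E] R)
      ((Algebra.TensorProduct.includeRight : R →ₐ[E] R ⊗[E] R) (algebraMap E[X] R X)) q *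
      (Algebra.TensorProduct.includeRight : R →ₐ[E] R ⊗[E] R) (b l)) =
      if l = l0 then q else 0 := by
    intro q l
    induction q using Polynomial.induction_on' with
    | add p q hp hq =>
      rw [map_add, add_mul, map_add, hp, hq]
      split_ifs <;> simp
    | monomial k r =>
      rw [coe_eval₂RingHom, eval₂_monomial, ← map_pow, mul_assoc, ← map_mul, ← map_pow,
        ← Algebra.smul_def]
      simp only [RingHom.coe_coe, Algebra.TensorProduct.includeLeft_apply,
        Algebra.TensorProduct.includeRight_apply, Algebra.TensorProduct.tmul_mul_tmul, mul_one,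
        one_mul, hlam, map_smul, Module.Basis.repr_self, Finsupp.smul_apply, Finsupp.single_apply,
        smul_eq_mul]
      split_ifs
      · simp [C_mul_X_pow_eq_monomial]
      · simp
  have h2 := congrArg lam h
  rw [map_sum, map_zero] at h2
  simp only [h1] at h2
  simpa using h2

/-- all coefficients have small coordinates -/
def SNon.pd (b : Module.Basis ι E[X] R) (m : ℕ) (q : R[X]) : Prop := ∀ k, dle b m (q.coeff k)

lemma SNon.pd_sum {κ : Type} (s : Finset κ) (F : κ → R[X]) {m : ℕ}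
    (h : ∀ x ∈ s, SNon.pd b m (F x)) : SNon.pd b m (∑ x ∈ s, F x) := by
  intro k
  rw [finsetSum_coeff]
  exact dle_sum s _ fun x hx => h x hx k

lemma SNon.pd_mul {C m m' : ℕ} (hC : ∀ i j, dle b C (b i * b j)) {q q' : R[X]}
    (h : SNon.pd b m q) (h' : SNon.pd b m' q') : SNon.pd b (m + m' + C) (q * q') := by
  intro k
  rw [coeff_mul]
  exact dle_sum _ _ fun x _ => dle.mul hC (h _) (h' _)

lemma SNon.pd_prod {C m : ℕ} (hC : ∀ i j, dle b C (b i * b j)) (h1 : dle b C 1) (s : Finset ι)
    (F : ι → R[X]) (h : ∀ x, SNon.pd b m (F x)) :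
    SNon.pd b (s.card * (m + C) + C) (∏ x ∈ s, F x) := by
  induction s using Finset.induction_on with
  | empty =>
    intro k
    rw [prod_empty, coeff_one, card_empty, zero_mul, zero_add]
    split_ifs
    · exact h1
    · exact dle_zero _ _
  | insert x s hx ih =>
    rw [prod_insert hx, card_insert_of_notMem hx]
    intro k
    exact (SNon.pd_mul hC (h x) ih k).mono (le_of_eq (by ring))

lemma SNon.pd_det {C m : ℕ} (hC : ∀ i j, dle b C (b i * b j)) (h1 : dle b C 1)
    (M : Matrix ι ι R[X]) (h : ∀ x y, SNon.pd b m (M x y)) :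
    SNon.pd b (Fintype.card ι * (m + C) + C) M.det := by
  rw [Matrix.det_apply]
  refine SNon.pd_sum _ _ fun σ _ => ?_
  have h2 := SNon.pd_prod hC h1 univ (fun i => M (σ i) i) fun i => h _ _
  rcases Int.units_eq_one_or (Equiv.Perm.sign σ) with h3 | h3
  · rw [h3, one_smul]
    exact h2
  · rw [h3, Units.neg_smul, one_smul]
    intro k
    rw [coeff_neg]
    exact (h2 k).neg

lemma SNon.pd_mul_map {m : ℕ} {q : R[X]} (h : SNon.pd b m q) (c : E[X]) :
    SNon.pd b m (q * c.map (algebraMap E R)) := by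
  intro k
  rw [coeff_mul]
  refine dle_sum _ _ fun x _ => ?_
  rw [coeff_map, mul_comm, IsScalarTower.algebraMap_apply E E[X] R, ← Algebra.smul_def]
  have h2 := dle.smul (m := 0) (a := algebraMap E E[X] (c.coeff x.2)) (by simp) (h x.1)
  rwa [zero_add] at h2

open TensorProduct in
theorem Cov.nonvanish [IsAlgClosed E] [IsDomain R] {p C A K : ℕ} {D : Derivation E R R}
    {φ : R →ₐ[E] R} (hc : Cov p C b D φ) (hA : Fintype.card ι * (A + 2 * C) + C < p)
    (a : Fin (K + 1) → ι → ι → E[X]) (ha : ∀ j i l, (a j i l).natDegree ≤ A)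
    (h0 : ∑ j : Fin (K + 1), ∑ i, ∑ l,
      (a j i l * X ^ (p * (j : ℕ))) • (b i * b l ^ p) = 0) : a = 0 := by
  obtain ⟨N, hN⟩ : ∃ N : ι → R[X],
      ∀ l, N l = ∑ j : Fin (K + 1), monomial (j : ℕ) (∑ i, a j i l • b i) := ⟨_, fun _ => rfl⟩
  have hNd : ∀ l, SNon.pd b A (N l) := by
    intro l
    rw [hN]
    refine SNon.pd_sum _ _ fun j _ k => ?_
    rw [coeff_monomial]
    split_ifs
    · exact dle_sum _ _ fun i _ => dle.smul (ha j i l) (dle_basis b i)
    · exact dle_zero _ _
  have hM : ∀ x y, SNon.pd b A (SNon.mx b N x y) := fun x y =>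
    SNon.pd_sum _ _ fun l _ => SNon.pd_mul_map (hNd l) _
  have hdet := SNon.pd_det hc.mul hc.one _ hM
  have hΦ : ∑ l, eval₂RingHom ((AlgHom.id E R : R →ₐ[E] R) : R →+* R) (φ (algebraMap E[X] R X))
      (N l) * φ (b l) = 0 := by
    rw [← h0]
    simp only [hN, map_sum, coe_eval₂RingHom, eval₂_monomial, hc.fX, hc.fb, sum_mul,
      RingHom.coe_coe, AlgHom.id_apply]
    rw [sum_comm]
    refine sum_congr rfl fun j _ => ?_
    rw [sum_comm]
    refine sum_congr rfl fun i _ => sum_congr rfl fun l _ => ?_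
    rw [Algebra.smul_def, Algebra.smul_def, map_mul, map_pow, pow_mul]
    ring
  rcases isEmpty_or_nonempty ι with hι | ⟨⟨l0⟩⟩
  · funext j i
    exact isEmptyElim i
  have h1 : eval₂RingHom ((AlgHom.id E R : R →ₐ[E] R) : R →+* R) (φ (algebraMap E[X] R X))
      (SNon.mx b N).det = 0 := by
    rw [RingHom.map_det, ← Matrix.exists_mulVec_eq_zero_iff]
    refine ⟨fun l => φ (b l), fun h => ?_, funext fun l' => ?_⟩
    · have h2 : φ (b l0) = 0 := congrFun h l0
      rw [hc.fb] at h2
      exact b.ne_zero l0 (pow_eq_zero_iff (by omega) |>.1 h2)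
    · have h2 := SNon.mul_eq (b := b) (AlgHom.id E R) φ N l'
      rw [hΦ, zero_mul] at h2
      exact h2.symm
  have h2 : (SNon.mx b N).det = 0 := by
    have h3 := eq_zero_of_dle (b := b) (p := p) (by omega) (SNon.mx b N).det.support
      (fun k => (SNon.mx b N).det.coeff k)
      (fun k _ => (hdet k).mono (by
        have := Nat.mul_le_mul_left (Fintype.card ι) (show A + C ≤ A + 2 * C by omega)
        omega)) (by
        rw [← h1, coe_eval₂RingHom, eval₂_eq_sum, Polynomial.sum_def]
        refine sum_congr rfl fun k _ => ?_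
        rw [Algebra.smul_def, map_pow, hc.fX, pow_mul, mul_comm]
        rfl)
    ext k
    by_contra hk
    exact hk (h3 k (mem_support_iff.2 hk))
  obtain ⟨x, hx0, hx⟩ := Matrix.exists_vecMul_eq_zero_iff.2 h2
  have : Module.Finite E[X] R := Module.Finite.of_basis b
  have : Algebra.FiniteType E R := Algebra.FiniteType.trans (S := E[X]) inferInstance inferInstance
  have : IsDomain (R ⊗[E] R) := isDomain_tensor
  have h3 := fun l' => SNon.mul_eq (b := b)
    (Algebra.TensorProduct.includeLeft : R →ₐ[E] R ⊗[E] R) Algebra.TensorProduct.includeRight N l'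
  have i1 := SNon.indep (b := b) x
  have i2 := SNon.indep (b := b) N
  generalize eval₂RingHom ((Algebra.TensorProduct.includeLeft : R →ₐ[E] R ⊗[E] R) :
        R →+* R ⊗[E] R)
      ((Algebra.TensorProduct.includeRight : R →ₐ[E] R ⊗[E] R) (algebraMap E[X] R X)) = ρ
    at h3 i1 i2
  generalize (Algebra.TensorProduct.includeRight : R →ₐ[E] R ⊗[E] R) = ir at h3 i1 i2
  have h4 : (∑ l, ρ (N l) * ir (b l)) * ∑ l, ρ (x l) * ir (b l) = 0 := by
    rw [mul_sum]
    have h5 : ∀ l', (∑ l, ρ (N l) * ir (b l)) * (ρ (x l') * ir (b l')) =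
        ∑ l'', ρ (x l' * SNon.mx b N l' l'') * ir (b l'') := by
      intro l'
      rw [mul_left_comm, h3, mul_sum]
      exact sum_congr rfl fun l'' _ => by rw [map_mul, mul_assoc]
    simp only [h5]
    rw [sum_comm]
    refine sum_eq_zero fun l'' _ => ?_
    have h6 : ∑ l', x l' * SNon.mx b N l' l'' = 0 := congrFun hx l''
    rw [← sum_mul, ← map_sum, h6, map_zero, zero_mul]
  have h5 : N = 0 := i2 ((mul_eq_zero.1 h4).resolve_right fun h => hx0 (i1 h))
  funext j i l
  have h6 : (N l).coeff j = ∑ i, a j i l • b i := by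
    rw [hN, finsetSum_coeff, sum_eq_single j]
    · rw [coeff_monomial_same]
    · intro j' _ hj
      rw [coeff_monomial, if_neg fun h => hj (Fin.ext h)]
    · intro h
      exact absurd (mem_univ j) h
  rw [h5, Pi.zero_apply, coeff_zero] at h6
  exact Fintype.linearIndependent_iff.1 b.linearIndependent (fun i => a j i l) h6.symm i

end Vale.Agent.P042Y
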