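import Vale.Agent.P042Y.SDeg

/-! Counting zeros with multiplicity. -/

namespace Vale.Agent.P042Y

open Polynomial Finset

variable {E R ι : Type} [Field E] [CommRing R] [Algebra E R] [Algebra E[X] R]
  [IsScalarTower E E[X] R] [Fintype ι] [DecidableEq ι] {b : Module.Basis ι E[X] R}

theorem sz_key {E R : Type} [Field E] [CommRing R] [Algebra E R] (D : Derivation E R R)
    (P : R →ₐ[E] E) (j : ℕ) (c r : R) (h : ∀ m, m < j → P (D^[m] r) = 0) :
    P (D^[j] (c * r)) = P c * P (D^[j] r) := by
  induction j generalizing c r with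
  | zero => exact map_mul P c r
  | succ j ih =>
    rw [Function.iterate_succ_apply, Function.iterate_succ_apply, Derivation.leibniz, smul_eq_mul,
      smul_eq_mul, mul_comm r, iterate_map_add, map_add,
      ih c (D r) fun m hm => h (m + 1) (Nat.succ_lt_succ hm),
      ih (D c) r fun m hm => h m (Nat.lt_succ_of_lt hm), h j (Nat.lt_succ_self j), mul_zero,
      add_zero]

/-- elements vanishing to order `M` at the point `P` -/
def szI {E R : Type} [Field E] [CommRing R] [Algebra E R] (D : Derivation E R R)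
    (P : R →ₐ[E] E) (M : ℕ) : Ideal R where
  carrier := {r | ∀ m, m < M → P (D^[m] r) = 0}
  zero_mem' := fun m _ => by rw [iterate_map_zero, map_zero]
  add_mem' := fun ha hb m hm => by rw [iterate_map_add, map_add, ha m hm, hb m hm, add_zero]
  smul_mem' := fun c r hr m hm => by
    rw [smul_eq_mul, sz_key D P m c r fun k hk => hr k (hk.trans hm), hr m hm, mul_zero]

theorem sz_pow {E R : Type} [Field E] [CommRing R] [Algebra E R] (D : Derivation E R R)
    (P : R →ₐ[E] E) {u : R} (hu : P u = 0) (j : ℕ) :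
    u ^ j ∈ szI D P j ∧ P (D^[j] (u ^ j)) = (j.factorial : E) * P (D u) ^ j := by
  induction j with
  | zero => exact ⟨fun m hm => absurd hm (Nat.not_lt_zero m), by simp⟩
  | succ j ih =>
    have e : D (u ^ (j + 1)) = (((j + 1 : ℕ) : R) * D u) * u ^ j := by
      rw [Derivation.leibniz_pow, Nat.add_sub_cancel, nsmul_eq_mul, smul_eq_mul]
      ring
    refine ⟨fun m hm => ?_, ?_⟩
    · cases m with
      | zero => rw [Function.iterate_zero_apply, map_pow, hu, zero_pow (Nat.succ_ne_zero j)]
      | succ m =>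
        rw [Function.iterate_succ_apply, e]
        exact (szI D P j).mul_mem_left _ ih.1 m (Nat.lt_of_succ_lt_succ hm)
    · rw [Function.iterate_succ_apply, e, sz_key D P j _ _ ih.1, ih.2, map_mul, map_natCast,
        Nat.factorial_succ, Nat.cast_mul]
      ring

theorem sz_surj {E R : Type} [Field E] [CommRing R] [Algebra E R] (D : Derivation E R R)
    (P : R →ₐ[E] E) {u : R} (hu : P u = 0) (M : ℕ)
    (h : ∀ j, j < M → (j.factorial : E) * P (D u) ^ j ≠ 0) (t : ℕ → E) :
    ∃ r : R, ∀ m, m < M → P (D^[m] r) = t m := by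
  induction M with
  | zero => exact ⟨0, fun m hm => absurd hm (Nat.not_lt_zero m)⟩
  | succ M ih =>
    obtain ⟨r, hr⟩ := ih fun j hj => h j (Nat.lt_succ_of_lt hj)
    have h1 := sz_pow D P hu M
    refine ⟨r + algebraMap E R ((t M - P (D^[M] r)) / ((M.factorial : E) * P (D u) ^ M)) * u ^ M,
      fun m hm => ?_⟩
    rw [iterate_map_add, map_add]
    rcases Nat.lt_succ_iff_lt_or_eq.1 hm with hm | rfl
    · rw [hr m hm, (szI D P M).mul_mem_left _ h1.1 m hm, add_zero]
    · rw [sz_key D P m _ _ h1.1, h1.2, AlgHom.commutes, Algebra.algebraMap_self_apply,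
        div_mul_cancel₀ _ (h m (Nat.lt_succ_self m)), add_sub_cancel]

theorem sz_coprime {E R : Type} [Field E] [CommRing R] [Algebra E R] (D : Derivation E R R)
    {P Q : R →ₐ[E] E} (h : P ≠ Q) (M : ℕ) : IsCoprime (szI D P M) (szI D Q M) := by
  obtain ⟨r, hr⟩ := DFunLike.ne_iff.1 h
  have h0 : Q r - P r ≠ 0 := sub_ne_zero.2 hr.symm
  obtain ⟨u, hu, hu'⟩ : ∃ u : R, P u = 0 ∧ Q (1 - u) = 0 := by
    refine ⟨algebraMap E R (Q r - P r)⁻¹ * (r - algebraMap E R (P r)), ?_, ?_⟩
    · simp
    · simp only [map_sub, map_one, map_mul, AlgHom.commutes, Algebra.algebraMap_self_apply]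
      rw [inv_mul_cancel₀ h0, sub_self]
  have hc : IsCoprime u (1 - u) := ⟨1, 1, by ring⟩
  obtain ⟨a, c, hac⟩ := hc.pow (m := M) (n := M)
  exact Ideal.isCoprime_iff_exists.2 ⟨_, Ideal.mul_mem_left _ a (sz_pow D P hu M).1, _,
    Ideal.mul_mem_left _ c (sz_pow D Q hu' M).1, hac⟩

theorem card_mul_le_norm [IsDomain R] (b : Module.Basis ι E[X] R) (p : ℕ) [Fact p.Prime]
    [CharP E p] (D : Derivation E R R) (M : ℕ) (hM : M ≤ p) (S : Finset (R →ₐ[E] E))
    (hD : 2 ≤ M → ∀ P ∈ S, P (D (algebraMap E[X] R X)) ≠ 0) (Φ : R) (hΦ : Φ ≠ 0)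
    (hz : ∀ P ∈ S, ∀ m, m < M → P (D^[m] Φ) = 0) :
    M * S.card ≤ (Algebra.norm E[X] Φ).natDegree := by
  have hp : p.Prime := Fact.out
  have hI : Ideal.span ({Φ} : Set R) ≠ ⊥ := Ideal.span_singleton_eq_bot.not.2 hΦ
  haveI : Module.Finite E (R ⧸ Ideal.span ({Φ} : Set R)) :=
    Module.Finite.equiv (Ideal.quotientEquivDirectSum E b hI).symm
  let J : R →ₗ[E] (S → Fin M → E) := LinearMap.pi fun P => LinearMap.pi fun m =>
    P.1.toLinearMap ∘ₗ ((D : R →ₗ[E] R) ^ (m : ℕ))
  have hJ : ∀ r P m, J r P m = P.1 (D^[m] r) := fun r P m => by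
    simp only [J, LinearMap.pi_apply, LinearMap.comp_apply, Module.End.pow_apply]
    rfl
  have hsurj : Function.Surjective J := by
    intro t
    have h1 : ∀ P : S, ∃ r : R, ∀ m : Fin M, P.1 (D^[m] r) = t P m := by
      intro P
      obtain ⟨r, hr⟩ := sz_surj D P.1
        (u := algebraMap E[X] R X - algebraMap E R (P.1 (algebraMap E[X] R X))) (by simp) M
        (fun j hj => by
          rw [map_sub, D.map_algebraMap, sub_zero]
          refine mul_ne_zero ?_ ?_
          · rw [Ne, CharP.cast_eq_zero_iff E p, hp.dvd_factorial]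
            omega
          · rcases Nat.eq_zero_or_pos j with rfl | h0
            · simp
            · exact pow_ne_zero _ (hD (by omega) P.1 P.2))
        fun m => if h : m < M then t P ⟨m, h⟩ else 0
      exact ⟨r, fun m => by rw [hr m m.2, dif_pos m.2]⟩
    choose x hx using h1
    obtain ⟨r, hr⟩ := Ideal.exists_forall_sub_mem_ideal (I := fun P : S => szI D P.1 M)
      (fun P Q h => sz_coprime D (fun h' => h (Subtype.ext h')) M) x
    refine ⟨r, funext fun P => funext fun m => ?_⟩
    have := hr P m m.2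
    rw [iterate_map_sub, map_sub, hx, sub_eq_zero] at this
    rw [hJ, this]
  have hker : (Ideal.span ({Φ} : Set R)).restrictScalars E ≤ LinearMap.ker J := by
    intro r hr
    refine funext fun P => funext fun m => ?_
    rw [hJ]
    exact (Ideal.span_singleton_le_iff_mem (szI D P.1 M)).2 (hz P.1 P.2) hr m m.2
  have h1 := LinearMap.finrank_le_finrank_of_surjective
    (f := (Submodule.liftQ _ J hker) ∘ₗ
      (Submodule.Quotient.restrictScalarsEquiv E (Ideal.span ({Φ} : Set R))).symm.toLinearMap)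
    (by
      intro t
      obtain ⟨r, rfl⟩ := hsurj t
      exact ⟨Submodule.Quotient.mk r, rfl⟩)
  rw [finrank_quotient_span_eq_natDegree_norm b hΦ, Module.finrank_pi_fintype] at h1
  simp only [Module.finrank_fintype_fun_eq_card, Fintype.card_fin, sum_const, card_univ,
    Fintype.card_coe, smul_eq_mul] at h1
  rwa [mul_comm]

end Vale.Agent.P042Y
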