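import Vale.Agent.P042Y.FSum
import Vale.Agent.P042U.SepW
import Vale.Agent.P042U.Kloo

/-! Power saving for separable intersective polynomials. -/

namespace Vale.Agent.P042Y

open Polynomial Finset Vale.Agent.P042U

theorem Sep.rp (p c : ℝ) (hc : 0 ≤ c) (hp0 : 0 < p) (hp : (2 * c) ^ 8 ≤ p) :
    c * p ^ (3 / 4 : ℝ) / (p / 2) ≤ p ^ (-(1 / 8 : ℝ)) := by
  have h1 : 2 * c ≤ p ^ (1 / 8 : ℝ) := by
    have h2 : ((2 * c) ^ 8) ^ (1 / 8 : ℝ) ≤ p ^ (1 / 8 : ℝ) :=
      Real.rpow_le_rpow (by positivity) hp (by norm_num)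
    rw [← Real.rpow_natCast, ← Real.rpow_mul (by positivity)] at h2
    norm_num at h2 ⊢
    exact h2
  have h3 : p ^ (-(1 / 8 : ℝ)) * p = p ^ (1 / 8 : ℝ) * p ^ (3 / 4 : ℝ) := by
    rw [← Real.rpow_add_one hp0.ne', ← Real.rpow_add hp0]
    norm_num
  rw [div_le_iff₀ (by positivity)]
  have h4 : 0 < p ^ (3 / 4 : ℝ) := Real.rpow_pos_of_pos hp0 _
  nlinarith

theorem Sep.fib (p : ℕ) [Fact p.Prime] (Z : Finset (ZMod p × ZMod p)) (f : ZMod p → ℂ) :
    ∑ x : ZMod p, ((Z.filter fun z => z.1 = x).card : ℂ) * f x = ∑ z ∈ Z, f z.1 := by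
  rw [← Finset.sum_fiberwise Z (fun z => z.1)]
  refine Finset.sum_congr rfl fun x _ => ?_
  rw [Finset.sum_congr rfl (g := fun _ => f x) fun z hz => by rw [(mem_filter.1 hz).2],
    sum_const, nsmul_eq_mul]

theorem sym_of_root (h : ℤ[X]) (hk : 1 ≤ h.natDegree) : ∃ p₁ : ℕ, ∀ p : ℕ, p.Prime → p₁ < p →
    ∀ r : ℤ, (p : ℤ) ∣ h.eval r → ¬ (p : ℤ) ∣ h.derivative.eval r → ∃ G, Sym h (1 / 8) p G := by
  obtain ⟨c, p₀, hc⟩ := curve_sum h.natDegree
  refine ⟨p₀ + h.leadingCoeff.natAbs + (2 * c) ^ 8, fun p hp hp₁ r hr hr' => ?_⟩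
  have : Fact p.Prime := ⟨hp⟩
  have hh0 : h ≠ 0 := by
    rintro rfl
    simp at hk
  have hlc : Int.castRingHom (ZMod p) h.leadingCoeff ≠ 0 := by
    intro h0
    rw [eq_intCast, ZMod.intCast_zmod_eq_zero_iff_dvd] at h0
    have := Nat.le_of_dvd (Int.natAbs_pos.mpr (leadingCoeff_ne_zero.2 hh0))
      (Int.natCast_dvd.mp h0)
    omega
  obtain ⟨H, hH⟩ : ∃ H, H = h.map (Int.castRingHom (ZMod p)) := ⟨_, rfl⟩
  have hdeg : H.natDegree = h.natDegree := by
    rw [hH]
    exact natDegree_map_of_leadingCoeff_ne_zero _ hlc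
  have hev : ∀ m : ℤ, H.eval (m : ZMod p) = ((h.eval m : ℤ) : ZMod p) := fun m => by
    rw [hH, eval_intCast_map, eq_intCast, Int.cast_id]
  have hev' : ∀ m : ℤ, H.derivative.eval (m : ZMod p) = ((h.derivative.eval m : ℤ) : ZMod p) :=
    fun m => by rw [hH, derivative_map, eval_intCast_map, eq_intCast, Int.cast_id]
  obtain ⟨Z, z1, z2, z3, z4, z5⟩ := hc p (by omega) H (by omega) hdeg.le (r : ZMod p)
    (by rw [hev, ZMod.intCast_zmod_eq_zero_iff_dvd]; exact hr)
    (by rw [hev', Ne, ZMod.intCast_zmod_eq_zero_iff_dvd]; exact hr')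
  have hp0 : (0 : ℝ) < p := by exact_mod_cast hp.pos
  have hZ0 : (0 : ℝ) < Z.card := by linarith
  have hZc : (Z.card : ℂ) ≠ 0 := by exact_mod_cast hZ0.ne'
  have hpc : (p : ℂ) ≠ 0 := by exact_mod_cast hp.ne_zero
  obtain ⟨g, hg⟩ : ∃ g : ZMod p → ℝ, g = fun x =>
      (p : ℝ) * ((Z.filter fun z => z.1 = x).card : ℝ) / Z.card := ⟨_, rfl⟩
  have key : ∀ f : ZMod p → ℂ,
      av p (fun m => (g (m : ZMod p) : ℂ) * f (m : ZMod p)) = (∑ z ∈ Z, f z.1) / Z.card := by
    intro f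
    rw [av_eq_zmod p (fun x => (g x : ℂ) * f x), ← Sep.fib p Z f, sum_div, sum_div]
    refine Finset.sum_congr rfl fun x _ => ?_
    rw [hg]
    push_cast
    field_simp
  have key2 : ∀ n : ℤ, av p (fun m => (g (m : ZMod p) : ℂ) *
      e ((n * h.eval m : ℤ) / (p : ℝ))) =
      (∑ z ∈ Z, ZMod.stdAddChar ((n : ZMod p) * H.eval z.1)) / Z.card := by
    intro n
    rw [← key (fun y => ZMod.stdAddChar ((n : ZMod p) * H.eval y))]
    congr 1
    funext m
    rw [e_eq_std, hev, Int.cast_mul]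
  refine ⟨fun m => g (m : ZMod p), ?_, ?_, ?_, ?_, ?_, ?_⟩
  · intro m
    simp
  · intro m
    rw [hg]
    simp only
    rw [abs_of_nonneg (by positivity), div_le_iff₀ hZ0]
    refine mul_le_mul_of_nonneg_left ?_ hp0.le
    exact_mod_cast card_filter_le _ _
  · intro m hm hd
    apply hm
    rw [hg]
    simp only
    rw [filter_eq_empty_iff.2, card_empty, Nat.cast_zero, mul_zero, zero_div]
    intro z hz hz1
    apply z3 z hz
    rw [hz1, hev', ZMod.intCast_zmod_eq_zero_iff_dvd]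
    exact hd
  · have := key (fun _ => 1)
    simp only [mul_one, sum_const, nsmul_eq_mul] at this
    rw [this, div_self hZc]
  · intro n
    have h1 : (∑ z ∈ Z, ZMod.stdAddChar ((n : ZMod p) * H.eval z.1)).im = 0 := by
      rw [← Complex.conj_eq_iff_im, map_sum]
      refine Finset.sum_bij (fun z _ => z.swap) (fun z hz => z2 z hz) ?_ ?_ ?_
      · intro a _ b _ hab
        exact Prod.swap_injective hab
      · intro z hz
        exact ⟨z.swap, z2 z hz, Prod.swap_swap z⟩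
      · intro z hz
        rw [← AddChar.map_neg_eq_conj, Prod.fst_swap]
        congr 1
        linear_combination (-(n : ZMod p)) * z1 z hz
    rw [key2, Complex.div_natCast_im, h1, zero_div]
  · intro n hn
    have hn0 : (n : ZMod p) ≠ 0 := by
      rw [Ne, ZMod.intCast_zmod_eq_zero_iff_dvd]; exact hn
    rw [key2, norm_div, Complex.norm_natCast]
    have h8 : (2 * (c : ℝ)) ^ 8 ≤ p := by exact_mod_cast (by omega : (2 * c) ^ 8 ≤ p)
    refine le_trans ?_ (Sep.rp p c (by positivity) hp0 h8)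
    exact div_le_div₀ (by positivity) (z5 _ hn0) (by positivity) (by linarith)

theorem Sep.bezout (h : ℤ[X]) (hsep : (h.map (Int.castRingHom ℚ)).Separable) :
    ∃ (A B : ℤ[X]) (R : ℤ), R ≠ 0 ∧ A * h + B * h.derivative = C R := by
  obtain ⟨a, b, hab⟩ := hsep
  obtain ⟨s, hs, ha⟩ := IsLocalization.integerNormalization_spec (nonZeroDivisors ℤ) a
  obtain ⟨t, ht, hb⟩ := IsLocalization.integerNormalization_spec (nonZeroDivisors ℤ) b
  refine ⟨C t * IsLocalization.integerNormalization (nonZeroDivisors ℤ) a,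
    C s * IsLocalization.integerNormalization (nonZeroDivisors ℤ) b, s * t,
    mul_ne_zero (nonZeroDivisors.ne_zero hs) (nonZeroDivisors.ne_zero ht), ?_⟩
  refine map_injective (Int.castRingHom ℚ) Int.cast_injective ?_
  rw [algebraMap_int_eq] at ha hb
  rw [derivative_map] at hab
  simp only [Polynomial.map_add, Polynomial.map_mul, ha, hb, zsmul_eq_mul, eq_intCast,
    Polynomial.map_intCast, Int.cast_mul]
  linear_combination ((s : ℚ[X]) * t) * hab

theorem ps_separable (h : ℤ[X]) (hk : 2 ≤ h.natDegree) (hl : 0 < h.leadingCoeff)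
    (hint : ∀ q : ℕ, 1 ≤ q → ∃ t : ℤ, (q : ℤ) ∣ h.eval t)
    (hsep : (h.map (Int.castRingHom ℚ)).Separable) : PS h := by
  obtain ⟨A, B, R, hR, hAB⟩ := Sep.bezout h hsep
  obtain ⟨p₁, hp₁⟩ := sym_of_root h (by omega)
  refine ps_sep h hk hl hint A B R hR hAB (1 / 8) (by norm_num) (p₁ + R.natAbs)
    fun p hp hpp => ?_
  obtain ⟨r, hr⟩ := hint p hp.pos
  refine hp₁ p hp (by omega) r hr fun hd => ?_
  have hev : A.eval r * h.eval r + B.eval r * h.derivative.eval r = R := by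
    have := congrArg (Polynomial.eval r) hAB
    simpa using this
  have h2 : (p : ℤ) ∣ R := by
    rw [← hev]
    exact dvd_add (hr.mul_left _) (hd.mul_left _)
  have := Nat.le_of_dvd (Int.natAbs_pos.mpr hR) (Int.natCast_dvd.mp h2)
  omega

end Vale.Agent.P042Y
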