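import Vale.Agent.P042Y.SNon
import Vale.Agent.P042Y.SZero
import Vale.Agent.P042Y.SLin

/-! The method of Stepanov and Schmidt over a prime field. -/

namespace Vale.Agent.P042Y

open Polynomial Finset

theorem step_iter_mul {E R : Type} [Field E] [CommRing R] [Algebra E R] (D : Derivation E R R)
    (r c : R) (hc : D c = 0) (m : ℕ) : D^[m] (r * c) = D^[m] r * c := by
  induction m with
  | zero => rfl
  | succ m ih =>
    rw [Function.iterate_succ_apply', Function.iterate_succ_apply', ih, Derivation.leibniz, hc]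
    simp [mul_comm]

theorem step_iter_sum {E R κ : Type} [Field E] [CommRing R] [Algebra E R] (D : Derivation E R R)
    (s : Finset κ) (F : κ → R) (m : ℕ) : D^[m] (∑ x ∈ s, F x) = ∑ x ∈ s, D^[m] (F x) := by
  induction m with
  | zero => rfl
  | succ m ih =>
    simp only [Function.iterate_succ_apply', ih, map_sum]

theorem step_der_pow {E R : Type} [Field E] [CommRing R] [Algebra E R] (p : ℕ) [CharP E p]
    (D : Derivation E R R) (r : R) : D (r ^ p) = 0 := by
  rw [Derivation.leibniz_pow]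
  have h : ((p : ℕ) : R) = 0 := by
    rw [← map_natCast (algebraMap E R), CharP.cast_eq_zero, map_zero]
  rw [nsmul_eq_mul, h, zero_mul]

theorem stepanov (n s C : ℕ) (hn : 1 ≤ n) : ∃ C' p₀ : ℕ, ∀ (p : ℕ) [Fact p.Prime], p₀ ≤ p →
    ∀ (E R ι : Type) [Field E] [IsAlgClosed E] [CharP E p] [CommRing R] [IsDomain R] [Algebra E R]
      [Algebra E[X] R] [IsScalarTower E E[X] R] [Fintype ι] [DecidableEq ι]
      (b : Module.Basis ι E[X] R) (D : Derivation E R R) (φ : R →ₐ[E] R),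
      Cov p C b D φ → Fintype.card ι = n → D (algebraMap E[X] R X) ≠ 0 →
    ∀ (S κ : Type) [CommRing S] [Algebra E S] [Algebra E[X] S] [IsScalarTower E E[X] S]
      [Fintype κ] (c : κ → S) (i₁ i₂ : R →ₐ[E[X]] S), Fintype.card κ = s →
      (∀ i l, ∃ e : κ → E[X], (∀ x, (e x).natDegree ≤ C) ∧
        i₁ (b i) * i₂ (b l) = ∑ x, e x • c x) →
    ∀ T : Finset (R →ₐ[E] E),
      (∀ P ∈ T, ∃ χ : S →ₐ[E] E, (∀ r, χ (i₁ r) = P r) ∧ ∀ r, χ (i₂ r) = P (φ r)) →
      (n * T.card : ℝ) ≤ s * p + C' * √(p : ℝ) := by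
  classical
  obtain ⟨C₁, p₀, hpar⟩ := step_params n s C hn
  refine ⟨C₁ + n * (n * (C + C)), p₀, ?_⟩
  intro p _ hp E R ι _ _ _ _ _ _ _ _ _ _ b D φ hc hι hD S κ _ _ _ _ _ c i₁ i₂ hκ hS T hT
  obtain ⟨A, K, M, hM1, hMp, hA, hdim, hfin⟩ := hpar p hp
  have hp1 : 1 ≤ p := (Fact.out : p.Prime).one_le
  set y : R := algebraMap E[X] R X with hy
  set T₀ := T.filter (fun P => P (D y) = 0) with hT₀
  set T₁ := T.filter (fun P => ¬ P (D y) = 0) with hT₁
  have hcard : T₀.card + T₁.card = T.card := Finset.card_filter_add_card_filter_not _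
  have h0 : T₀.card ≤ n * (C + C) := by
    have h1 := card_mul_le_norm b p D 1 hp1 T₀ (fun h => absurd h (by norm_num)) (D y) hD
      (fun P hP m hm => by
        have : m = 0 := by omega
        subst this
        exact (mem_filter.1 hP).2)
    have h2 := dle.norm hc.mul hc.dX
    rw [hι] at h2
    rw [one_mul] at h1
    exact h1.trans h2
  obtain ⟨a, ha0, hadeg, hcond⟩ := hc.exists_aux (A := A) (K := K) (M := M) c i₁ i₂ hS
    (by rw [hκ, hι]; exact hdim)
  set Φ : R := ∑ j : Fin (K + 1), ∑ i, ∑ l,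
      (a j i l * X ^ (p * (j : ℕ))) • (b i * b l ^ p) with hΦ
  have hΦ0 : Φ ≠ 0 := fun h => ha0 (hc.nonvanish (by rw [hι]; exact hA) a hadeg h)
  have hΦ' : Φ = ∑ j : Fin (K + 1), ∑ l, (∑ i, a j i l • b i) * ((b l * y ^ (j : ℕ)) ^ p) := by
    rw [hΦ]
    refine Finset.sum_congr rfl fun j _ => ?_
    rw [Finset.sum_comm]
    refine Finset.sum_congr rfl fun l _ => ?_
    rw [Finset.sum_mul]
    refine Finset.sum_congr rfl fun i _ => ?_
    simp only [Algebra.smul_def, map_mul, map_pow, ← hy, mul_pow, ← pow_mul]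
    rw [mul_comm p (j : ℕ)]
    ring
  have hdle : dle b (A + p * K + p * C + 2 * C) Φ := by
    refine dle_sum _ _ fun j _ => dle_sum _ _ fun i _ => dle_sum _ _ fun l _ => ?_
    have h1 : (a j i l * X ^ (p * (j : ℕ))).natDegree ≤ A + p * K := by
      refine natDegree_mul_le.trans (Nat.add_le_add (hadeg j i l) ?_)
      rw [natDegree_X_pow]
      exact Nat.mul_le_mul_left _ (by have := j.2; omega)
    have h2 := dle.mul hc.mul (dle_basis b i) (dle.pow hc.mul hc.one (dle_basis b l) p)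
    refine (dle.smul h1 h2).mono (le_of_eq ?_)
    ring
  have hz : ∀ P ∈ T₁, ∀ m, m < M → P (D^[m] Φ) = 0 := by
    intro P hP m hm
    obtain ⟨χ, h1, h2⟩ := hT P (mem_filter.1 hP).1
    have hyy : χ (algebraMap E[X] S X) = P y := by
      rw [← h1, hy, AlgHom.commutes]
    have hyp : P y ^ p = P y := by
      rw [← map_pow, hy, ← hc.fX, ← h2, AlgHom.commutes, hyy]
    have h3 := congrArg χ (hcond m hm)
    rw [map_zero] at h3
    rw [← h3, hΦ', step_iter_sum, map_sum, map_sum]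
    refine Finset.sum_congr rfl fun j _ => ?_
    rw [step_iter_sum, map_sum, map_sum]
    refine Finset.sum_congr rfl fun l _ => ?_
    rw [step_iter_mul D _ _ (step_der_pow p D _), Algebra.smul_def, map_mul, map_mul, map_mul,
      h1, h2, hc.fb, map_pow (algebraMap E[X] S), map_pow χ, hyy, mul_pow, map_mul, ← pow_mul,
      mul_comm (j : ℕ) p, pow_mul, map_pow P (y ^ p), map_pow P y, hyp]
    ring
  have h1 := card_mul_le_norm b p D M hMp T₁ (fun _ P hP => (mem_filter.1 hP).2) Φ hΦ0 hz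
  have h2 := dle.norm hc.mul hdle
  rw [hι] at h2
  have h3 := hfin T₁.card (h1.trans (h2.trans (Nat.mul_le_mul_left _ (by omega))))
  have hs : (1 : ℝ) ≤ √(p : ℝ) := by
    rw [Real.one_le_sqrt]; exact_mod_cast hp1
  have h4 : (T₀.card : ℝ) ≤ (n * (C + C) : ℕ) := by exact_mod_cast h0
  have h5 : (T.card : ℝ) = T₀.card + T₁.card := by exact_mod_cast hcard.symm
  have hn0 : (0 : ℝ) ≤ n := Nat.cast_nonneg _
  have h6 : (n : ℝ) * T₀.card ≤ n * ((n * (C + C) : ℕ) : ℝ) := mul_le_mul_of_nonneg_left h4 hn0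
  have h7 : (0 : ℝ) ≤ n * ((n * (C + C) : ℕ) : ℝ) := by positivity
  rw [h5]
  push_cast at h6 h7 ⊢
  nlinarith

end Vale.Agent.P042Y
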