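import Vale.Agent.P042Y.Defs

/-! Laurent series. -/

namespace Vale.Agent.P042Y

open Polynomial Finset

variable {E : Type} [Field E]

/-- the Euler operator -/
noncomputable def eul (x : LaurentSeries E) : LaurentSeries E where
  coeff n := (n : E) * x.coeff n
  isPWO_support' := x.isPWO_support.mono (by
    intro n hn
    simp only [Function.mem_support, ne_eq, mul_eq_zero, not_or] at hn
    exact hn.2)

theorem eul_coeff (x : LaurentSeries E) (n : ℤ) : (eul x).coeff n = (n : E) * x.coeff n := rfl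

theorem eul_support (x : LaurentSeries E) : (eul x).support ⊆ x.support := by
  intro n hn
  simp only [HahnSeries.mem_support, eul_coeff, ne_eq, mul_eq_zero, not_or] at hn ⊢
  exact hn.2

theorem eul_mul (x y : LaurentSeries E) : eul (x * y) = x * eul y + y * eul x := by
  ext n
  rw [mul_comm y, HahnSeries.coeff_add, eul_coeff, HahnSeries.coeff_mul,
    HahnSeries.coeff_mul_right' y.isPWO_support (eul_support y),
    HahnSeries.coeff_mul_left' x.isPWO_support (eul_support x), Finset.mul_sum,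
    ← Finset.sum_add_distrib]
  refine Finset.sum_congr rfl fun ij hij => ?_
  rw [Finset.mem_antidiagonal] at hij
  rw [eul_coeff, eul_coeff, ← hij.2.2]
  push_cast
  ring

theorem algebraMap_eq_C (c : E) : algebraMap E (LaurentSeries E) c = HahnSeries.C c :=
  LaurentSeries.algebraMap_apply E c

theorem coeff_algebraMap_mul (c : E) (x : LaurentSeries E) (n : ℤ) :
    (algebraMap E (LaurentSeries E) c * x).coeff n = c * x.coeff n := by
  rw [algebraMap_eq_C, HahnSeries.C_mul_eq_smul, HahnSeries.coeff_smul, smul_eq_mul]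

/-- the derivative as a function -/
noncomputable def dTf (x : LaurentSeries E) : LaurentSeries E :=
  HahnSeries.single (-1 : ℤ) (1 : E) * eul x

theorem dTf_coeff (x : LaurentSeries E) (n : ℤ) :
    (dTf x).coeff n = ((n + 1 : ℤ) : E) * x.coeff (n + 1) := by
  have h := HahnSeries.coeff_single_mul_add (r := (1 : E)) (x := eul x) (a := n + 1) (b := (-1 : ℤ))
  rw [show n + 1 + -1 = n by ring] at h
  rw [dTf, h, one_mul, eul_coeff]

theorem dTf_mul (x y : LaurentSeries E) : dTf (x * y) = x * dTf y + y * dTf x := by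
  rw [dTf, dTf, dTf, eul_mul]
  ring

theorem dTf_add (x y : LaurentSeries E) : dTf (x + y) = dTf x + dTf y := by
  ext n
  rw [HahnSeries.coeff_add, dTf_coeff, dTf_coeff, dTf_coeff, HahnSeries.coeff_add, mul_add]

theorem dTf_C_mul (c : E) (x : LaurentSeries E) :
    dTf (algebraMap E (LaurentSeries E) c * x) = algebraMap E (LaurentSeries E) c * dTf x := by
  ext n
  rw [dTf_coeff, coeff_algebraMap_mul, coeff_algebraMap_mul, dTf_coeff]
  ring

theorem smul_eq_algebraMap_mul (c : E) (x : LaurentSeries E) :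
    c • x = algebraMap E (LaurentSeries E) c * x := by
  rw [algebraMap_eq_C, HahnSeries.C_mul_eq_smul]

theorem exists_der_of_fun (f : LaurentSeries E → LaurentSeries E)
    (ha : ∀ x y, f (x + y) = f x + f y)
    (hc : ∀ (c : E) x, f (algebraMap E (LaurentSeries E) c * x) =
      algebraMap E (LaurentSeries E) c * f x)
    (hm : ∀ x y, f (x * y) = x * f y + y * f x) :
    ∃ d : Derivation E (LaurentSeries E) (LaurentSeries E), ∀ x, d x = f x := by
  let L : @LinearMap E E _ _ (RingHom.id E) (LaurentSeries E) (LaurentSeries E) _ _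
      Algebra.toModule HahnSeries.instModule :=
    @LinearMap.mk E E _ _ (RingHom.id E) (LaurentSeries E) (LaurentSeries E) _ _
      Algebra.toModule HahnSeries.instModule ⟨f, ha⟩ (by
        intro c x
        have h1 := hc c x
        rw [← smul_eq_algebraMap_mul c (f x)] at h1
        exact h1)
  exact ⟨Derivation.mk' L (fun x y => hm x y), fun x => rfl⟩

theorem exists_der_of_fun2 (f : LaurentSeries E → LaurentSeries E)
    (ha : ∀ x y, f (x + y) = f x + f y)
    (hc : ∀ (c : E) x, f (algebraMap E (LaurentSeries E) c * x) =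
      algebraMap E (LaurentSeries E) c * f x)
    (hm : ∀ x y, f (x * y) = x * f y + y * f x) :
    ∃ d : @Derivation E (LaurentSeries E) (LaurentSeries E) _ _ _ _ _ Algebra.toModule,
      ∀ x, d x = f x := by
  let _ : Module E (LaurentSeries E) := Algebra.toModule
  refine ⟨Derivation.mk' ⟨⟨f, ha⟩, ?_⟩ ?_, fun x => rfl⟩
  · intro c x
    exact hc c x
  · intro x y
    exact hm x y

theorem exists_dT (E : Type) [Field E] : ∃ d : Derivation E (LaurentSeries E) (LaurentSeries E),
    ∀ x n, (d x).coeff n = ((n + 1 : ℤ) : E) * x.coeff (n + 1) := by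
  obtain ⟨d, hd⟩ := exists_der_of_fun (E := E) dTf dTf_add dTf_C_mul dTf_mul
  exact ⟨d, fun x n => by rw [hd, dTf_coeff]⟩

theorem Lb.mono {B B' : ℤ} {x : LaurentSeries E} (h : Lb B x) (hB : B' ≤ B) : Lb B' x :=
  fun n hn => h n (lt_of_lt_of_le hn hB)

theorem Lb.add {B : ℤ} {x y : LaurentSeries E} (h : Lb B x) (h' : Lb B y) : Lb B (x + y) := by
  intro n hn
  rw [HahnSeries.coeff_add, h n hn, h' n hn, add_zero]

theorem Lb.neg {B : ℤ} {x : LaurentSeries E} (h : Lb B x) : Lb B (-x) := by
  intro n hn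
  rw [HahnSeries.coeff_neg, h n hn, neg_zero]

theorem Lb.mul {B B' : ℤ} {x y : LaurentSeries E} (h : Lb B x) (h' : Lb B' y) :
    Lb (B + B') (x * y) := by
  intro n hn
  rw [HahnSeries.coeff_mul]
  refine Finset.sum_eq_zero fun ij hij => ?_
  rw [Finset.mem_antidiagonal] at hij
  by_cases h1 : ij.1 < B
  · rw [h _ h1, zero_mul]
  · rw [h' ij.2 (by have := hij.2.2; omega), mul_zero]

theorem Lb_zero (B : ℤ) : Lb B (0 : LaurentSeries E) := fun _ _ => rfl

theorem Lb_single (n : ℤ) (c : E) : Lb n (HahnSeries.single n c : LaurentSeries E) := by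
  intro m hm
  rw [HahnSeries.coeff_single_of_ne hm.ne]

theorem Lb_algebraMap (c : E) : Lb 0 (algebraMap E (LaurentSeries E) c) := by
  rw [algebraMap_eq_C]
  exact Lb_single 0 c

theorem Lb_one : Lb 0 (1 : LaurentSeries E) := by
  have := Lb_algebraMap (1 : E)
  rwa [map_one] at this

theorem Lb_prod {κ : Type} (s : Finset κ) (F : κ → LaurentSeries E) (B : κ → ℤ)
    (h : ∀ i ∈ s, Lb (B i) (F i)) : Lb (∑ i ∈ s, B i) (∏ i ∈ s, F i) := by
  classical
  induction s using Finset.induction_on with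
  | empty => simpa using (Lb_one (E := E))
  | insert a s ha ih =>
    rw [Finset.sum_insert ha, Finset.prod_insert ha]
    exact (h a (Finset.mem_insert_self _ _)).mul
      (ih fun i hi => h i (Finset.mem_insert_of_mem hi))

theorem Lb_sum {κ : Type} (s : Finset κ) (F : κ → LaurentSeries E) (B : ℤ)
    (h : ∀ i ∈ s, Lb B (F i)) : Lb B (∑ i ∈ s, F i) := by
  classical
  induction s using Finset.induction_on with
  | empty => simpa using (Lb_zero (E := E) B)
  | insert a s ha ih =>
    rw [Finset.sum_insert ha]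
    exact (h a (Finset.mem_insert_self _ _)).add
      (ih fun i hi => h i (Finset.mem_insert_of_mem hi))

theorem Lb_order (x : LaurentSeries E) : Lb x.order x :=
  fun _ hn => HahnSeries.coeff_eq_zero_of_lt_order hn

theorem Lb.pow {B : ℤ} {x : LaurentSeries E} (h : Lb B x) (k : ℕ) : Lb (k * B) (x ^ k) := by
  induction k with
  | zero => simpa using (Lb_one (E := E))
  | succ k ih =>
    rw [pow_succ]
    have := ih.mul h
    rwa [show (k : ℤ) * B + B = ((k + 1 : ℕ) : ℤ) * B by push_cast; ring] at this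

theorem order_inv' {x : LaurentSeries E} (hx : x ≠ 0) : x⁻¹.order = -x.order := by
  have h := HahnSeries.order_mul hx (inv_ne_zero hx)
  rw [mul_inv_cancel₀ hx, HahnSeries.order_one] at h
  omega

theorem Lb_inv {x : LaurentSeries E} (hx : x ≠ 0) : Lb (-x.order) x⁻¹ := by
  rw [← order_inv' hx]
  exact Lb_order _

theorem Lb_iff_order {B : ℤ} {x : LaurentSeries E} (hx : x ≠ 0) : Lb B x ↔ B ≤ x.order := by
  constructor
  · intro h
    by_contra hlt
    exact hx (HahnSeries.coeff_order_eq_zero.1 (h _ (not_le.1 hlt)))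
  · intro h
    exact (Lb_order x).mono h

theorem order_eq_of_Lb {B : ℤ} {x : LaurentSeries E} (h : Lb B x) (h0 : x.coeff B ≠ 0) :
    x ≠ 0 ∧ x.order = B := by
  have hx : x ≠ 0 := by
    rintro rfl
    exact h0 rfl
  exact ⟨hx, le_antisymm (HahnSeries.order_le_of_coeff_ne_zero h0) ((Lb_iff_order hx).1 h)⟩

theorem order_aeval {w : LaurentSeries E} {e : ℕ} (he : 1 ≤ e) (hw : w.order = -(e : ℤ))
    (q : E[X]) (hq : q ≠ 0) :
    aeval w q ≠ 0 ∧ (aeval w q).order = -((e * q.natDegree : ℕ) : ℤ) := by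
  have hw0 : w ≠ 0 := by
    rintro rfl
    rw [HahnSeries.order_zero] at hw
    omega
  have hL : Lb (-(e : ℤ)) w := hw ▸ Lb_order w
  have hterm : ∀ i, Lb (-((e * i : ℕ) : ℤ))
      (algebraMap E (LaurentSeries E) (q.coeff i) * w ^ i) := by
    intro i
    have := (Lb_algebraMap (q.coeff i)).mul (hL.pow i)
    rwa [show (0 : ℤ) + (i : ℤ) * -(e : ℤ) = -((e * i : ℕ) : ℤ) by push_cast; ring] at this
  have hsum : aeval w q = (∑ i ∈ range q.natDegree,
      algebraMap E (LaurentSeries E) (q.coeff i) * w ^ i) +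
      algebraMap E (LaurentSeries E) (q.coeff q.natDegree) * w ^ q.natDegree := by
    rw [aeval_def, eval₂_eq_sum_range, Finset.sum_range_succ]
  have hlow : Lb (-((e * q.natDegree : ℕ) : ℤ) + 1) (∑ i ∈ range q.natDegree,
      algebraMap E (LaurentSeries E) (q.coeff i) * w ^ i) := by
    refine Lb_sum _ _ _ fun i hi => (hterm i).mono ?_
    rw [Finset.mem_range] at hi
    have h1 : e * i + e ≤ e * q.natDegree := by
      rw [← Nat.mul_succ]
      exact Nat.mul_le_mul_left _ hi
    omega
  apply order_eq_of_Lb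
  · rw [hsum]
    exact (hlow.mono (by omega)).add (hterm _)
  · rw [hsum, HahnSeries.coeff_add, hlow _ (by omega), zero_add, coeff_algebraMap_mul]
    refine mul_ne_zero (by simpa using hq) ?_
    have h2 : (w ^ q.natDegree).order = -((e * q.natDegree : ℕ) : ℤ) := by
      rw [HahnSeries.order_pow, hw]
      push_cast
      simp [mul_comm]
    rw [← h2]
    exact fun h => pow_ne_zero _ hw0 (HahnSeries.coeff_order_eq_zero.1 h)

theorem Lb_root {Q : (LaurentSeries E)[X]} (hQ : Q.Monic) (hc : ∀ l, Lb 0 (Q.coeff l))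
    {x : LaurentSeries E} (hx : Q.eval x = 0) : Lb 0 x := by
  by_cases hx0 : x = 0
  · rw [hx0]
    exact Lb_zero 0
  rw [Lb_iff_order hx0]
  by_contra hlt
  have hlt' : x.order < 0 := not_le.1 hlt
  have hsum : (∑ i ∈ range Q.natDegree, Q.coeff i * x ^ i) + x ^ Q.natDegree = 0 := by
    rw [eval_eq_sum_range, Finset.sum_range_succ, hQ.coeff_natDegree, one_mul] at hx
    exact hx
  have hlow : Lb ((Q.natDegree : ℤ) * x.order + 1)
      (∑ i ∈ range Q.natDegree, Q.coeff i * x ^ i) := by
    refine Lb_sum _ _ _ fun i hi => ((hc i).mul ((Lb_order x).pow i)).mono ?_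
    rw [Finset.mem_range] at hi
    have h1 : (i : ℤ) + 1 ≤ Q.natDegree := by exact_mod_cast hi
    nlinarith
  have h2 : (x ^ Q.natDegree).order = (Q.natDegree : ℤ) * x.order := by
    rw [HahnSeries.order_pow, nsmul_eq_mul]
  have h3 := congrArg (fun z : LaurentSeries E => z.coeff ((Q.natDegree : ℤ) * x.order)) hsum
  simp only [HahnSeries.coeff_add, HahnSeries.coeff_zero] at h3
  rw [hlow _ (by omega), zero_add, ← h2] at h3
  exact pow_ne_zero _ hx0 (HahnSeries.coeff_order_eq_zero.1 h3)

theorem Lb_dTf {B : ℤ} {x : LaurentSeries E} (h : Lb B x) : Lb (B - 1) (dTf x) := by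
  intro n hn
  rw [dTf_coeff, h _ (by omega), mul_zero]

theorem dw_aux (w : LaurentSeries E) (e : ℕ) (he : 1 ≤ e) (he' : (e : E) ≠ 0)
    (hw : w.order = -(e : ℤ)) : ∃ f : LaurentSeries E → LaurentSeries E,
      (∀ x y, f (x + y) = f x + f y) ∧
      (∀ (c : E) x, f (algebraMap E (LaurentSeries E) c * x) =
        algebraMap E (LaurentSeries E) c * f x) ∧
      (∀ x y, f (x * y) = x * f y + y * f x) ∧ f w = 1 ∧
      (∀ B x, Lb B x → Lb (B + e) (f x)) ∧
      ∀ x, f x = 0 → ∀ n : ℤ, (n : E) ≠ 0 → x.coeff n = 0 := by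
  have hw0 : w ≠ 0 := by
    rintro rfl
    rw [HahnSeries.order_zero] at hw
    omega
  have hL : Lb (-(e : ℤ)) w := hw ▸ Lb_order w
  have hd : dTf w ≠ 0 ∧ (dTf w).order = -(e : ℤ) - 1 := by
    apply order_eq_of_Lb (Lb_dTf hL)
    rw [dTf_coeff, show -(e : ℤ) - 1 + 1 = -(e : ℤ) by ring]
    refine mul_ne_zero ?_ ?_
    · push_cast
      exact neg_ne_zero.2 he'
    · rw [← hw]
      exact fun h => hw0 (HahnSeries.coeff_order_eq_zero.1 h)
  refine ⟨fun x => (dTf w)⁻¹ * dTf x, ?_, ?_, ?_, ?_, ?_, ?_⟩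
  · intro x y
    simp only [dTf_add, mul_add]
  · intro c x
    simp only [dTf_C_mul]
    ring
  · intro x y
    simp only [dTf_mul]
    ring
  · exact inv_mul_cancel₀ hd.1
  · intro B x hx
    have := (Lb_inv hd.1).mul (Lb_dTf hx)
    rwa [hd.2, show -(-(e : ℤ) - 1) + (B - 1) = B + e by ring] at this
  · intro x hx n hn
    have h1 : dTf x = 0 := (mul_eq_zero.1 hx).resolve_left (inv_ne_zero hd.1)
    have h2 := dTf_coeff x (n - 1)
    rw [h1, show n - 1 + 1 = n by ring, HahnSeries.coeff_zero] at h2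
    exact (mul_eq_zero.1 h2.symm).resolve_left hn

/-- the derivation normalised by `d w = 1` raises the order at infinity -/
theorem exists_dw (w : LaurentSeries E) (e : ℕ) (he : 1 ≤ e) (he' : (e : E) ≠ 0)
    (hw : w.order = -(e : ℤ)) : ∃ d : Derivation E (LaurentSeries E) (LaurentSeries E), d w = 1 ∧
      (∀ B x, Lb B x → Lb (B + e) (d x)) ∧
      ∀ x, d x = 0 → ∀ n : ℤ, (n : E) ≠ 0 → x.coeff n = 0 := by
  obtain ⟨f, ha, hc, hm, h1, h2, h3⟩ := dw_aux w e he he' hw
  obtain ⟨d, hd⟩ := exists_der_of_fun f ha hc hm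
  refine ⟨d, by rw [hd, h1], fun B x hx => by rw [hd]; exact h2 B x hx, fun x hx => ?_⟩
  rw [hd] at hx
  exact h3 x hx

/-- the same with the module structure that comes from the algebra structure -/
theorem exists_dw2 (w : LaurentSeries E) (e : ℕ) (he : 1 ≤ e) (he' : (e : E) ≠ 0)
    (hw : w.order = -(e : ℤ)) :
    ∃ d : @Derivation E (LaurentSeries E) (LaurentSeries E) _ _ _ _ _ Algebra.toModule, d w = 1 ∧
      (∀ B x, Lb B x → Lb (B + e) (d x)) ∧
      ∀ x, d x = 0 → ∀ n : ℤ, (n : E) ≠ 0 → x.coeff n = 0 := by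
  obtain ⟨f, ha, hc, hm, h1, h2, h3⟩ := dw_aux w e he he' hw
  obtain ⟨d, hd⟩ := exists_der_of_fun2 f ha hc hm
  refine ⟨d, by rw [hd, h1], fun B x hx => by rw [hd]; exact h2 B x hx, fun x hx => ?_⟩
  rw [hd] at hx
  exact h3 x hx

end Vale.Agent.P042Y
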