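import Vale.Agent.P042Y.TA

/-! Norms and regular rational functions. -/

namespace Vale.Agent.P042Y

open Polynomial Finset

variable {E : Type} [Field E]

theorem TB.Lb_T : Lb 1 (HahnSeries.single (1 : ℤ) (1 : E) : LaurentSeries E) :=
  fun _ hn => HahnSeries.coeff_single_of_ne hn.ne

theorem exists_embeddings {F M L : Type} [Field F] [Field M] [Field L] [Algebra F M]
    (pb : PowerBasis F M) (hsep : (minpoly F pb.gen).Separable) (τ : F →+* L)
    (hspl : ((minpoly F pb.gen).map τ).Splits) :
    ∃ s : Finset (M →+* L), s.Nonempty ∧ (∀ σ ∈ s, ∀ a, σ (algebraMap F M a) = τ a) ∧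
      ∀ x : M, τ (Algebra.norm F x) = ∏ σ ∈ s, σ x := by
  classical
  let _i : Algebra F L := τ.toAlgebra
  have hfin : Module.Finite F M := pb.finite
  have hS : Algebra.IsSeparable F M := by
    refine ⟨fun x => ?_⟩
    have hx : x ∈ Algebra.adjoin F {pb.gen} := by rw [pb.adjoin_gen_eq_top]; trivial
    exact Algebra.adjoin_le (S := (separableClosure F M).toSubalgebra)
      (Set.singleton_subset_iff.2 hsep) hx
  have c1 : Nat.card (M →ₐ[F] L) = pb.dim := AlgHom.natCard_of_powerBasis pb hsep hspl
  have c2 : Nat.card (M →ₐ[F] AlgebraicClosure L) = pb.dim :=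
    AlgHom.natCard_of_powerBasis pb hsep (IsAlgClosed.splits _)
  let _i : Fintype (M →ₐ[F] L) := PowerBasis.AlgHom.fintype pb
  have hinj := (algebraMap L (AlgebraicClosure L)).injective
  have hb : Function.Bijective fun σ : M →ₐ[F] L =>
      (IsScalarTower.toAlgHom F L (AlgebraicClosure L)).comp σ := by
    refine (Nat.bijective_iff_injective_and_card _).2 ⟨fun σ σ' h => ?_, c1.trans c2.symm⟩
    exact AlgHom.ext fun x => hinj (DFunLike.congr_fun h x)
  have hi : Function.Injective fun σ : M →ₐ[F] L => (σ : M →+* L) := AlgHom.coe_ringHom_injective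
  refine ⟨Finset.univ.map ⟨_, hi⟩, ?_, ?_, fun x => ?_⟩
  · rw [Finset.map_nonempty, Finset.univ_nonempty_iff]
    have : Nat.card (M →ₐ[F] L) ≠ 0 := by rw [c1]; exact pb.dim_pos.ne'
    exact (Nat.card_ne_zero.1 this).1
  · intro σ hσ a
    obtain ⟨σ', -, rfl⟩ := Finset.mem_map.1 hσ
    exact σ'.commutes a
  · apply hinj
    rw [Finset.prod_map, map_prod]
    have := Algebra.norm_eq_prod_embeddings F (AlgebraicClosure L) x
    rw [← hb.prod_comp] at this
    exact this

/-- the local coordinate `y₀ + T` -/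
noncomputable def loc (y₀ : E) : LaurentSeries E :=
  algebraMap E (LaurentSeries E) y₀ + HahnSeries.single (1 : ℤ) (1 : E)

theorem exists_lift {L : Type} [Field L] [Algebra E L] (w : L) (hw : Transcendental E w) :
    ∃ τ : RatFunc E →ₐ[E] L, ∀ q : E[X], τ (algebraMap E[X] (RatFunc E) q) = aeval w q := by
  have hi : Function.Injective (aeval w : E[X] →ₐ[E] L) := transcendental_iff_injective.1 hw
  exact ⟨IsFractionRing.liftAlgHom hi, fun q => by
    rw [IsFractionRing.liftAlgHom_apply, IsFractionRing.lift_algebraMap]; rfl⟩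

theorem transcendental_loc (y₀ : E) : Transcendental E (loc y₀) := by
  intro h
  have h1 : IsIntegral E (HahnSeries.single (1 : ℤ) (1 : E) : LaurentSeries E) := by
    have := h.isIntegral.sub (isIntegral_algebraMap (x := y₀))
    rwa [loc, add_sub_cancel_left] at this
  obtain ⟨q, hq, h2⟩ := h1.isAlgebraic.inv
  refine (order_aeval (e := 1) le_rfl ?_ q hq).1 h2
  rw [HahnSeries.inv_single, HahnSeries.order_single (by simp)]
  rfl

theorem Lb_aeval_loc (y₀ : E) (q : E[X]) : Lb 0 (aeval (loc y₀) q) := by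
  have h1 : Lb 0 (loc y₀) := (Lb_algebraMap y₀).add (TB.Lb_T.mono zero_le_one)
  induction q using Polynomial.induction_on with
  | C c => rw [aeval_C]; exact Lb_algebraMap c
  | add p q hp hq => rw [map_add]; exact hp.add hq
  | monomial n c h =>
    rw [pow_succ, ← mul_assoc, map_mul, aeval_X]
    simpa using h.mul h1

theorem poly_of_regular [IsAlgClosed E] (a : RatFunc E)
    (τ : E → (RatFunc E →ₐ[E] LaurentSeries E))
    (hτ : ∀ y₀ q, τ y₀ (algebraMap E[X] (RatFunc E) q) = aeval (loc y₀) q)
    (ha : ∀ y₀, Lb 0 (τ y₀ a)) : ∃ q : E[X], a = algebraMap E[X] (RatFunc E) q := by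
  have key : ∀ (y₀ : E) (q : E[X]),
      Lb 1 (aeval (loc y₀) q - algebraMap E (LaurentSeries E) (q.eval y₀)) := by
    intro y₀ q
    obtain ⟨r, hr⟩ := X_sub_C_dvd_sub_C_eval (p := q) (a := y₀)
    have := congrArg (aeval (loc y₀)) hr
    simp only [map_sub, map_mul, aeval_C, aeval_X] at this
    rw [this, show loc y₀ - algebraMap E (LaurentSeries E) y₀ = HahnSeries.single (1 : ℤ) (1 : E) by
      rw [loc, add_sub_cancel_left]]
    simpa using TB.Lb_T.mul (Lb_aeval_loc y₀ r)
  by_cases hd : a.denom.degree = 0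
  · have h1 : a.denom = 1 := (RatFunc.monic_denom a).degree_le_zero_iff_eq_one.1 hd.le
    refine ⟨a.num, ?_⟩
    conv_lhs => rw [← RatFunc.num_div_denom a, h1, map_one, div_one]
  · exfalso
    obtain ⟨y₀, hy⟩ := IsAlgClosed.exists_root a.denom hd
    have h1 := key y₀ a.denom
    rw [hy.eq_zero, map_zero, sub_zero] at h1
    have h2 : τ y₀ a * aeval (loc y₀) a.denom = aeval (loc y₀) a.num := by
      rw [← hτ, ← hτ, ← map_mul]
      congr 1
      exact (eq_div_iff (RatFunc.algebraMap_ne_zero a.denom_ne_zero)).1 (RatFunc.num_div_denom a).symm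
    have h3 := (ha y₀).mul h1
    rw [h2, zero_add] at h3
    have h4 := h3.add (key y₀ a.num).neg
    have h5 := h4 0 zero_lt_one
    rw [neg_sub, add_sub_cancel, HahnSeries.algebraMap_apply'] at h5
    have h6 : a.num.eval y₀ = 0 := by simpa using h5
    obtain ⟨u, v, huv⟩ := RatFunc.isCoprime_num_denom a
    have := congrArg (eval y₀) huv
    simp [h6, hy.eq_zero] at this

/-- a formal derivative compatible with all embeddings into differential fields -/
theorem exists_formal_der {M L : Type} [Field M] [Algebra E M] [Field L] [Algebra E L] (y z : M)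
    (hgen : IntermediateField.adjoin E {y, z} = ⊤) (P : E[X][X]) (hP : (ev y P).eval z = 0)
    (hP' : (derivative (ev y P)).eval z ≠ 0) (x : M) :
    ∃ x' : M, ∀ (σ : M →ₐ[E] L) (d : Derivation E L L), d (σ y) = 1 → σ x' = d (σ x) := by
  have chain : ∀ P : E[X][X], ∃ c : M, ∀ (σ : M →ₐ[E] L) (d : Derivation E L L), d (σ y) = 1 →
      d (σ ((ev y P).eval z)) = σ c + σ ((derivative (ev y P)).eval z) * d (σ z) := by
    intro P
    induction P using Polynomial.induction_on' with
    | add p q hp hq =>
      obtain ⟨c, hc⟩ := hp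
      obtain ⟨c', hc'⟩ := hq
      refine ⟨c + c', fun σ d h => ?_⟩
      have e : ev y (p + q) = ev y p + ev y q := Polynomial.map_add _
      simp only [e, map_add, eval_add, hc σ d h, hc' σ d h]
      ring
    | monomial n a =>
      refine ⟨aeval y (derivative a) * z ^ n, fun σ d h => ?_⟩
      have e : ev y (monomial n a) = monomial n (aeval y a) := Polynomial.map_monomial _
      simp only [e, derivative_monomial, eval_monomial, map_mul, map_pow, ← aeval_algHom_apply,
        Derivation.leibniz, Derivation.leibniz_pow, Derivation.map_aeval, h, smul_eq_mul,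
        nsmul_eq_mul, map_natCast]
      ring
  have hx : x ∈ IntermediateField.adjoin E {y, z} := by rw [hgen]; trivial
  induction hx using IntermediateField.adjoin_induction with
  | mem x hx =>
    rcases hx with rfl | hx
    · exact ⟨1, fun σ d h => by rw [map_one, h]⟩
    · rw [Set.mem_singleton_iff.1 hx]
      obtain ⟨c, hc⟩ := chain P
      refine ⟨-c / (derivative (ev y P)).eval z, fun σ d h => ?_⟩
      have h1 := hc σ d h
      rw [hP, map_zero, map_zero] at h1
      rw [map_div₀, map_neg, div_eq_iff ((map_ne_zero σ).2 hP')]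
      linear_combination h1
  | algebraMap c => exact ⟨0, fun σ d _ => by simp⟩
  | add u v _ _ hu hv =>
    obtain ⟨u', hu⟩ := hu
    obtain ⟨v', hv⟩ := hv
    exact ⟨u' + v', fun σ d h => by simp only [map_add, hu σ d h, hv σ d h]⟩
  | inv u _ hu =>
    obtain ⟨u', hu⟩ := hu
    exact ⟨-u⁻¹ ^ 2 * u', fun σ d h => by
      simp only [map_mul, map_neg, map_pow, map_inv₀, hu σ d h, Derivation.leibniz_inv, smul_eq_mul]⟩
  | mul u v _ _ hu hv =>
    obtain ⟨u', hu⟩ := hu
    obtain ⟨v', hv⟩ := hv
    exact ⟨u * v' + v * u', fun σ d h => by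
      simp only [map_mul, map_add, hu σ d h, hv σ d h, Derivation.leibniz, smul_eq_mul]⟩

end Vale.Agent.P042Y
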