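import Vale.Agent.P042Y.TB

/-! The affine line has no tame unramified covers. -/

namespace Vale.Agent.P042Y

open Polynomial Finset

variable {E : Type} [Field E]

theorem ev_map_algHom {M L : Type} [CommRing M] [Algebra E M] [CommRing L] [Algebra E L]
    (σ : M →ₐ[E] L) (y : M) (P : E[X][X]) : ev (σ y) P = (ev y P).map (σ : M →+* L) := by
  unfold ev
  rw [Polynomial.map_map]
  congr 1
  refine RingHom.ext fun q => ?_
  simp [aeval_algHom_apply]

theorem ev_root_algHom {M L : Type} [CommRing M] [Algebra E M] [CommRing L] [Algebra E L]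
    (σ : M →ₐ[E] L) {y z : M} {P : E[X][X]} (h : (ev y P).eval z = 0) :
    (ev (σ y) P).eval (σ z) = 0 := by
  rw [ev_map_algHom]
  have := eval_map_apply (p := ev y P) (σ : M →+* L) z
  rw [h, map_zero] at this
  exact this

theorem Lb_zero' (B : ℤ) : Lb B (0 : LaurentSeries E) := fun _ _ => rfl

theorem Lb.sub' {B : ℤ} {x y : LaurentSeries E} (h : Lb B x) (h' : Lb B y) : Lb B (x - y) := by
  rw [sub_eq_add_neg]
  exact h.add h'.neg

theorem exists_antider (q : E[X]) (h : ∀ i, i ≤ q.natDegree → ((i + 1 : ℕ) : E) ≠ 0) :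
    ∃ Q : E[X], derivative Q = q ∧ Q.natDegree ≤ q.natDegree + 1 := by
  refine ⟨∑ i ∈ range (q.natDegree + 1), monomial (i + 1) (q.coeff i / ((i + 1 : ℕ) : E)), ?_, ?_⟩
  · rw [derivative_sum]
    conv_rhs => rw [q.as_sum_range]
    refine sum_congr rfl fun i hi => ?_
    have := h i (by have := mem_range.1 hi; omega)
    rw [derivative_monomial, Nat.add_sub_cancel, div_mul_cancel₀ _ this]
  · refine natDegree_sum_le_of_forall_le _ _ fun i hi => ?_
    refine (natDegree_monomial_le _).trans ?_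
    have := mem_range.1 hi
    omega

theorem exists_dloc (E : Type) [Field E] :
    ∃ d : Derivation E (LaurentSeries E) (LaurentSeries E),
      (∀ y₀ : E, d (loc y₀) = 1) ∧ ∀ x, Lb 0 x → Lb 0 (d x) := by
  obtain ⟨d, hd⟩ := exists_dT E
  refine ⟨d, fun y₀ => ?_, fun x hx n hn => ?_⟩
  · unfold loc
    rw [map_add, d.map_algebraMap, zero_add]
    ext n
    rw [hd, HahnSeries.coeff_single, HahnSeries.coeff_one]
    by_cases h : n = 0
    · subst h
      simp
    · rw [if_neg h, if_neg (by omega), mul_zero]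
  · rw [hd]
    by_cases h : n + 1 = 0
    · rw [h]
      simp
    · rw [hx (n + 1) (by omega), mul_zero]

theorem conv_der {L : Type} [Field L] [Algebra E L] (inst : Module E L)
    (d : @Derivation E L L _ _ _ _ _ inst) :
    ∃ d' : @Derivation E L L _ _ _ _ _ Algebra.toModule, ∀ x, d' x = d x := by
  have h : ∀ (c : E) (x : L), d (algebraMap E L c * x) = algebraMap E L c * d x := by
    intro c x
    rw [d.leibniz, d.map_algebraMap, smul_zero, add_zero, smul_eq_mul]
  have h1 : ∀ x y : L, d (x + y) = d x + d y := fun x y => map_add d x y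
  have h2 : ∀ x y : L, d (x * y) = x • d y + y • d x := fun x y => d.leibniz x y
  have h3 : ∃ D : L → L, ∀ x, D x = d x := ⟨d, fun _ => rfl⟩
  obtain ⟨D, hD⟩ := h3
  simp only [← hD] at h h1 h2 ⊢
  clear hD d inst
  exact ⟨Derivation.mk' ⟨⟨D, h1⟩, fun c x => by
    simp only [Algebra.smul_def, RingHom.id_apply]
    exact h c x⟩ h2, fun _ => rfl⟩

section

variable {M : Type} [Field M] [Algebra E M]

/-- regular at all finite places -/
def RegF (y x : M) : Prop :=
  ∀ (y₀ : E) (σ : M →ₐ[E] LaurentSeries E), σ y = loc y₀ → Lb 0 (σ x)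

/-- pole order at most `B` at the infinite places -/
def RegI (w : LaurentSeries E) (y : M) (B : ℤ) (x : M) : Prop :=
  ∀ σ : M →ₐ[E] LaurentSeries E, σ y = w → Lb (-B) (σ x)

theorem tame_ind (p : ℕ) [Fact p.Prime] [CharP E p] (y : M)
    (w : LaurentSeries E) (e : ℕ) (he : 1 ≤ e) (he' : (e : E) ≠ 0) (hw : w.order = -(e : ℤ))
    (σ₀ : M →ₐ[E] LaurentSeries E) (h₀ : σ₀ y = w)
    (hvan : ∀ x, RegF (E := E) y x → RegI w y 0 x → Lb 1 (σ₀ x) → x = 0)
    (hder : ∀ x : M, ∃ x' : M, ∀ (σ : M →ₐ[E] LaurentSeries E)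
      (d : Derivation E (LaurentSeries E) (LaurentSeries E)), d (σ y) = 1 → σ x' = d (σ x))
    (k : ℕ) : ∀ B : ℤ, B < k → B < p → ∀ x, RegF (E := E) y x → RegI w y B x →
      ∃ q : E[X], x = aeval y q := by
  induction k with
  | zero =>
    intro B hB _ x hF hI
    refine ⟨0, ?_⟩
    rw [map_zero]
    refine hvan x hF (fun σ hσ => (hI σ hσ).mono (by omega)) ((hI σ₀ h₀).mono (by omega))
  | succ k ih =>
    intro B hB hp x hF hI
    obtain ⟨x', hx'⟩ := hder x
    obtain ⟨d₁, hd₁, hd₁'⟩ := exists_dloc E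
    obtain ⟨d₂, hd₂, hd₂', hd₂''⟩ := exists_dw w e he he' hw
    have hF' : RegF (E := E) y x' := by
      intro y₀ σ hσ
      rw [hx' σ d₁ (by rw [hσ, hd₁])]
      exact hd₁' _ (hF y₀ σ hσ)
    have hI' : RegI w y (B - e) x' := by
      intro σ hσ
      rw [hx' σ d₂ (by rw [hσ, hd₂])]
      exact (hd₂' _ _ (hI σ hσ)).mono (by omega)
    obtain ⟨q, hq⟩ := ih (B - e) (by omega) (by omega) x' hF' hI'
    have hQ : ∃ Q : E[X], derivative Q = q ∧ Lb (-B) (aeval w Q) := by
      by_cases h0 : q = 0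
      · exact ⟨0, by simp [h0], by rw [map_zero]; exact Lb_zero' _⟩
      obtain ⟨a1, a2⟩ := order_aeval he hw q h0
      have a3 := hI' σ₀ h₀
      rw [hq, ← aeval_algHom_apply, h₀, Lb_iff_order a1, a2] at a3
      have a4 : ((e * (q.natDegree + 1) : ℕ) : ℤ) ≤ B := by
        push_cast at a3 ⊢
        linarith
      have a5 : q.natDegree + 1 < p := by
        have : q.natDegree + 1 ≤ e * (q.natDegree + 1) := Nat.le_mul_of_pos_left _ he
        omega
      obtain ⟨Q, hQ1, hQ2⟩ := exists_antider q (fun i hi h => by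
        rw [CharP.cast_eq_zero_iff E p] at h
        have := Nat.le_of_dvd (by omega) h
        omega)
      refine ⟨Q, hQ1, ?_⟩
      by_cases hQ0 : Q = 0
      · rw [hQ0, map_zero]
        exact Lb_zero' _
      obtain ⟨b1, b2⟩ := order_aeval he hw Q hQ0
      rw [Lb_iff_order b1, b2]
      have : e * Q.natDegree ≤ e * (q.natDegree + 1) := Nat.mul_le_mul_left _ hQ2
      omega
    obtain ⟨Q, hQ1, hQ2⟩ := hQ
    have hI1 : RegI w y 0 (x - aeval y Q) := by
      intro σ hσ n hn
      have c1 : Lb (-B) (σ (x - aeval y Q)) := by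
        rw [map_sub, ← aeval_algHom_apply, hσ]
        exact (hI σ hσ).sub' hQ2
      have c2 : d₂ (σ (x - aeval y Q)) = 0 := by
        rw [map_sub, ← aeval_algHom_apply, hσ, map_sub, ← hx' σ d₂ (by rw [hσ, hd₂]),
          Derivation.map_aeval, hd₂, hQ1, hq, ← aeval_algHom_apply, hσ, smul_eq_mul, mul_one,
          sub_self]
      by_cases hn' : n < -B
      · exact c1 n hn'
      refine hd₂'' _ c2 n fun h => ?_
      rw [CharP.intCast_eq_zero_iff E p] at h
      have := Int.le_of_dvd (by omega : 0 < -n) ((Int.dvd_neg).2 h)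
      omega
    set c : E := (σ₀ (x - aeval y Q)).coeff 0 with hc
    have hz : x - aeval y Q - algebraMap E M c = 0 := by
      refine hvan _ ?_ ?_ ?_
      · intro y₀ σ hσ
        rw [map_sub, map_sub, ← aeval_algHom_apply, hσ, AlgHom.commutes]
        exact ((hF y₀ σ hσ).sub' (Lb_aeval_loc y₀ Q)).sub' (Lb_algebraMap c)
      · intro σ hσ
        rw [map_sub, AlgHom.commutes]
        exact (hI1 σ hσ).sub' (Lb_algebraMap c)
      · intro n hn
        rw [map_sub, AlgHom.commutes]
        by_cases h : n = 0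
        · subst h
          rw [HahnSeries.coeff_sub, ← hc]
          simp [HahnSeries.algebraMap_apply']
        · exact ((hI1 σ₀ h₀).sub' (Lb_algebraMap c)) n (by omega)
    refine ⟨Q + C c, ?_⟩
    rw [map_add, aeval_C]
    linear_combination hz

end

theorem tame_abs [IsAlgClosed E] (p : ℕ) [Fact p.Prime] [CharP E p] (P : E[X][X]) (hm : P.Monic)
    {M : Type} [Field M] [Algebra E M] [Algebra (RatFunc E) M] [IsScalarTower E (RatFunc E) M]
    (pb : PowerBasis (RatFunc E) M)
    (hmin : minpoly (RatFunc E) pb.gen = P.map (algebraMap E[X] (RatFunc E)))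
    (hsep : (minpoly (RatFunc E) pb.gen).Separable)
    (hfin : ∀ y₀ : E, (ev (loc y₀) P).Splits)
    (w : LaurentSeries E) (e : ℕ) (he : 1 ≤ e) (he' : (e : E) ≠ 0) (hw : w.order = -(e : ℤ))
    (hinf : (ev w P).Splits) (B : ℕ) (hB : B < p)
    (hroot : ∀ x, (ev w P).eval x = 0 → Lb (-(B : ℤ)) x) : P.natDegree ≤ 1 := by
  classical
  haveI := pb.finite
  set y : M := algebraMap (RatFunc E) M (algebraMap E[X] (RatFunc E) X) with hy
  have hq : ∀ q : E[X], algebraMap (RatFunc E) M (algebraMap E[X] (RatFunc E) q) = aeval y q := by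
    intro q
    have := aeval_algHom_apply ((IsScalarTower.toAlgHom E (RatFunc E) M).comp
      (IsScalarTower.toAlgHom E E[X] (RatFunc E))) X q
    rw [aeval_X_left_apply] at this
    exact this.symm
  have hev : ev y P = (minpoly (RatFunc E) pb.gen).map (algebraMap (RatFunc E) M) := by
    rw [hmin, Polynomial.map_map]
    unfold ev
    congr 1
    exact RingHom.ext fun q => (hq q).symm
  have hP : (ev y P).eval pb.gen = 0 := by
    rw [hev, eval_map_algebraMap, minpoly.aeval]
  have hP' : (derivative (ev y P)).eval pb.gen ≠ 0 := by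
    rw [hev, derivative_map, eval_map_algebraMap]
    exact hsep.aeval_derivative_ne_zero (minpoly.aeval _ _)
  have hgen : IntermediateField.adjoin E {y, pb.gen} = ⊤ := by
    rw [eq_top_iff]
    intro x _
    obtain ⟨f, rfl⟩ := pb.exists_eq_aeval' x
    have hy' : y ∈ IntermediateField.adjoin E {y, pb.gen} :=
      IntermediateField.subset_adjoin _ _ (by simp)
    have hz' : pb.gen ∈ IntermediateField.adjoin E {y, pb.gen} :=
      IntermediateField.subset_adjoin _ _ (by simp)
    have h1 : ∀ q : E[X], aeval y q ∈ IntermediateField.adjoin E {y, pb.gen} := by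
      intro q
      rw [aeval_eq_sum_range]
      exact sum_mem fun i _ => IntermediateField.smul_mem _ (pow_mem hy' i)
    have h2 : ∀ a : RatFunc E,
        algebraMap (RatFunc E) M a ∈ IntermediateField.adjoin E {y, pb.gen} := by
      intro a
      rw [← RatFunc.num_div_denom a, map_div₀, hq, hq]
      exact div_mem (h1 _) (h1 _)
    rw [aeval_eq_sum_range]
    refine sum_mem fun i _ => ?_
    rw [Algebra.smul_def]
    exact mul_mem (h2 _) (pow_mem hz' i)
  have hemb : ∀ v : LaurentSeries E, Transcendental E v → (ev v P).Splits →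
      ∃ τ : RatFunc E →ₐ[E] LaurentSeries E,
        (∀ q : E[X], τ (algebraMap E[X] (RatFunc E) q) = aeval v q) ∧
        ∃ s : Finset (M →+* LaurentSeries E), s.Nonempty ∧
          (∀ σ ∈ s, ∃ σ' : M →ₐ[E] LaurentSeries E, σ' y = v ∧ ∀ x, σ' x = σ x) ∧
          ∀ x : M, τ (Algebra.norm (RatFunc E) x) = ∏ σ ∈ s, σ x := by
    intro v hv hs
    obtain ⟨τ, hτ⟩ := exists_lift v hv
    have h1 : (minpoly (RatFunc E) pb.gen).map (τ : RatFunc E →+* LaurentSeries E) = ev v P := by
      rw [hmin, Polynomial.map_map]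
      unfold ev
      congr 1
      exact RingHom.ext fun q => hτ q
    obtain ⟨s, hs1, hs2, hs3⟩ := exists_embeddings pb hsep (τ : RatFunc E →+* LaurentSeries E)
      (by rw [h1]; exact hs)
    refine ⟨τ, hτ, s, hs1, fun σ hσ => ⟨⟨σ, fun c => ?_⟩, ?_, fun x => rfl⟩, hs3⟩
    · change σ (algebraMap E M c) = _
      rw [IsScalarTower.algebraMap_apply E (RatFunc E) M, hs2 σ hσ]
      exact τ.commutes c
    · change σ y = v
      rw [hy, hs2 σ hσ]
      change τ _ = v
      rw [hτ, aeval_X]
  have hwt : Transcendental E w := by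
    rw [transcendental_iff]
    intro q h
    by_contra h0
    exact (order_aeval he hw q h0).1 h
  choose τ hτ s _ hs2 hs3 using fun y₀ : E => hemb (loc y₀) (transcendental_loc y₀) (hfin y₀)
  obtain ⟨τw, hτw, sw, ⟨σ₁, hσ₁⟩, hw2, hw3⟩ := hemb w hwt hinf
  obtain ⟨σ₀, h₀, h₀'⟩ := hw2 σ₁ hσ₁
  have hvan : ∀ x, RegF (E := E) y x → RegI w y 0 x → Lb 1 (σ₀ x) → x = 0 := by
    intro x hF hI h1
    obtain ⟨q, hq'⟩ := poly_of_regular (Algebra.norm (RatFunc E) x) τ hτ (fun y₀ => by
      rw [hs3]
      have := Lb_prod (s y₀) (fun σ => σ x) (fun _ => 0) (fun σ hσ => by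
        obtain ⟨σ', a1, a2⟩ := hs2 y₀ σ hσ
        rw [← a2]
        exact hF y₀ σ' a1)
      simpa using this)
    have a1 := Lb_prod sw (fun σ => σ x) (fun σ => if σ = σ₁ then 1 else 0) (fun σ hσ => by
      split_ifs with h
      · rw [h, ← h₀']
        exact h1
      · obtain ⟨σ', a1, a2⟩ := hw2 σ hσ
        rw [← a2]
        simpa using hI σ' a1)
    rw [sum_ite_eq', if_pos hσ₁, ← hw3, hq', hτw] at a1
    by_contra hx
    have hq0 : q ≠ 0 := by
      rintro rfl
      rw [map_zero, Algebra.norm_eq_zero_iff] at hq'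
      exact hx hq'
    obtain ⟨b1, b2⟩ := order_aeval he hw q hq0
    rw [Lb_iff_order b1, b2] at a1
    omega
  obtain ⟨q, hq'⟩ := tame_ind p y w e he he' hw σ₀ h₀ hvan
    (fun x => by
      obtain ⟨x', hx'⟩ := exists_formal_der (L := LaurentSeries E) y pb.gen hgen P hP hP' x
      refine ⟨x', fun σ d hd => ?_⟩
      obtain ⟨d', hd'⟩ := conv_der _ d
      rw [← hd'] at hd ⊢
      exact hx' σ d' hd) (B + 1) B (by omega) (by omega) pb.gen
    (fun y₀ σ hσ => by
      have a1 := ev_root_algHom σ hP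
      rw [hσ] at a1
      refine Lb_root (hm.map _) (fun l => ?_) a1
      rw [coeff_map]
      exact Lb_aeval_loc y₀ _)
    (fun σ hσ => by
      have a1 := ev_root_algHom σ hP
      rw [hσ] at a1
      exact hroot _ a1)
  rw [← hq] at hq'
  rw [hq', minpoly.eq_X_sub_C] at hmin
  have := congrArg natDegree hmin
  rw [natDegree_X_sub_C, hm.natDegree_map] at this
  omega

theorem tame [IsAlgClosed E] (p : ℕ) [Fact p.Prime] [CharP E p] (P : E[X][X]) (hm : P.Monic)
    (hirr : Irreducible P) (hdeg : P.natDegree < p)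
    (hfin : ∀ y₀ : E, (ev (loc y₀) P).Splits)
    (w : LaurentSeries E) (e : ℕ) (he : 1 ≤ e) (he' : (e : E) ≠ 0) (hw : w.order = -(e : ℤ))
    (hinf : (ev w P).Splits) (B : ℕ) (hB : B < p)
    (hroot : ∀ x, (ev w P).eval x = 0 → Lb (-(B : ℤ)) x) : P.natDegree ≤ 1 := by
  have hm' : (P.map (algebraMap E[X] (RatFunc E))).Monic := hm.map _
  have hi : Irreducible (P.map (algebraMap E[X] (RatFunc E))) :=
    (hm.irreducible_iff_irreducible_map_fraction_map (K := RatFunc E)).1 hirr
  haveI := Fact.mk hi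
  have hsep : (P.map (algebraMap E[X] (RatFunc E))).Separable := by
    rw [separable_iff_derivative_ne_zero hi]
    intro h
    have h1 : 0 < (P.map (algebraMap E[X] (RatFunc E))).natDegree := hi.natDegree_pos
    have h2 := congrArg (fun f => f.coeff ((P.map (algebraMap E[X] (RatFunc E))).natDegree - 1)) h
    simp only [coeff_derivative, coeff_zero] at h2
    rw [Nat.sub_add_cancel h1, hm'.coeff_natDegree, one_mul, ← Nat.cast_succ,
      CharP.cast_eq_zero_iff (RatFunc E) p, hm.natDegree_map] at h2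
    rw [hm.natDegree_map] at h1
    have := Nat.le_of_dvd (by omega) h2
    omega
  have hmin := AdjoinRoot.minpoly_powerBasis_gen_of_monic hm'
  exact tame_abs p P hm (AdjoinRoot.powerBasis hm'.ne_zero) hmin (by rw [hmin]; exact hsep)
    hfin w e he he' hw hinf B hB hroot

end Vale.Agent.P042Y
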