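import Vale.Agent.P042Y.TB

/-! Splitting by the lemma of Hensel. -/

namespace Vale.Agent.P042Y

open Polynomial Finset

variable {E : Type} [Field E]

theorem hensel_root (Q : (PowerSeries E)[X]) (hm : Q.Monic)
    (hs : (Q.map (PowerSeries.constantCoeff (R := E))).Separable) (r : E)
    (hr : (Q.map (PowerSeries.constantCoeff (R := E))).eval r = 0) : ∃ a, Q.IsRoot a := by
  have hH := IsAdicComplete.henselianRing (PowerSeries E)
    (Ideal.span {(PowerSeries.X : PowerSeries E)})
  have hev : ∀ f : (PowerSeries E)[X], PowerSeries.constantCoeff (f.eval (PowerSeries.C r)) =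
      (f.map (PowerSeries.constantCoeff (R := E))).eval r := by
    intro f
    rw [eval_map, ← eval₂_at_apply, PowerSeries.constantCoeff_C]
  obtain ⟨a, ha, -⟩ := hH.is_henselian Q hm (PowerSeries.C r)
    (by rw [Ideal.mem_span_singleton, PowerSeries.X_dvd_iff, hev, hr])
    (by
      apply IsUnit.map
      rw [PowerSeries.isUnit_iff_constantCoeff, hev, ← derivative_map, isUnit_iff_ne_zero]
      exact hs.eval₂_derivative_ne_zero (RingHom.id E) hr)
  exact ⟨a, ha⟩

theorem splits_of_hensel_aux [IsAlgClosed E] (n : ℕ) : ∀ (Q : (PowerSeries E)[X]), Q.Monic →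
    Q.natDegree = n → (Q.map (PowerSeries.constantCoeff (R := E))).Separable → Q.Splits := by
  induction n with
  | zero => exact fun Q _ hn _ => Splits.of_natDegree_eq_zero hn
  | succ n ih =>
    intro Q hm hn hs
    have hdeg : (Q.map (PowerSeries.constantCoeff (R := E))).degree ≠ 0 := by
      rw [hm.degree_map, degree_eq_natDegree hm.ne_zero, hn]
      exact_mod_cast Nat.succ_ne_zero n
    obtain ⟨r, hr⟩ := IsAlgClosed.exists_root _ hdeg
    obtain ⟨a, ha⟩ := hensel_root Q hm hs r hr
    have hfac : (X - C a) * (Q /ₘ (X - C a)) = Q := mul_divByMonic_eq_iff_isRoot.2 ha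
    have hm' : (Q /ₘ (X - C a)).Monic := (monic_X_sub_C a).of_mul_monic_left (hfac.symm ▸ hm)
    have hn' : (Q /ₘ (X - C a)).natDegree = n := by
      have h1 := (monic_X_sub_C a).natDegree_mul hm'
      rw [hfac, hn, natDegree_X_sub_C] at h1
      omega
    have hs' : ((Q /ₘ (X - C a)).map (PowerSeries.constantCoeff (R := E))).Separable := by
      rw [← hfac, Polynomial.map_mul] at hs
      exact hs.of_mul_right
    rw [← hfac]
    exact (Splits.X_sub_C a).mul (ih _ hm' hn' hs')

theorem splits_of_hensel [IsAlgClosed E] (Q : (PowerSeries E)[X]) (hm : Q.Monic)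
    (hs : (Q.map (PowerSeries.constantCoeff (R := E))).Separable) : Q.Splits :=
  splits_of_hensel_aux _ Q hm rfl hs

theorem splits_loc [IsAlgClosed E] (q : E[X][X]) (hm : q.Monic) (y₀ : E)
    (hs : (ev y₀ q).Separable) : (ev (loc y₀) q).Splits := by
  let φ : E[X] →+* PowerSeries E :=
    eval₂RingHom (PowerSeries.C (R := E)) (PowerSeries.C y₀ + PowerSeries.X)
  have h1 : (PowerSeries.constantCoeff (R := E)).comp φ = (aeval y₀ : E[X] →ₐ[E] E).toRingHom := by
    apply Polynomial.ringHom_ext
    · intro a
      simp [φ]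
    · simp [φ]
  have h2 : (HahnSeries.ofPowerSeries ℤ E).comp φ =
      (aeval (loc y₀) : E[X] →ₐ[E] LaurentSeries E).toRingHom := by
    apply Polynomial.ringHom_ext
    · intro a
      simp [φ, algebraMap_eq_C]
    · simp [φ, loc, algebraMap_eq_C]
  have h3 : (q.map φ).Splits := by
    apply splits_of_hensel _ (hm.map φ)
    rw [Polynomial.map_map, h1]
    exact hs
  have h4 := h3.map (HahnSeries.ofPowerSeries ℤ E)
  rw [Polynomial.map_map, h2] at h4
  exact h4

theorem splits_inf [IsAlgClosed E] (H : E[X]) (hm : H.Monic) (hk : 1 ≤ H.natDegree)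
    (hk' : (H.natDegree : E) ≠ 0) (a : LaurentSeries E) (ha : a.order = -(H.natDegree : ℤ)) :
    (H.map (algebraMap E (LaurentSeries E)) - C a).Splits ∧
      ∀ x, (H.map (algebraMap E (LaurentSeries E)) - C a).eval x = 0 → Lb (-1) x := by
  have ha0 : a ≠ 0 := by
    rintro rfl
    rw [HahnSeries.order_zero] at ha
    omega
  set T : LaurentSeries E := HahnSeries.single (1 : ℤ) (1 : E) with hT
  have hT0 : T ≠ 0 := HahnSeries.single_ne_zero one_ne_zero
  set P : (LaurentSeries E)[X] := H.map (algebraMap E (LaurentSeries E)) - C a with hP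
  have hmH : (H.map (PowerSeries.C (R := E))).Monic := hm.map _
  have hdH : (H.map (PowerSeries.C (R := E))).natDegree = H.natDegree := hm.natDegree_map _
  let Q : (PowerSeries E)[X] :=
    (H.map (PowerSeries.C (R := E))).scaleRoots PowerSeries.X - C a.powerSeriesPart
  have hQm : Q.Monic := by
    apply Monic.sub_of_left ((monic_scaleRoots_iff _).2 hmH)
    rw [degree_scaleRoots, hm.degree_map, degree_eq_natDegree hm.ne_zero]
    exact lt_of_le_of_lt degree_C_le (by exact_mod_cast hk)
  have hQs : Q.Splits := by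
    apply splits_of_hensel Q hQm
    have h1 : Q.map (PowerSeries.constantCoeff (R := E)) =
        X ^ H.natDegree - C (a.coeff a.order) := by
      simp only [Q]
      rw [Polynomial.map_sub, map_scaleRoots _ _ _ (by rw [hmH.leadingCoeff]; simp),
        Polynomial.map_map, map_C, PowerSeries.constantCoeff_X, scaleRoots_zero,
        PowerSeries.constantCoeff_comp_C, Polynomial.map_id, hm.leadingCoeff, one_smul,
        ← PowerSeries.coeff_zero_eq_constantCoeff_apply, LaurentSeries.powerSeriesPart_coeff]
      simp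
    rw [h1]
    exact separable_X_pow_sub_C _ hk' (fun h => ha0 (HahnSeries.coeff_order_eq_zero.1 h))
  have hPd : P.natDegree = H.natDegree := by
    rw [hP, natDegree_sub_C, hm.natDegree_map]
  have hQP : Q.map (HahnSeries.ofPowerSeries ℤ E) = P.scaleRoots T := by
    simp only [Q]
    rw [Polynomial.map_sub, map_scaleRoots _ _ _ (by rw [hmH.leadingCoeff]; simp),
      Polynomial.map_map, map_C, HahnSeries.ofPowerSeries_X,
      LaurentSeries.ofPowerSeries_powerSeriesPart, ha, neg_neg]
    have h1 : (HahnSeries.ofPowerSeries ℤ E).comp (PowerSeries.C (R := E)) =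
        algebraMap E (LaurentSeries E) := by
      ext1 c
      rw [RingHom.comp_apply, HahnSeries.ofPowerSeries_C, algebraMap_eq_C]
    rw [h1]
    ext1 i
    rw [coeff_sub, coeff_scaleRoots, coeff_scaleRoots, hPd, hm.natDegree_map, hP, coeff_sub,
      sub_mul, coeff_C, coeff_C]
    congr 1
    split_ifs with hi
    · rw [hi, Nat.sub_zero, hT, HahnSeries.single_pow, mul_comm]
      simp
    · rw [zero_mul]
  have hS : (P.scaleRoots T).Splits := hQP ▸ hQs.map _
  constructor
  · have h2 := hS.scaleRoots T⁻¹
    rwa [← scaleRoots_mul, mul_inv_cancel₀ hT0, scaleRoots_one] at h2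
  · intro x hx
    have h3 : (P.scaleRoots T).eval (T * x) = 0 := by
      rw [scaleRoots_eval_mul, hx, mul_zero]
    have h4 : Lb 0 (T * x) := by
      refine Lb_root (hQP ▸ hQm.map _) (fun l => ?_) h3
      rw [← hQP, coeff_map]
      intro n hn
      rw [PowerSeries.coeff_coe, if_pos hn]
    intro n hn
    have h5 := h4 (n + 1) (by omega)
    rwa [hT, HahnSeries.coeff_single_mul_add, one_mul] at h5

end Vale.Agent.P042Y
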