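import Vale.Agent.P042Y.TC
import Vale.Agent.P042Y.TH

/-! Irreducibility over a field with disjoint ramification. -/

namespace Vale.Agent.P042Y

open Polynomial Finset

variable {E : Type} [Field E]

theorem TD_int {F K L : Type} [Field F] [Field K] [Field L] [Algebra F K] (τ : F →+* L)
    {G : F[X]} (hG : G ≠ 0) (hs : (G.map τ).Splits) {s : K} (h : aeval s G = 0) :
    IsIntegral F s ∧ ((minpoly F s).map τ).Splits :=
  ⟨IsAlgebraic.isIntegral ⟨G, hG, h⟩,
    hs.of_dvd (Polynomial.map_ne_zero hG) (Polynomial.map_dvd τ (minpoly.dvd F s h))⟩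

theorem TD_map_coeff {N B : Type} [CommRing N] [CommRing B] (ψ : N →+* B) (m : Multiset N)
    (i : ℕ) : ψ (((m.map fun r => X - C r).prod).coeff i) =
      (((m.map ψ).map fun r => X - C r).prod).coeff i := by
  rw [← coeff_map, Polynomial.map_multiset_prod, Multiset.map_map, Multiset.map_map]
  simp

theorem TD_roots {F K L : Type} [Field F] [Field K] [Field L] [Algebra F K] (τ : F →+* L)
    {G : F[X]} (hG : G ≠ 0) (hs : (G.map τ).Splits) (m : Multiset K)
    (hm : ∀ r ∈ m, aeval r G = 0) (i : ℕ) {z : K}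
    (hz : z = ((m.map fun r => X - C r).prod).coeff i) :
    ((minpoly F z).map τ).Splits ∧ ∀ x, ((minpoly F z).map τ).eval x = 0 →
      ∃ t : Multiset L, t.card = m.card ∧ (∀ r ∈ t, (G.map τ).eval r = 0) ∧
        x = ((t.map fun r => X - C r).prod).coeff i := by
  letI : Algebra F L := τ.toAlgebra
  have hS : ∀ s ∈ {r : K | aeval r G = 0},
      IsIntegral F s ∧ ((minpoly F s).map (algebraMap F L)).Splits :=
    fun s h => TD_int τ hG hs h
  set N := IntermediateField.adjoin F {r : K | aeval r G = 0} with hN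
  let m' : Multiset N := m.attach.map fun r =>
    ⟨r.1, IntermediateField.subset_adjoin _ _ (hm r.1 r.2)⟩
  have h1 : m'.map (N.val : N →+* K) = m := by
    simp only [m', Multiset.map_map]
    exact Multiset.attach_map_val m
  have h2 : ((((m'.map fun r => X - C r).prod).coeff i : N) : K) = z := by
    rw [hz, ← h1]
    exact TD_map_coeff (N.val : N →+* K) m' i
  have h3 : z ∈ N := h2 ▸ (((m'.map fun r => X - C r).prod).coeff i).2
  refine ⟨IntermediateField.splits_of_mem_adjoin F K hS h3, fun x hx => ?_⟩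
  obtain ⟨φ, hφ⟩ := IntermediateField.exists_algHom_adjoin_of_splits_of_aeval hS h3 (y := x)
    (by rw [← eval_map_algebraMap]; exact hx)
  refine ⟨m'.map (φ : N →+* L), by simp [m'], fun r hr => ?_, ?_⟩
  · obtain ⟨r', hr', rfl⟩ := Multiset.mem_map.1 hr
    have a1 : aeval (r' : K) G = 0 := hm _ (h1 ▸ Multiset.mem_map_of_mem _ hr')
    have a2 : aeval r' G = 0 := by
      apply (N.val : N →+* K).injective
      rw [map_zero, ← a1]
      exact (aeval_algHom_apply N.val r' G).symm
    change (G.map (algebraMap F L)).eval (φ r') = 0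
    rw [eval_map_algebraMap, aeval_algHom_apply, a2, map_zero]
  · rw [← TD_map_coeff, ← hφ]
    exact congrArg φ (Subtype.ext h2.symm)

theorem TD_Lb (t : Multiset (LaurentSeries E)) (ht : ∀ r ∈ t, Lb (-1) r) (i : ℕ) :
    Lb (-(t.card : ℤ)) (((t.map fun r => X - C r).prod).coeff i) := by
  induction t using Multiset.induction_on generalizing i with
  | empty =>
    simp only [Multiset.map_zero, Multiset.prod_zero, coeff_one]
    split_ifs
    · have := Lb_algebraMap (1 : E)
      rw [map_one] at this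
      exact this.mono (by simp)
    · exact Lb_zero' _
  | cons a t ih =>
    have ih' := ih fun r hr => ht r (Multiset.mem_cons_of_mem hr)
    have ha := ht a (Multiset.mem_cons_self a t)
    rw [Multiset.map_cons, Multiset.prod_cons, sub_mul, coeff_sub, coeff_C_mul,
      Multiset.card_cons]
    refine Lb.sub' ?_ ((ha.mul (ih' i)).mono (by push_cast; omega))
    cases i with
    | zero =>
      rw [coeff_X_mul_zero]
      exact Lb_zero' _
    | succ i =>
      rw [coeff_X_mul]
      exact (ih' i).mono (by push_cast; omega)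

theorem TD_ev {L : Type} [Field L] [Algebra E L] {v : L} (τ : RatFunc E →ₐ[E] L)
    (hτ : ∀ q : E[X], τ (algebraMap E[X] (RatFunc E) q) = aeval v q) (P : E[X][X]) :
    (P.map (algebraMap E[X] (RatFunc E))).map (τ : RatFunc E →+* L) = ev v P := by
  rw [Polynomial.map_map]
  unfold ev
  congr 1
  exact RingHom.ext fun q => hτ q

theorem TD_coeff [IsAlgClosed E] (p : ℕ) [Fact p.Prime] [CharP E p] {K : Type} [Field K]
    [Algebra E[X] K] [Algebra (RatFunc E) K] [IsScalarTower E[X] (RatFunc E) K] (x₁ x₂ : K)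
    (hgen : IntermediateField.adjoin (RatFunc E) {x₁, x₂} = ⊤) (q₁ q₂ g g' : E[X][X])
    (hq₁ : q₁.Monic) (hq₂ : q₂.Monic) (hg : g.Monic) (hg' : g'.Monic)
    (h₁ : aeval x₁ q₁ = 0) (h₂ : aeval x₂ q₂ = 0)
    (hdvd : g ∣ g') (hd : q₁.natDegree * q₂.natDegree < p) (hdg : g.natDegree < p)
    (hfin : ∀ y₀ : E, ((ev y₀ q₁).Separable ∧ (ev y₀ q₂).Separable) ∨ (ev y₀ g').Separable)
    (w : LaurentSeries E) (e : ℕ) (he : 1 ≤ e) (he' : (e : E) ≠ 0) (hw : w.order = -(e : ℤ))
    (hinf : (ev w g').Splits) (hroot : ∀ x, (ev w g').eval x = 0 → Lb (-1) x)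
    (g₁ : K[X]) (hg₁ : g₁.Monic) (hd₁ : g₁ ∣ g.map (algebraMap E[X] K)) (i : ℕ) :
    g₁.coeff i ∈ (algebraMap E[X] K).range := by
  have hint : IsIntegral E[X] (g₁.coeff i) := isIntegral_coeff_of_dvd g g₁ hg hg₁ hd₁ i
  have hmin := minpoly.isIntegrallyClosed_eq_field_fractions' (RatFunc E) hint
  have hPm : (minpoly E[X] (g₁.coeff i)).Monic := minpoly.monic hint
  have n₁ : q₁.map (algebraMap E[X] (RatFunc E)) ≠ 0 := (hq₁.map _).ne_zero
  have n₂ : q₂.map (algebraMap E[X] (RatFunc E)) ≠ 0 := (hq₂.map _).ne_zero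
  have n₃ : g'.map (algebraMap E[X] (RatFunc E)) ≠ 0 := (hg'.map _).ne_zero
  have r₁ : aeval x₁ (q₁.map (algebraMap E[X] (RatFunc E))) = 0 := by
    rw [aeval_map_algebraMap, h₁]
  have r₂ : aeval x₂ (q₂.map (algebraMap E[X] (RatFunc E))) = 0 := by
    rw [aeval_map_algebraMap, h₂]
  have i₁ : IsIntegral (RatFunc E) x₁ := IsAlgebraic.isIntegral ⟨_, n₁, r₁⟩
  have i₂ : IsIntegral (RatFunc E) x₂ := IsAlgebraic.isIntegral ⟨_, n₂, r₂⟩
  have hfd : Module.Finite (RatFunc E) K := by
    have := IntermediateField.finiteDimensional_adjoin_pair i₁ i₂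
    rw [hgen] at this
    exact Module.Finite.equiv (IntermediateField.topEquiv (F := RatFunc E) (E := K)).toLinearEquiv
  have hrk : Module.finrank (RatFunc E) K ≤ q₁.natDegree * q₂.natDegree := by
    rw [← IntermediateField.finrank_top', ← hgen, Set.insert_eq, IntermediateField.adjoin_union]
    refine (IntermediateField.finrank_sup_le _ _).trans (Nat.mul_le_mul ?_ ?_)
    · rw [IntermediateField.adjoin.finrank i₁, ← hq₁.natDegree_map (algebraMap E[X] (RatFunc E))]
      exact natDegree_le_of_dvd (minpoly.dvd _ _ r₁) n₁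
    · rw [IntermediateField.adjoin.finrank i₂, ← hq₂.natDegree_map (algebraMap E[X] (RatFunc E))]
      exact natDegree_le_of_dvd (minpoly.dvd _ _ r₂) n₂
  have hdeg : (minpoly E[X] (g₁.coeff i)).natDegree < p := by
    have := minpoly.natDegree_le (A := RatFunc E) (g₁.coeff i)
    rw [hmin, hPm.natDegree_map] at this
    omega
  have hm₁ : (g₁.map (algebraMap K (AlgebraicClosure K))).Monic := hg₁.map _
  have hz : algebraMap K (AlgebraicClosure K) (g₁.coeff i) =
      (((g₁.map (algebraMap K (AlgebraicClosure K))).roots.map fun r => X - C r).prod).coeff i := by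
    rw [← (IsAlgClosed.splits _).eq_prod_roots_of_monic hm₁, coeff_map]
  have hrt : ∀ r ∈ (g₁.map (algebraMap K (AlgebraicClosure K))).roots,
      aeval r (g'.map (algebraMap E[X] (RatFunc E))) = 0 := by
    intro r hr
    have a1 : aeval r g₁ = 0 := by
      rw [← eval_map_algebraMap]
      exact (mem_roots hm₁.ne_zero).1 hr
    have a2 : aeval r (g'.map (algebraMap E[X] K)) = 0 :=
      aeval_eq_zero_of_dvd_aeval_eq_zero (hd₁.trans (Polynomial.map_dvd _ hdvd)) a1
    rw [← eval_map_algebraMap, Polynomial.map_map] at a2 ⊢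
    rw [← a2]
    congr 2
    refine RingHom.ext fun a => ?_
    rw [RingHom.comp_apply, RingHom.comp_apply,
      IsScalarTower.algebraMap_apply (RatFunc E) K (AlgebraicClosure K),
      ← IsScalarTower.algebraMap_apply E[X] (RatFunc E) K]
  have hmin' : minpoly (RatFunc E) (algebraMap K (AlgebraicClosure K) (g₁.coeff i)) =
      (minpoly E[X] (g₁.coeff i)).map (algebraMap E[X] (RatFunc E)) := by
    rw [minpoly.algebraMap_eq (algebraMap K (AlgebraicClosure K)).injective, hmin]
  have hcard : (g₁.map (algebraMap K (AlgebraicClosure K))).roots.card ≤ g.natDegree := by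
    refine (card_roots' _).trans ?_
    rw [hg₁.natDegree_map, ← hg.natDegree_map (algebraMap E[X] K)]
    exact natDegree_le_of_dvd hd₁ (hg.map _).ne_zero
  have hwt : Transcendental E w := by
    rw [transcendental_iff]
    intro q h
    by_contra h0
    exact (order_aeval he hw q h0).1 h
  obtain ⟨τw, hτw⟩ := exists_lift w hwt
  obtain ⟨s1, s2⟩ := TD_roots (τw : RatFunc E →+* LaurentSeries E) n₃
    (by rw [TD_ev τw hτw]; exact hinf) _ hrt i hz
  rw [hmin', TD_ev τw hτw] at s1 s2
  rw [TD_ev τw hτw] at s2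
  have key := tame p (minpoly E[X] (g₁.coeff i)) hPm (minpoly.irreducible hint) hdeg
    (fun y₀ => by
      obtain ⟨τ, hτ⟩ := exists_lift (loc y₀) (transcendental_loc y₀)
      rw [← TD_ev τ hτ]
      rcases hfin y₀ with ⟨c1, c2⟩ | c3
      · rw [← hmin]
        letI : Algebra (RatFunc E) (LaurentSeries E) :=
          (τ : RatFunc E →+* LaurentSeries E).toAlgebra
        refine IntermediateField.splits_of_mem_adjoin (RatFunc E) K (S := {x₁, x₂})
          (L := LaurentSeries E) ?_ (by rw [hgen]; trivial)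
        rintro s (rfl | rfl)
        · exact TD_int (τ : RatFunc E →+* LaurentSeries E) n₁
            (by rw [TD_ev τ hτ]; exact splits_loc q₁ hq₁ y₀ c1) r₁
        · exact TD_int (τ : RatFunc E →+* LaurentSeries E) n₂
            (by rw [TD_ev τ hτ]; exact splits_loc q₂ hq₂ y₀ c2) r₂
      · rw [← hmin']
        exact (TD_roots (τ : RatFunc E →+* LaurentSeries E) n₃
          (by rw [TD_ev τ hτ]; exact splits_loc g' hg' y₀ c3) _ hrt i hz).1)
    w e he he' hw s1 g.natDegree hdg (fun x hx => by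
      obtain ⟨t, t1, t2, rfl⟩ := s2 x hx
      exact (TD_Lb t (fun r hr => hroot r (t2 r hr)) i).mono (by omega))
  have := minpoly.natDegree_pos hint
  exact minpoly.natDegree_eq_one_iff.1 (by omega)

theorem irr_step [IsAlgClosed E] (p : ℕ) [Fact p.Prime] [CharP E p] {K : Type} [Field K]
    [Algebra E K] (w₀ x₁ x₂ : K) (htr : Transcendental E w₀)
    (hgen : IntermediateField.adjoin E {w₀, x₁, x₂} = ⊤) (q₁ q₂ g g' : E[X][X])
    (hq₁ : q₁.Monic) (hq₂ : q₂.Monic) (hg : g.Monic) (hg' : g'.Monic)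
    (h₁ : (ev w₀ q₁).eval x₁ = 0) (h₂ : (ev w₀ q₂).eval x₂ = 0) (hirr : Irreducible g)
    (hdvd : g ∣ g') (hd : q₁.natDegree * q₂.natDegree < p) (hdg : g.natDegree < p)
    (hfin : ∀ y₀ : E, ((ev y₀ q₁).Separable ∧ (ev y₀ q₂).Separable) ∨ (ev y₀ g').Separable)
    (w : LaurentSeries E) (e : ℕ) (he : 1 ≤ e) (he' : (e : E) ≠ 0) (hw : w.order = -(e : ℤ))
    (hinf : (ev w g').Splits) (hroot : ∀ x, (ev w g').eval x = 0 → Lb (-1) x) :
    Irreducible (ev w₀ g) := by
  obtain ⟨τ₀, hτ₀⟩ := exists_lift w₀ htr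
  letI : Algebra (RatFunc E) K := (τ₀ : RatFunc E →+* K).toAlgebra
  letI : Algebra E[X] K := (aeval w₀ : E[X] →ₐ[E] K).toRingHom.toAlgebra
  haveI : IsScalarTower E[X] (RatFunc E) K :=
    IsScalarTower.of_algebraMap_eq fun q => (hτ₀ q).symm
  haveI : IsScalarTower E (RatFunc E) K :=
    IsScalarTower.of_algebraMap_eq fun c => (τ₀.commutes c).symm
  have hev : ∀ q : E[X][X], ev w₀ q = q.map (algebraMap E[X] K) := fun _ => rfl
  have hgen' : IntermediateField.adjoin (RatFunc E) {x₁, x₂} = ⊤ := by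
    rw [eq_top_iff]
    intro x _
    have : IntermediateField.adjoin E {w₀, x₁, x₂} ≤
        (IntermediateField.adjoin (RatFunc E) {x₁, x₂}).restrictScalars E := by
      rw [IntermediateField.adjoin_le_iff]
      rintro s (rfl | hs)
      · have a1 : algebraMap (RatFunc E) K (algebraMap E[X] (RatFunc E) X) = s := by
          change τ₀ _ = s
          rw [hτ₀, aeval_X]
        have a2 := (IntermediateField.adjoin (RatFunc E) {x₁, x₂}).algebraMap_mem
          (algebraMap E[X] (RatFunc E) X)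
        rw [a1] at a2
        exact a2
      · exact IntermediateField.subset_adjoin (RatFunc E) _ hs
    exact this (by rw [hgen]; trivial)
  have hinj : Function.Injective (algebraMap E[X] K) := transcendental_iff_injective.1 htr
  rw [hev, eval_map_algebraMap] at h₁ h₂
  have hlift : ∀ g₁ : K[X], g₁.Monic → g₁ ∣ g.map (algebraMap E[X] K) →
      ∃ G : E[X][X], G.map (algebraMap E[X] K) = g₁ ∧ G.natDegree = g₁.natDegree ∧ G.Monic :=
    fun g₁ a1 a2 => lifts_and_natDegree_eq_and_monic ((lifts_iff_coeff_lifts g₁).2 fun i =>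
      TD_coeff p x₁ x₂ hgen' q₁ q₂ g g' hq₁ hq₂ hg hg' h₁ h₂ hdvd hd hdg hfin w e he he' hw hinf
        hroot g₁ a1 a2 i) a1
  obtain ⟨b1, b2⟩ := hg.irreducible_iff_natDegree.1 hirr
  rw [hev, (hg.map _).irreducible_iff_natDegree]
  refine ⟨fun h => b1 ?_, fun g₁ g₂ a1 a2 a3 => ?_⟩
  · apply Polynomial.map_injective _ hinj
    rw [h, Polynomial.map_one]
  · obtain ⟨G₁, c1, c2, c3⟩ := hlift g₁ a1 ⟨g₂, a3.symm⟩
    obtain ⟨G₂, d1, d2, d3⟩ := hlift g₂ a2 ⟨g₁, by rw [← a3, mul_comm]⟩
    rw [← c2, ← d2]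
    refine b2 G₁ G₂ c3 d3 (Polynomial.map_injective _ hinj ?_)
    rw [Polynomial.map_mul, c1, d1, a3]

end Vale.Agent.P042Y
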